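import Vale.Agent.P216.H894.MooreA
import Vale.Agent.P216.H539.MooreC

/-!
# P216-B, block [W6], part A3: `f_map`, `g_map`, `gf` for the maps `MR.fM`, `MR.gM`
-/

set_option linter.all false

namespace Vale.Agent.P216.H894

open Set Filter Topology BoundedContinuousFunction
open Vale.Agent.P216.AS (IsMap IsHtpy)
open Vale.Agent.P216.H901 (tr Hp SpIntl)
open Vale.Agent.P216.L250
open Vale.Agent.P216.LS (UniqSeg)
open Vale.Agent.P216.MV337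

variable {M : Type} [MetricSpace M] {ρ t ε : ℝ}

theorem MR_gM_eq (ht : 0 ≤ t) {w : ℝ →ᵇ M} (hw : w ∈ FL M t) : MR.gM t w = gM t w :=
  ext_Ico fun u hu => by
    rw [MR.fn_gM_Icc ht hw ⟨hu.1, hu.2.le⟩, fn_gM ht hw ⟨hu.1, hu.2.le⟩]

theorem g_map (ht : 0 < t) (hε : 0 ≤ ε) :
    IsMap (tr (ℝ →ᵇ M)) (tr (LM M)) (FL M t) (XE M (t + ε)) (MR.gM t) where
  mapsX w hw := by
    rw [MR_gM_eq ht.le hw]
    exact (isMap_gM ht.le (by linarith)).mapsX hw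
  eqv i := i.elim
  uc η hη := ⟨η, hη, fun w hw w' hw' h => by
    rw [MR_gM_eq ht.le hw, MR_gM_eq ht.le hw']
    exact (dist_gM_le ht.le hw hw').trans_lt h⟩

variable [CompactSpace M]

theorem MR_fM_eq (γ : LM M) : MR.fM ρ ε t γ = fM (MR.KN ρ t) ε γ := rfl

theorem f_map (hρ : 0 < ρ) (hU : UniqSeg M ρ) (hε : 0 < ε) (ht : 0 < t) :
    IsMap (tr (LM M)) (tr (ℝ →ᵇ M)) (XE M t) (FL M (t + ε)) (MR.fM ρ ε t) :=
  isMap_fM hU hρ hε ht.le (MR.lt_KN hρ t)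

/-- **gf** as required by `SpIntl`. -/
theorem gf_MR (hρ : 0 < ρ) (hU : UniqSeg M ρ) (hε : 0 < ε) (ht : 0 < t) :
    Hp (XE M t) ∅ (XE M (t + ε + ε)) ∅ id (MR.gM (t + ε) ∘ MR.fM ρ ε t) := by
  refine Hp_congr (Hp_mono (Hp_gf hU hρ ht.le hε (MR.lt_KN hρ t))
    (XE_mono (by linarith) (by linarith))) (fun _ _ => rfl) fun γ hγ => ?_
  show gM (t + ε) (fM (MR.KN ρ t) ε γ) = MR.gM (t + ε) (MR.fM ρ ε t γ)
  rw [MR_fM_eq, MR_gM_eq (by linarith) (fM_mem hU hρ hε ht.le (MR.lt_KN hρ t) hγ)]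

end Vale.Agent.P216.H894
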