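import Vale.Agent.P216.H894.SignC
import Vale.Agent.P216.H285.Rev4

/-!
# P216-C, C13-SIGN: `OmegaSignC` for the classes of `OmegaOutC`
-/

open Finsupp Set BoundedContinuousFunction

set_option linter.all false

namespace Vale.Agent.P216.H894

open Vale.Agent.P216.Sl Vale.Agent.P216.PS Vale.Agent.P216.N929 Vale.Agent.P216.H977C
open Vale.Agent.P216.H754B (rv rv_apply rv_mem_P dist_rv_le opP PMOp)
open Vale.Agent.P216.B64 (HU hres hpull UMap OmegaOutC OmegaSignC RevP)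
open Vale.Agent.P216.H250 (catR)

variable {k : Type} [Field k] {M : Type} [MetricSpace M] [CompactSpace M] {n e D : ℕ}

section

variable (G : Geo M n) (τ : Tau k M n G.ρ₁) (E : Eta k M e) (hD : D + 1 = n + e)

/-- `W b j` on the loops at `x₀`: directly, or after a path to `y b`. -/
theorem W_tf {Dp : ℝ} (hDp : IsPi M Dp) (b : Bool) (j T : ℕ) {l : List (ℝ →ᵇ M)}
    (hl : l.length = j * D + 1) (hm : ∀ w ∈ l, w ∈ P G.x₀ G.x₀ T) :
    tf hDp G.x₀ (G.y b) (W G τ E hD b j) T l = W G τ E hD b j l := by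
  rw [tf, max_eq_left (Nat.cast_nonneg T)]
  exact Sg.W_catR G τ E hD b j hDp.nonneg (G.hx _) (G.hy _) (vv_mem hDp G.x₀ (G.y b)) hl hm

/-- `A b j` on the loops at `x₀`. -/
theorem A_tf (hE : AddE E.f) (he : 1 ≤ e) {Dp : ℝ} (hDp : IsPi M Dp) (b : Bool) (j T : ℕ)
    {l : List (ℝ →ᵇ M)} (hl : l.length = j * D + e + 1) (hm : ∀ w ∈ l, w ∈ P G.x₀ G.x₀ T) :
    tf hDp G.x₀ (G.y b) (A G τ E hD b j) T l = A G τ E hD b j l := by
  have hv := vv_mem hDp G.x₀ (G.y b)
  have h1 : W G τ E hD b j ((l.drop e).map (catR T (vv hDp G.x₀ (G.y b)))) =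
      W G τ E hD b j (l.drop e) :=
    Sg.W_catR G τ E hD b j hDp.nonneg (G.hx _) (G.hy _) hv
      (by rw [List.length_drop, hl]; omega) fun w hw => hm w (List.mem_of_mem_drop hw)
  have h2 : E.f ((l.take (e + 1)).map (catR T (vv hDp G.x₀ (G.y b)))) =
      E.f (l.take (e + 1)) := by
    have h3 := hE G.x₀ G.x₀ (G.y b) T Dp hDp.nonneg
      ((l.take (e + 1)).map fun w => (w, vv hDp G.x₀ (G.y b)))
      (by
        intro h0
        have := congrArg List.length h0
        rw [List.length_map, List.length_take, List.length_nil] at this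
        omega)
      (fun x hx => by
        obtain ⟨w, hw, rfl⟩ := List.mem_map.1 hx
        exact ⟨hm w (List.mem_of_mem_take hw), hv⟩)
    rw [List.map_map, List.map_map, List.map_map] at h3
    have e1 : (l.take (e + 1)).map (Prod.fst ∘ fun w => (w, vv hDp G.x₀ (G.y b))) =
        l.take (e + 1) := by
      conv_rhs => rw [← List.map_id (l.take (e + 1))]
      rfl
    have e2 : E.f ((l.take (e + 1)).map
        (Prod.snd ∘ fun w : ℝ →ᵇ M => (w, vv hDp G.x₀ (G.y b)))) = 0 := by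
      rw [show (Prod.snd ∘ fun w : ℝ →ᵇ M => (w, vv hDp G.x₀ (G.y b))) =
        fun _ => vv hDp G.x₀ (G.y b) from rfl, List.map_const']
      refine E.nrm _ fun hc => ?_
      rw [List.length_take, hl, min_eq_left (by omega), show e + 1 = (e - 1) + 1 + 1 by omega,
        List.replicate_succ, List.replicate_succ, List.isChain_cons_cons] at hc
      exact hc.1 rfl
    rw [e1, e2, add_zero] at h3
    exact h3
  rw [tf, max_eq_left (Nat.cast_nonneg T), A, N929.cup, N929.cup, ← List.map_take,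
    ← List.map_drop, h1, h2]

/-- **C13-SIGN.** -/
theorem omegaSignC_out (hE : AddE E.f) (he : 1 ≤ e) (hen : e + 1 < n) (hn : Even n)
    (hDe : Even D) {Ca s : ℝ} {ℓ : ℕ} (hs : 0 ≤ s) (hC : 1 + ℓ + s ≤ Ca)
    (hv : ∀ b, ∃ v : ℝ →ᵇ M, v ∈ P (G.y (!b)) (G.y b) ℓ) (hmid : Mid (D := D) G τ E s)
    {ρ r₀ εt Dp B0 : ℝ} (h : LS.UniqSeg M ρ) (hr : 0 < G.r) (hrρ : G.r < ρ) (hr0 : r₀ < G.r)
    (hεt : 0 < εt) (htau : IsTau n r₀ εt τ.f) (hDp : IsPi M Dp) (hCa : 0 ≤ Ca) (hn2 : 2 ≤ n)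
    (hN : D + 1 = n + e) (hq : 1 ≤ e) (hB0 : 0 ≤ B0) (hL : C313.LowC M e B0)
    (h2 : (2 : k) ≠ 0) :
    OmegaSignC ((omSysC G τ E hD hE he hen hs hC hv hmid).out h hr hrρ hr0 hεt htau hDp hCa hn2
      hN hq hB0 hL h2) := by
  set O := (omSysC G τ E hD hE he hen hs hC hv hmid).out h hr hrρ hr0 hεt htau hDp hCa hn2
      hN hq hB0 hL h2 with hO
  have hDp0 := hDp.nonneg
  have hB : 0 ≤ OmSysC.BC G.r Ca Dp B0 := by
    unfold OmSysC.BC
    linarith
  have hz : ∀ t, 0 ≤ t → ∀ (h : P G.x₀ G.x₀ t ⊆ P G.x₀ G.x₀ (t + OmSysC.BC G.r Ca Dp B0))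
      (z : HU k (P G.x₀ G.x₀ (t + OmSysC.BC G.r Ca Dp B0)) (n - 1)),
      hres k h (n - 1) z = 0 := by
    refine O.zero (n - 1) (fun j => ?_) fun j => ?_
    · rcases j with _ | j
      · omega
      · have : D ≤ (j + 1) * D := Nat.le_mul_of_pos_left D (Nat.succ_pos j)
        omega
    · rcases j with _ | j
      · omega
      · have : D ≤ (j + 1) * D := Nat.le_mul_of_pos_left D (Nat.succ_pos j)
        omega
  have hexT : ∀ b, H285.ExT G τ E hD b := fun b => H285.exT_of G τ E hD b hB hz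
  refine signC G τ E hD hE he hen hn hDe (s := ⌈2 * Dp + ((1 : ℕ) : ℝ) * (1 + ℓ + s) + 1⌉₊)
    (fun b hex => ?_) (fun b => H285.exL_W1 G τ E hD hE b (hexT b) _)
    (fun T => H285.exL_E E G.x₀ hE he T) hB O (fun j T => ?_) fun j T => ?_
  · refine Sg.W_loop_ne G τ E hD hE he hen hs hDp0 hv (fun b => ?_) (fun b => ?_) hmid 1 b
      (Nat.le_ceil _) ?_
    · exact hDp.ne _ _
    · exact hDp.ne _ _
    · rw [Nat.one_mul]
      exact hex
  · exact cls_eq_of (hf := tf_coc hDp G.x₀ (G.y false) (W G τ E hD false j)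
      (W_cocL G τ E hD false j) T) fun l hl hs => W_tf G τ E hD hDp false j T hl hs.1
  · exact cls_eq_of (hf := tf_coc hDp G.x₀ (G.y false) (A G τ E hD false j)
      (A_cocL G τ E hD false j) T) fun l hl hs => A_tf G τ E hD hE he hDp false j T hl hs.1

end

end Vale.Agent.P216.H894
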