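import Vale.Agent.P216.B609.GoalsD

/-!
# P216-D, [GEN] (3): the arithmetic of the slots

`E_2^{p,q} = H^p(M) ⊗ H^q(Ω)`. `Bs p`: `H^p(M)` is a line (otherwise zero); `Fs q`: the stable
`H^q(Ω)` is a line of weight `w q` (otherwise zero).
-/

set_option linter.all false

namespace Vale.Agent.P216.H894

open Vale.Agent.P216.B609 (wtD)

/-- **The arithmetic of the slots**: at most one slot in every total degree `n`, the weight is
`W n`, no slot just below the degrees `e i`, and the slots of total degree `e i + 1` outside the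
fibre have another weight than the fibre class of degree `e i`. -/
structure Ar {k : Type} [Field k] (Bs Fs : ℕ → Prop) (w W : ℕ → k) (e : ℕ → ℕ) : Prop where
  uniq : ∀ p q p' q', Bs p → Fs q → Bs p' → Fs q' → p + q = p' + q' → p = p' ∧ q = q'
  wt : ∀ p q, Bs p → Fs q → w q = W (p + q)
  gap : ∀ i p q, Bs p → Fs q → p + q + 1 ≠ e i
  fe : ∀ i, Fs (e i)
  ne : ∀ i p q, Bs p → Fs q → 0 < p → p + q = e i + 1 → w q ≠ w (e i)
  pos : ∀ i, 0 < e i

/-- the weight in the total degree `n`, for the parity `par` -/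
def wD {k : Type} [Field k] (μ : k) (par n : ℕ) : k := μ⁻¹ ^ ((n + 1 - par) / 2)

theorem wD_eq (k : Type) [Field k] (q m n : ℕ) : wD (m : k) q n = wtD k q m n := rfl

theorem pow_shift {k : Type} [Field k] {μ : k} (h0 : μ ≠ 0) {c : ℕ} (hc : μ ^ c = 1) {a i n : ℕ}
    (h : a + i = c * n) : μ⁻¹ ^ a = μ ^ i := by
  have h1 : μ⁻¹ ^ a * μ⁻¹ ^ i = 1 := by
    rw [← pow_add, h, pow_mul, inv_pow, hc, inv_one, one_pow]
  have h2 : μ⁻¹ ^ i * μ ^ i = 1 := by rw [← mul_pow, inv_mul_cancel₀ h0, one_pow]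
  calc μ⁻¹ ^ a = μ⁻¹ ^ a * (μ⁻¹ ^ i * μ ^ i) := by rw [h2, mul_one]
    _ = μ ^ i := by rw [← mul_assoc, h1, one_mul]

theorem pow_ne_succ {k : Type} [Field k] {μ : k} (h0 : μ ≠ 0) (h1 : μ ≠ 1) (i : ℕ) :
    μ ^ i ≠ μ ^ (i + 1) := by
  intro h
  rw [pow_succ] at h
  exact h1 (mul_left_cancel₀ (pow_ne_zero i h0) (by rw [← h, mul_one]))

/-! ### `d` even -/

section Even

theorem slot_even_uniq {d h N : ℕ} (hd : 2 < d) (hN : N + 2 = d * (h + 1)) {j i j' i' : ℕ}
    (hj : j ≤ h) (hj' : j' ≤ h) (he : d * j + i * N = d * j' + i' * N) : j = j' ∧ i = i' := by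
  have hdh : d * h + d = N + 2 := by rw [hN]; ring
  have key : ∀ {j i j' i' : ℕ}, j ≤ h → j' ≤ h → d * j + i * N = d * j' + i' * N → ¬ i < i' := by
    intro j i j' i' hj hj' he hlt
    have h1 : (i + 1) * N ≤ i' * N := Nat.mul_le_mul_right N hlt
    have h2 : d * j ≤ d * h := Nat.mul_le_mul_left d hj
    have h3 : (i + 1) * N = i * N + N := by ring
    have h4 : N ≤ d * j := by
      have : 0 ≤ d * j' := Nat.zero_le _
      omega
    omega
  have hi : i = i' := by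
    rcases lt_trichotomy i i' with h1 | h1 | h1
    · exact absurd h1 (key hj hj' he)
    · exact h1
    · exact absurd h1 (key hj' hj he.symm)
  subst hi
  refine ⟨?_, rfl⟩
  have h1 : d * j = d * j' := by omega
  exact Nat.eq_of_mul_eq_mul_left (by omega) h1

/-- the base degrees -/
def BsE (d h : ℕ) (p : ℕ) : Prop := ∃ j ≤ h, p = d * j

/-- the fibre degrees -/
def FsE (d N : ℕ) (q : ℕ) : Prop := ∃ i, q = i * N ∨ q = i * N + (d - 1)

/-- the weights: `μ ^ i` on `W i`, `μ ^ (i + 1)` on `A i` -/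
def wE {k : Type} [Field k] (μ : k) (N : ℕ) (q : ℕ) : k := μ ^ (q / N + q % 2)

theorem wE_W {k : Type} [Field k] (μ : k) {N i : ℕ} (hN : 0 < N) (hN2 : N % 2 = 0) :
    wE μ N (i * N) = μ ^ i := by
  have h1 : (i * N) % 2 = 0 := by rw [Nat.mul_mod, hN2, Nat.mul_zero, Nat.zero_mod]
  rw [wE, Nat.mul_div_cancel _ hN, h1, Nat.add_zero]

theorem wE_A {k : Type} [Field k] (μ : k) {d N i : ℕ} (hd : d % 2 = 0) (hd0 : 0 < d)
    (hN : d - 1 < N) (hN2 : N % 2 = 0) : wE μ N (i * N + (d - 1)) = μ ^ (i + 1) := by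
  have h1 : (i * N) % 2 = 0 := by rw [Nat.mul_mod, hN2, Nat.mul_zero, Nat.zero_mod]
  have h2 : (i * N + (d - 1)) % 2 = 1 := by omega
  have h3 : (i * N + (d - 1)) / N = i := by
    rw [Nat.add_comm, Nat.add_mul_div_right _ _ (by omega), Nat.div_eq_of_lt hN, Nat.zero_add]
  rw [wE, h3, h2]

/-- **`d` even.** `μ ^ (d / 2) = 1`, `μ ≠ 0, 1`. -/
theorem ar_even {k : Type} [Field k] {d h N : ℕ} {μ : k} (hd2 : d % 2 = 0) (hd : 4 ≤ d)
    (hh : 1 ≤ h) (hN : N + 2 = d * (h + 1)) (hm0 : μ ≠ 0) (hm1 : μ ≠ 1) (hm : μ ^ (d / 2) = 1) :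
    Ar (BsE d h) (FsE d N) (wE μ N) (wD μ 1) (fun i => i * N + (d - 1)) := by
  obtain ⟨c, rfl⟩ : ∃ c, d = 2 * c := ⟨d / 2, by omega⟩
  rw [Nat.mul_div_cancel_left _ (by norm_num : 0 < 2)] at hm
  have hch : 2 * c * (h + 1) = 2 * (c * h) + 2 * c := by ring
  have hcc : c ≤ c * h := Nat.le_mul_of_pos_right c hh
  have hN2 : N % 2 = 0 := by omega
  have hN0 : 0 < N := by omega
  have hNd : 2 * c - 1 < N := by omega
  have hWm : ∀ i, wE μ N (i * N) = μ ^ i := fun i => wE_W μ hN0 hN2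
  have hAm : ∀ i, wE μ N (i * N + (2 * c - 1)) = μ ^ (i + 1) := fun i =>
    wE_A μ hd2 (by omega) hNd hN2
  have p1 : ∀ i, (i * N) % 2 = 0 := fun i => by
    rw [Nat.mul_mod, hN2, Nat.mul_zero, Nat.zero_mod]
  have p2 : ∀ j, (2 * c * j) % 2 = 0 := fun j => by
    rw [Nat.mul_assoc, Nat.mul_mod_right]
  -- `N / 2`
  obtain ⟨N', hN'⟩ : ∃ N', N = 2 * N' := ⟨N / 2, by omega⟩
  have hN'1 : N' + 1 = c * (h + 1) := by
    have : c * (h + 1) = c * h + c := by ring
    omega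
  have h12 : ∀ i, i * N = 2 * (i * N') := fun i => by rw [hN']; ring
  have h13 : ∀ j, 2 * c * j = 2 * (c * j) := fun j => Nat.mul_assoc _ _ _
  have hW : ∀ i j, μ⁻¹ ^ (c * j + i * N') = μ ^ i := fun i j =>
    pow_shift hm0 hm (n := j + i * (h + 1)) (by
      have h2 : c * (j + i * (h + 1)) = c * j + i * (c * (h + 1)) := by ring
      rw [h2, ← hN'1]
      ring)
  have hA : ∀ i j, μ⁻¹ ^ (c * j + i * N' + (c - 1)) = μ ^ (i + 1) := fun i j =>
    pow_shift hm0 hm (n := j + 1 + i * (h + 1)) (by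
      have h2 : c * (j + 1 + i * (h + 1)) = c * j + c + i * (c * (h + 1)) := by ring
      rw [h2, ← hN'1]
      have h3 : i * (N' + 1) = i * N' + i := by ring
      rw [h3]
      omega)
  refine ⟨?_, ?_, ?_, fun i => ⟨i, Or.inr rfl⟩, ?_, fun i =>
    (by omega : 0 < i * N + (2 * c - 1))⟩
  · rintro p q p' q' ⟨j, hj, rfl⟩ ⟨i, hi⟩ ⟨j', hj', rfl⟩ ⟨i', hi'⟩ he
    have q1 := p2 j
    have q2 := p2 j'
    have q3 := p1 i
    have q4 := p1 i'
    rcases hi with rfl | rfl <;> rcases hi' with rfl | rfl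
    · obtain ⟨rfl, rfl⟩ := slot_even_uniq (by omega) hN hj hj' he
      exact ⟨rfl, rfl⟩
    · omega
    · omega
    · have he' : 2 * c * j + i * N = 2 * c * j' + i' * N := by omega
      obtain ⟨rfl, rfl⟩ := slot_even_uniq (by omega) hN hj hj' he'
      exact ⟨rfl, rfl⟩
  · rintro p q ⟨j, hj, rfl⟩ ⟨i, rfl | rfl⟩
    · rw [hWm, wD]
      have h2 : (2 * c * j + i * N + 1 - 1) / 2 = c * j + i * N' := by
        rw [h12, h13]
        omega
      rw [h2, hW]
    · rw [hAm, wD]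
      have h2 : (2 * c * j + (i * N + (2 * c - 1)) + 1 - 1) / 2 = c * j + i * N' + (c - 1) := by
        rw [h12, h13]
        omega
      rw [h2, hA]
  · rintro i p q ⟨j, hj, rfl⟩ ⟨i', rfl | rfl⟩ he
    · -- `2 c j + i' N + 1 = i N + (2 c - 1)`
      have he' : 2 * c * j + i' * N + 2 = i * N + 2 * c := by omega
      have hjh : 2 * c * j ≤ 2 * c * h := Nat.mul_le_mul_left _ hj
      have hh2 : 2 * c * h = 2 * (c * h) := Nat.mul_assoc _ _ _
      rcases lt_trichotomy i i' with h1 | h1 | h1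
      · have h2 : (i + 1) * N ≤ i' * N := Nat.mul_le_mul_right N h1
        have h3 : (i + 1) * N = i * N + N := by ring
        omega
      · subst h1
        have h2 : 2 * c * j + 2 = 2 * c := by omega
        rcases Nat.eq_zero_or_pos j with rfl | hj0
        · omega
        · have : 2 * c * 1 ≤ 2 * c * j := Nat.mul_le_mul_left _ hj0
          omega
      · have h2 : (i' + 1) * N ≤ i * N := Nat.mul_le_mul_right N h1
        have h3 : (i' + 1) * N = i' * N + N := by ring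
        omega
    · have q1 := p2 j
      have q3 := p1 i
      have q4 := p1 i'
      omega
  · rintro i p q ⟨j, hj, rfl⟩ ⟨i', rfl | rfl⟩ hp he
    · have he' : 2 * c * j + i' * N = 2 * c * 1 + i * N := by omega
      obtain ⟨rfl, rfl⟩ := slot_even_uniq (by omega) hN hj hh he'
      rw [hWm, hAm]
      exact pow_ne_succ hm0 hm1 i'
    · have q1 := p2 j
      have q3 := p1 i
      have q4 := p1 i'
      omega

end Even

/-! ### `n` odd: odd spheres -/

section Odd

/-- the base degrees -/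
def BsO (n : ℕ) (p : ℕ) : Prop := p = 0 ∨ p = n

/-- the fibre degrees -/
def FsO (n : ℕ) (q : ℕ) : Prop := ∃ j, q = j * (n - 1)

/-- the weights: `μ ^ j` in degree `j (n - 1)` -/
def wO {k : Type} [Field k] (μ : k) (n : ℕ) (q : ℕ) : k := μ ^ (q / (n - 1))

/-- **`n` odd**, `n ≥ 5`, `μ ^ ((n + 1) / 2) = 1`, `μ ≠ 0, 1`. -/
theorem ar_odd {k : Type} [Field k] {n : ℕ} {μ : k} (hn2 : n % 2 = 1) (hn : 5 ≤ n) (hm0 : μ ≠ 0)
    (hm1 : μ ≠ 1) (hm : μ ^ ((n + 1) / 2) = 1) :
    Ar (BsO n) (FsO n) (wO μ n) (wD μ 0) (fun i => (i + 1) * (n - 1)) := by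
  obtain ⟨c, rfl⟩ : ∃ c, n = 2 * c + 1 := ⟨n / 2, by omega⟩
  have e1 : 2 * c + 1 - 1 = 2 * c := rfl
  have e2 : (2 * c + 1 + 1) / 2 = c + 1 := by omega
  rw [e2] at hm
  have hw : ∀ j, wO μ (2 * c + 1) (j * (2 * c)) = μ ^ j := fun j => by
    rw [wO, e1, Nat.mul_div_cancel _ (by omega)]
  have p1 : ∀ j, j * (2 * c) = 2 * (j * c) := fun j => by ring
  have inj : ∀ {j j'}, j * (2 * c) = j' * (2 * c) → j = j' := fun h =>
    Nat.eq_of_mul_eq_mul_right (by omega) h
  refine ⟨?_, ?_, ?_, fun i => ⟨i + 1, rfl⟩, ?_, fun i =>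
    Nat.mul_pos (Nat.succ_pos i) (by omega)⟩
  · rintro p q p' q' hp ⟨j, rfl⟩ hp' ⟨j', rfl⟩ he
    rw [e1] at he ⊢
    rcases hp with rfl | rfl <;> rcases hp' with rfl | rfl
    · refine ⟨rfl, by omega⟩
    · rw [p1, p1] at he; omega
    · rw [p1, p1] at he; omega
    · refine ⟨rfl, by omega⟩
  · rintro p q hp ⟨j, rfl⟩
    rw [e1, hw, wD]
    rcases hp with rfl | rfl
    · have h2 : (0 + j * (2 * c) + 1 - 0) / 2 = j * c := by
        rw [p1]
        omega
      rw [h2]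
      exact (pow_shift hm0 hm (n := j) (by ring)).symm
    · have h2 : (2 * c + 1 + j * (2 * c) + 1 - 0) / 2 = c + 1 + j * c := by
        rw [p1]
        omega
      rw [h2]
      exact (pow_shift hm0 hm (n := j + 1) (by ring)).symm
  · rintro i p q hp ⟨j, rfl⟩ he
    rw [e1] at he
    rcases hp with rfl | rfl
    · rw [p1, p1] at he
      omega
    · -- `2 c + 1 + 2 c j + 1 = 2 c (i + 1)`
      have h1 : c + 1 + j * c = (i + 1) * c := by
        rw [p1, p1] at he
        omega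
      have h2 : (j + 1) * c + 1 = (i + 1) * c := by rw [← h1]; ring
      rcases Nat.lt_or_ge j i with h3 | h3
      · have h4 : (j + 2) * c ≤ (i + 1) * c := Nat.mul_le_mul_right c (by omega)
        have h5 : (j + 2) * c = (j + 1) * c + c := by ring
        omega
      · have h4 : (i + 1) * c ≤ (j + 1) * c := Nat.mul_le_mul_right c (by omega)
        omega
  · rintro i p q hp ⟨j, rfl⟩ hp0 he
    rw [e1] at he ⊢
    have h0 : p = 2 * c + 1 := hp.resolve_left (by omega)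
    subst h0
    have h1 : (j + 1) * (2 * c) = (i + 1) * (2 * c) := by
      have : (j + 1) * (2 * c) = j * (2 * c) + 2 * c := by ring
      omega
    have h2 := inj h1
    obtain rfl : j = i := by omega
    rw [hw, hw]
    exact pow_ne_succ hm0 hm1 j

end Odd

end Vale.Agent.P216.H894
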