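import Vale.Agent.P216.H894.Ladder
import Vale.Agent.P216.H550.OmWall

/-!
# P216-C, C07: the slots

`D + 2 = d (h + 1)`, `e + 1 = d`, `4 ∣ d`: the degrees `i D + d j` and `i D + e + d j`, `j ≤ h`, are
pairwise different, there is none just below `i D + e`, and the sign `(-1) ^ (q / 2)` does not
depend on the cell.
-/

set_option linter.all false

namespace Vale.Agent.P216.H894

open Vale.Agent.P216.H901 Vale.Agent.P216.H754B

/-- The slots of the based loops. -/
def SGs (D e : ℕ) (r : ℕ) : Prop := ∃ i, r = i * D ∨ r = i * D + e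

/-- the sign of the degree `q` -/
def sgn (k : Type) [Field k] (q : ℕ) : k := (-1) ^ (q / 2)

section Arith

variable {d h D e : ℕ}

theorem slot_parity (h4 : 4 ∣ d) (hD : D + 2 = d * (h + 1)) : D % 2 = 0 := by
  obtain ⟨a, rfl⟩ := h4
  have : D + 2 = 2 * (2 * a * (h + 1)) := by rw [hD]; ring
  omega

/-- No two cells contribute to the same degree. -/
theorem slot_unique (h4 : 4 ∣ d) (hd : 0 < d) (hD : D + 2 = d * (h + 1)) (he : e + 1 = d) {q : ℕ} :
    ∀ i j, i < j → j < h + 1 → CellAt.Slot (SGs D e) (d * i) q → ¬ CellAt.Slot (SGs D e) (d * j) q := by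
  intro i j hij hj
  rintro ⟨r, ⟨a, ha⟩, hr⟩ ⟨r', ⟨b, hb⟩, hr'⟩
  have h2 := slot_parity h4 hD
  have hd4 : 4 ≤ d := Nat.le_of_dvd hd h4
  have hdh : D = d * h + (d - 2) := by
    have : d * (h + 1) = d * h + d := by ring
    omega
  have ed : d % 2 = 0 := by omega
  have p1 : (a * D) % 2 = 0 := by rw [Nat.mul_mod, h2]; simp
  have p2 : (b * D) % 2 = 0 := by rw [Nat.mul_mod, h2]; simp
  have p3 : (d * i) % 2 = 0 := by rw [Nat.mul_mod, ed]; simp
  have p4 : (d * j) % 2 = 0 := by rw [Nat.mul_mod, ed]; simp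
  -- equality of the even parts
  have key : a * D + d * i = b * D + d * j := by
    rcases ha with ha | ha <;> rcases hb with hb | hb <;> omega
  have h5 : d * i + d ≤ d * j := by
    have : d * (i + 1) ≤ d * j := Nat.mul_le_mul_left d hij
    have e1 : d * (i + 1) = d * i + d := by ring
    omega
  have h6 : d * j ≤ d * h := Nat.mul_le_mul_left d (by omega)
  have hba : b < a := by
    by_contra hh
    have : a * D ≤ b * D := Nat.mul_le_mul_right D (by omega)
    omega
  have h7 : b * D + D ≤ a * D := by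
    have : (b + 1) * D ≤ a * D := Nat.mul_le_mul_right D hba
    have e1 : (b + 1) * D = b * D + D := by ring
    omega
  omega

/-- In the degrees of the classes `A i` only the bottom cell contributes. -/
theorem slot_bottom (h4 : 4 ∣ d) (hd : 0 < d) (hD : D + 2 = d * (h + 1)) (he : e + 1 = d) (i : ℕ) :
    ∀ j, 0 < j → j < h + 1 → ¬ CellAt.Slot (SGs D e) (d * j) (i * D + e + d * 0) := by
  intro j hj hj'
  exact slot_unique h4 hd hD he 0 j hj hj' ⟨i * D + e, ⟨i, Or.inr rfl⟩, rfl⟩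

/-- There is no slot just below the degree of `A i`. -/
theorem slot_gap (h4 : 4 ∣ d) (hd : 0 < d) (hh : 0 < h) (hD : D + 2 = d * (h + 1)) (he : e + 1 = d)
    (i : ℕ) : ∀ j, j < h + 1 → ¬ CellAt.Slot (SGs D e) (d * j) (i * D + e - 1) := by
  intro j hj
  rintro ⟨r, ⟨b, hb⟩, hr⟩
  have h2 := slot_parity h4 hD
  have hd4 : 4 ≤ d := Nat.le_of_dvd hd h4
  have hdh : D = d * h + (d - 2) := by
    have : d * (h + 1) = d * h + d := by ring
    omega
  have ed : d % 2 = 0 := by omega
  have p1 : (i * D) % 2 = 0 := by rw [Nat.mul_mod, h2]; simp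
  have p2 : (b * D) % 2 = 0 := by rw [Nat.mul_mod, h2]; simp
  have p4 : (d * j) % 2 = 0 := by rw [Nat.mul_mod, ed]; simp
  have h1h : d ≤ d * h := Nat.le_mul_of_pos_right d hh
  have key : i * D + (d - 2) = b * D + d * j := by
    rcases hb with hb | hb <;> omega
  have h6 : d * j ≤ d * h := Nat.mul_le_mul_left d (by omega)
  rcases lt_trichotomy i b with h3 | h3 | h3
  · have h7 : i * D + D ≤ b * D := by
      have : (i + 1) * D ≤ b * D := Nat.mul_le_mul_right D h3
      have e1 : (i + 1) * D = i * D + D := by ring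
      omega
    omega
  · subst h3
    have h8 : d - 2 = d * j := by omega
    rcases Nat.eq_zero_or_pos j with h9 | h9
    · subst h9
      omega
    · have : d ≤ d * j := Nat.le_mul_of_pos_right d h9
      omega
  · have h7 : b * D + D ≤ i * D := by
      have : (b + 1) * D ≤ i * D := Nat.mul_le_mul_right D h3
      have e1 : (b + 1) * D = b * D + D := by ring
      omega
    omega

/-! ### The signs -/

variable (k : Type) [Field k]

theorem neg_one_pow_congr {a b : ℕ} (h : a % 2 = b % 2) : (-1 : k) ^ a = (-1 : k) ^ b := by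
  rcases Nat.even_or_odd a with ha | ha
  · have hb : Even b := by rw [Nat.even_iff] at ha ⊢; omega
    rw [ha.neg_one_pow, hb.neg_one_pow]
  · have hb : Odd b := by rw [Nat.odd_iff] at ha ⊢; omega
    rw [ha.neg_one_pow, hb.neg_one_pow]

/-- The sign does not depend on the cell. -/
theorem sgn_add (h4 : 4 ∣ d) (j q : ℕ) : sgn k (q + d * j) = sgn k q := by
  obtain ⟨a, rfl⟩ := h4
  unfold sgn
  have : (q + 4 * a * j) / 2 = q / 2 + 2 * (a * j) := by
    have : q + 4 * a * j = q + 2 * (2 * (a * j)) := by ring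
    omega
  rw [this, pow_add, pow_mul]
  norm_num

theorem sgn_W (h4 : 4 ∣ d) (hd : 0 < d) (hD : D + 2 = d * (h + 1)) (i : ℕ) :
    sgn k (i * D) = (-1 : k) ^ i := by
  obtain ⟨a, rfl⟩ := h4
  obtain ⟨m, hm⟩ : ∃ m, D = 2 * (2 * m + 1) := by
    refine ⟨a * (h + 1) - 1, ?_⟩
    have h1 : 1 ≤ a * (h + 1) := Nat.mul_pos (by omega) (Nat.succ_pos _)
    have h2 : 4 * a * (h + 1) = 4 * (a * (h + 1)) := by ring
    omega
  unfold sgn
  have : i * D / 2 = i * (2 * m + 1) := by
    rw [hm]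
    have : i * (2 * (2 * m + 1)) = 2 * (i * (2 * m + 1)) := by ring
    omega
  rw [this]
  apply neg_one_pow_congr
  have : i * (2 * m + 1) = 2 * (i * m) + i := by ring
  omega

theorem sgn_A (h4 : 4 ∣ d) (hd : 0 < d) (hD : D + 2 = d * (h + 1)) (he : e + 1 = d) (i : ℕ) :
    sgn k (i * D + e) = (-1 : k) ^ (i + 1) := by
  have h2 := slot_parity h4 hD
  have hW := sgn_W (h := h) (D := D) k h4 hd hD i
  obtain ⟨a, rfl⟩ := h4
  have p1 : (i * D) % 2 = 0 := by rw [Nat.mul_mod, h2]; simp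
  unfold sgn at hW ⊢
  have : (i * D + e) / 2 = i * D / 2 + (2 * (a - 1) + 1) := by omega
  rw [this, pow_add, hW, pow_succ]
  congr 1
  rw [pow_succ, pow_mul]
  norm_num

/-- The sign changes above the degree of `A i`. -/
theorem sgn_ne (h2k : (2 : k) ≠ 0) (h4 : 4 ∣ d) (hd : 0 < d) (hD : D + 2 = d * (h + 1))
    (he : e + 1 = d) (i : ℕ) : sgn k (i * D + e + d * 0) ≠ sgn k (i * D + e + d * 0 + 1) := by
  have h2 := slot_parity h4 hD
  have p1 : (i * D) % 2 = 0 := by rw [Nat.mul_mod, h2]; simp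
  have hd4 : 4 ≤ d := Nat.le_of_dvd hd h4
  rw [Nat.mul_zero, Nat.add_zero]
  unfold sgn
  have : (i * D + e + 1) / 2 = (i * D + e) / 2 + 1 := by omega
  rw [this, pow_succ]
  intro h
  have h3 : (-1 : k) ^ ((i * D + e) / 2) * 2 = 0 := by linear_combination h
  rcases mul_eq_zero.1 h3 with h5 | h5
  · exact pow_ne_zero _ (neg_ne_zero.2 one_ne_zero) h5
  · exact h2k h5

end Arith

/-! ### The based loops -/

section Based

variable {k : Type} [Field k]

/-- A line on whose generator the operator acts by a sign. -/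
theorem sgm_of_line {A : PM k} {O : PMOp A} {o : A.Fam} {b : ℝ} {ε : k} (h : A.Line o b)
    (hO : ∀ t ht, O.r t ht (o.z t ht) = ε • o.z t ht) : SgM A O ε b where
  rk s t hs hst h1 x y := by
    obtain ⟨u, hu⟩ := h s t hs hst h1 x
    obtain ⟨v, hv⟩ := h s t hs hst h1 y
    by_cases h0 : u = 0
    · exact ⟨1, 0, Or.inl one_ne_zero, by rw [hu, h0, zero_smul, smul_zero, zero_smul, add_zero]⟩
    · refine ⟨v, -u, Or.inr (neg_ne_zero.2 h0), ?_⟩
      rw [hu, hv, smul_smul, smul_smul, ← add_smul, show v * u + -u * v = 0 by ring, zero_smul]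
  sg s t hs ht hst h1 x := by
    obtain ⟨u, hu⟩ := h s t hs hst h1 x
    rw [O.nat, hu, map_smul, hO, smul_smul, smul_smul, mul_comm]

variable {G : ℕ → PM k} {D e : ℕ} {B : ℝ}

/-- outside the slots -/
theorem om_eph (S : OmSlots G D e B) (q : ℕ) (hq : ¬ SGs D e q) : (G q).Eph B :=
  S.zero q (fun i hi => hq ⟨i, Or.inl hi⟩) fun i hi => hq ⟨i, Or.inr hi⟩

/-- **The based loops**: rank at most one and sign. -/
theorem om_sgm {d h : ℕ} (h4 : 4 ∣ d) (hd : 0 < d) (hD : D + 2 = d * (h + 1)) (he : e + 1 = d)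
    (S : OmSlots G D e B) {OG : ∀ q, PMOp (G q)}
    (hW : ∀ i t ht, (OG (i * D)).r t ht ((S.W i).z t ht) = (-1 : k) ^ i • (S.W i).z t ht)
    (hA : ∀ i t ht, (OG (i * D + e)).r t ht ((S.A i).z t ht) =
      (-1 : k) ^ (i + 1) • (S.A i).z t ht) (q : ℕ) : SgM (G q) (OG q) (sgn k q) B := by
  by_cases hq : SGs D e q
  · rcases hq with ⟨i, rfl | rfl⟩
    · rw [sgn_W k h4 hd hD]
      exact sgm_of_line (S.lineW i) (hW i)
    · rw [sgn_A k h4 hd hD he]
      exact sgm_of_line (S.lineA i) (hA i)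
  · exact SgM.of_eph _ (om_eph S q hq) _

end Based

end Vale.Agent.P216.H894
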