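import Vale.Agent.P216.H894.GenAr
import Vale.Agent.P216.H894.Slots
import Vale.Agent.P216.H550.GenD2
import Vale.Agent.P216.H774D.ToXD

/-!
# P216-D, [GEN] (3): from the Leray spectral sequence to the stable classes

`E2Out`: the outputs (U1), (U2), (U3) of the Leray zigzag of `w ↦ w 0`, for compatible families.
`stab_of_e2`: `E2Out` and the arithmetic `Ar` give `H550.Stab`, `eig_of_e2`: the eigenvalues.
-/

set_option linter.all false

open Set BoundedContinuousFunction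

namespace Vale.Agent.P216.H894

open Vale.Agent.P216.AS Vale.Agent.P216.H901 Vale.Agent.P216.PS Vale.Agent.P216.MV337
open Vale.Agent.P216.B64 Vale.Agent.P216.H754B Vale.Agent.P216.B609 Vale.Agent.P216.H550
open Vale.Agent.P216.H774D (PwP)

variable {k : Type} [Field k] {M : Type} [MetricSpace M]

/-- `o` is an eigenvector of the power map `ψ_m`, with the eigenvalue `c`. -/
def EigPw (k : Type) [Field k] (M : Type) [MetricSpace M] (m : ℕ) (hm : 1 ≤ m) (n : ℕ)
    (o : (XP k M n).Fam) (c : k) : Prop :=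
  ∀ t (ht : 0 < t) f, PwP m t f → ∀ h : UMap (FL M t) (FL M (m * t)) f,
    hpull k h n (o.z (m * t) (mul_pos (by exact_mod_cast hm) ht)) = c • o.z t ht

/-- `o` is an eigenvector of the reversal, with the eigenvalue `c`. -/
def EigRv (k : Type) [Field k] (M : Type) [MetricSpace M] (n : ℕ) (o : (XP k M n).Fam) (c : k) :
    Prop :=
  ∀ t (ht : 0 < t), (opXP k M n).r t ht (o.z t ht) = c • o.z t ht

/-- **The outputs of the Leray zigzag** of `w ↦ w 0` on `FL M t`, for compatible families. `Bs p`: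
the cohomology of `M` in degree `p` is a line (it is zero if `¬ Bs p`). `Fs q`: the stable
cohomology of the based loops in degree `q` is a line, of weight `w q` (zero if `¬ Fs q`).
`Eig n o c`: the family `o` is an eigenvector with the eigenvalue `c`. -/
structure E2Out (k : Type) [Field k] (M : Type) [MetricSpace M] (x₀ : M) (Bs Fs : ℕ → Prop)
    (w : ℕ → k) (Eig : ∀ n, (XP k M n).Fam → k → Prop) : Prop where
  /-- (U1) no slot -/
  u1 : ∀ n, (∀ p q, Bs p → Fs q → p + q ≠ n) → ∀ (o : (XP k M n).Fam) t (ht : 0 < t),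
    o.z t ht = 0
  /-- (U2) one slot: any two families are dependent -/
  u2 : ∀ p q, Bs p → Fs q → (∀ p' q', Bs p' → Fs q' → p' + q' = p + q → p' = p ∧ q' = q) →
    ∀ o o' : (XP k M (p + q)).Fam, ∃ a b : k, (a ≠ 0 ∨ b ≠ 0) ∧
      ∀ t (ht : 0 < t), a • o.z t ht + b • o'.z t ht = 0
  /-- (U2) one slot: its weight is the eigenvalue -/
  u2w : ∀ p q, Bs p → Fs q → (∀ p' q', Bs p' → Fs q' → p' + q' = p + q → p' = p ∧ q' = q) →
    ∀ o : (XP k M (p + q)).Fam, Eig (p + q) o (w q)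
  /-- (U3) a fibre class extends if all slots of the next degree outside the fibre have another
  weight -/
  u3 : ∀ q, q ≠ 0 → Fs q → (∀ p' q', Bs p' → Fs q' → 0 < p' → p' + q' = q + 1 → w q' ≠ w q) →
    ∀ y : (GP k x₀ q).Fam, ∃ o : (XP k M q).Fam, ∀ t (ht : 0 < t)
      (h : P x₀ x₀ t ⊆ FL M t), hres k h q (o.z t ht) = y.z t ht

section

variable {x₀ : M} {Bs Fs : ℕ → Prop} {w W : ℕ → k} {e : ℕ → ℕ}
  {Eig : ∀ n, (XP k M n).Fam → k → Prop}

/-- **`Stab` from the Leray zigzag.** -/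
theorem stab_of_e2 (A : Ar Bs Fs w W e) (E : E2Out k M x₀ Bs Fs w Eig)
    (hy : ∀ i, ∃ (y : (GP k x₀ (e i)).Fam) (t : ℝ) (ht : 0 < t), y.z t ht ≠ 0) :
    Stab (fun n => XP k M n) e where
  line n o o' := by
    by_cases h : ∃ p q, Bs p ∧ Fs q ∧ p + q = n
    · obtain ⟨p, q, hp, hq, rfl⟩ := h
      exact E.u2 p q hp hq (fun p' q' hp' hq' he => A.uniq p' q' p q hp' hq' hp hq he) o o'
    · have h0 := E.u1 n (fun p q hp hq he => h ⟨p, q, hp, hq, he⟩)
      exact ⟨1, 0, Or.inl one_ne_zero, fun t ht => by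
        rw [h0 o t ht, h0 o' t ht, smul_zero, smul_zero, add_zero]⟩
  gap i o t ht := by
    have h0 := A.pos i
    exact E.u1 (e i - 1) (fun p q hp hq he => A.gap i p q hp hq (by omega)) o t ht
  ne i := by
    obtain ⟨y, t, ht, hne⟩ := hy i
    obtain ⟨o, ho⟩ := E.u3 (e i) (A.pos i).ne' (A.fe i) (fun p' q' hp' hq' h0 he => A.ne i p' q' hp' hq' h0 he) y
    refine ⟨o, t, ht, fun h => hne ?_⟩
    rw [← ho t ht P_subset_FL, h]
    exact map_zero _

/-- **The eigenvalues.** -/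
theorem eig_of_e2 (A : Ar Bs Fs w W e) (E : E2Out k M x₀ Bs Fs w Eig)
    (h0 : ∀ n (o : (XP k M n).Fam) c, (∀ t (ht : 0 < t), o.z t ht = 0) → Eig n o c) (n : ℕ)
    (o : (XP k M n).Fam) : Eig n o (W n) := by
  by_cases h : ∃ p q, Bs p ∧ Fs q ∧ p + q = n
  · obtain ⟨p, q, hp, hq, rfl⟩ := h
    rw [← A.wt p q hp hq]
    exact E.u2w p q hp hq (fun p' q' hp' hq' he => A.uniq p' q' p q hp' hq' hp hq he) o
  · exact h0 n o _ fun t ht => E.u1 n (fun p q hp hq he => h ⟨p, q, hp, hq, he⟩) o t ht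

end

theorem eigPw_zero {m : ℕ} {hm : 1 ≤ m} (n : ℕ) (o : (XP k M n).Fam) (c : k)
    (h : ∀ t (ht : 0 < t), o.z t ht = 0) : EigPw k M m hm n o c := by
  intro t ht f hf hU
  rw [h t ht, h (m * t) (mul_pos (by exact_mod_cast hm) ht), smul_zero]
  exact map_zero _

theorem eigRv_zero (n : ℕ) (o : (XP k M n).Fam) (c : k)
    (h : ∀ t (ht : 0 < t), o.z t ht = 0) : EigRv k M n o c := by
  intro t ht
  rw [h t ht, smul_zero, map_zero]

/-! ### `d` even -/

section Even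

variable {d h q N : ℕ} {B : ℝ} {x₀ : M}

theorem exists_ne_A (O : OmegaOutC M q N x₀ B k) (hB : 0 < B) (i : ℕ) :
    ∃ (y : (GP k x₀ (i * N + q)).Fam) (t : ℝ) (ht : 0 < t), y.z t ht ≠ 0 := by
  -- `W j (j B + B) ≠ 0`
  have h1 : ∀ j : ℕ, O.W j (j * B) ≠ 0 := by
    intro j
    induction j with
    | zero =>
      rw [Nat.cast_zero, zero_mul]
      exact O.W_ne 0 le_rfl
    | succ j ih =>
      have h2 := O.b3 j (j * B) (by positivity) ih
      rw [Nat.cast_succ, add_mul, one_mul]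
      exact h2
  have h2 : (0:ℝ) ≤ (i + 1 : ℕ) * B := by positivity
  refine ⟨⟨fun t _ => O.A i t, fun s t hs h => O.res_A i s t h⟩, (i + 1 : ℕ) * B + B,
    by linarith, O.b2 i _ h2 (h1 (i + 1))⟩

/-- **`d` even, power maps.** -/
theorem stab_even {m : ℕ} (hm : 1 ≤ m) (hd2 : d % 2 = 0) (hd : 4 ≤ d) (hh : 1 ≤ h)
    (hN : N + 2 = d * (h + 1)) (hq : q + 1 = d) (hm0 : (m : k) ≠ 0) (hm1 : (m : k) ≠ 1)
    (hmd : (m : k) ^ (d / 2) = 1) (hB : 0 < B) (O : OmegaOutC M q N x₀ B k)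
    (E : E2Out k M x₀ (BsE d h) (FsE d N) (wE (m : k) N) (EigPw k M m hm)) :
    Stab (fun n => XP k M n) (fun i => i * N + q) ∧
      ∀ n (o : (XP k M n).Fam), EigPw k M m hm n o (wtD k 1 m n) := by
  obtain rfl : q = d - 1 := by omega
  have A := ar_even hd2 hd hh hN hm0 hm1 hmd
  exact ⟨stab_of_e2 A E fun i => exists_ne_A O hB i,
    fun n o => eig_of_e2 A E (fun n o c => eigPw_zero n o c) n o⟩

/-- **`4 ∣ d`, reversal.** -/
theorem stab_four (h2 : (2 : k) ≠ 0) (hd4 : 4 ∣ d) (hd : 0 < d) (hh : 1 ≤ h)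
    (hN : N + 2 = d * (h + 1)) (hq : q + 1 = d) (hB : 0 < B) (O : OmegaOutC M q N x₀ B k)
    (E : E2Out k M x₀ (BsE d h) (FsE d N) (wE (-1 : k) N) (EigRv k M)) :
    Stab (fun n => XP k M n) (fun i => i * N + q) ∧
      ∀ n (o : (XP k M n).Fam), EigRv k M n o (sgn k n) := by
  obtain rfl : q = d - 1 := by omega
  have hd' : 4 ≤ d := Nat.le_of_dvd hd hd4
  obtain ⟨c, rfl⟩ := hd4
  have A := ar_even (k := k) (d := 4 * c) (h := h) (N := N) (μ := -1) (by omega) hd' hh hN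
    (neg_ne_zero.2 one_ne_zero) (fun h3 => h2 (by linear_combination -h3)) (by
      have : 4 * c / 2 = 2 * c := by omega
      rw [this, pow_mul]
      norm_num)
  refine ⟨stab_of_e2 A E fun i => exists_ne_A O hB i, fun n o => ?_⟩
  have h4 := eig_of_e2 A E (fun n o c => eigRv_zero n o c) n o
  have h5 : wD (-1 : k) 1 n = sgn k n := by
    rw [wD, sgn, inv_neg, inv_one, Nat.add_sub_cancel]
  rwa [h5] at h4

end Even

/-! ### `h = 1`, `n` odd -/

section Odd

variable {n : ℕ} {B : ℝ} {x₀ : M}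

theorem exists_ne_om {q : ℕ} (O : OmegaOut M q x₀ B k) (hB : 0 ≤ B) (j : ℕ) :
    ∃ (y : (GP k x₀ (j * q)).Fam) (t : ℝ) (ht : 0 < t), y.z t ht ≠ 0 := by
  have h1 : ∀ j : ℕ, O.om j (1 + j * B) ≠ 0 := by
    intro j
    induction j with
    | zero =>
      rw [Nat.cast_zero, zero_mul]
      exact O.om_ne _ (by norm_num)
    | succ j ih =>
      intro h2
      rw [Nat.cast_succ, add_mul, one_mul, ← add_assoc] at h2
      exact ih (O.down j _ (by positivity) h2)
  exact ⟨⟨fun t _ => O.om j t, fun s t hs h => O.res_om j s t h⟩, 1 + j * B, by positivity, h1 j⟩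

/-- **Odd spheres, power maps.** -/
theorem stab_odd {m : ℕ} (hm : 1 ≤ m) (hn2 : n % 2 = 1) (hn : 5 ≤ n) (hm0 : (m : k) ≠ 0)
    (hm1 : (m : k) ≠ 1) (hmd : (m : k) ^ ((n + 1) / 2) = 1) (hB : 0 ≤ B)
    (O : OmegaOut M (n - 1) x₀ B k)
    (E : E2Out k M x₀ (BsO n) (FsO n) (wO (m : k) n) (EigPw k M m hm)) :
    Stab (fun n => XP k M n) (fun i => (i + 1) * (n - 1)) ∧
      ∀ n (o : (XP k M n).Fam), EigPw k M m hm n o (wtD k 0 m n) := by
  have A := ar_odd hn2 hn hm0 hm1 hmd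
  exact ⟨stab_of_e2 A E fun i => exists_ne_om O hB (i + 1),
    fun n o => eig_of_e2 A E (fun n o c => eigPw_zero n o c) n o⟩

end Odd

end Vale.Agent.P216.H894
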