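import Vale.Agent.P216.H894.GenE2
import Vale.Agent.P216.H787.Cls

/-!
# P216-D, [E2-FAM]: from statements at fixed levels to compatible families

`E2Lev`: the outputs of the Leray zigzag of `w ↦ w 0` as statements about list cocycles at fixed
levels (the losses of level may depend on everything). `e2Out_of_lev`: `E2Out`.
-/

set_option linter.all false

open Set BoundedContinuousFunction

namespace Vale.Agent.P216.H901

variable {k : Type} [Field k] {A : PM k}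

/-- Families vanish. -/
theorem PM.Fam.eq_zero_of (h : ∀ t (ht : 0 < t), ∃ (T : ℝ) (hT : t ≤ T), ∀ x : A.V T,
    A.ρ t T ht hT x = 0) (o : A.Fam) (t : ℝ) (ht : 0 < t) : o.z t ht = 0 := by
  obtain ⟨T, hT, h⟩ := h t ht
  rw [← o.comp t T ht hT]
  exact h _

/-- Families are dependent. -/
theorem PM.Fam.dep_of (h : ∀ t (ht : 0 < t), ∃ (T : ℝ) (hT : t ≤ T), ∀ x y : A.V T,
    ∃ a b : k, (a ≠ 0 ∨ b ≠ 0) ∧ a • A.ρ t T ht hT x + b • A.ρ t T ht hT y = 0) (o o' : A.Fam) :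
    ∃ a b : k, (a ≠ 0 ∨ b ≠ 0) ∧ ∀ t (ht : 0 < t), a • o.z t ht + b • o'.z t ht = 0 := by
  have hpos : ∀ n : ℕ, (0:ℝ) < n + 1 := fun n => by positivity
  let K : ℕ → Submodule k (k × k) := fun n =>
    { carrier := {p | p.1 • o.z (n + 1) (hpos n) + p.2 • o'.z (n + 1) (hpos n) = 0}
      zero_mem' := by
        show (0 : k) • _ + (0 : k) • _ = 0
        rw [zero_smul, zero_smul, add_zero]
      add_mem' := by
        intro p q hp hq
        show (p.1 + q.1) • _ + (p.2 + q.2) • _ = _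
        have h1 : p.1 • o.z (n + 1) (hpos n) + p.2 • o'.z (n + 1) (hpos n) = 0 := hp
        have h2 : q.1 • o.z (n + 1) (hpos n) + q.2 • o'.z (n + 1) (hpos n) = 0 := hq
        rw [add_smul, add_smul, add_add_add_comm, h1, h2, add_zero]
      smul_mem' := by
        intro c p hp
        show (c * p.1) • _ + (c * p.2) • _ = _
        have h1 : p.1 • o.z (n + 1) (hpos n) + p.2 • o'.z (n + 1) (hpos n) = 0 := hp
        rw [mul_smul, mul_smul, ← smul_add, h1, smul_zero] }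
  have hK : ∀ n p, p ∈ K n ↔ p.1 • o.z (n + 1) (hpos n) + p.2 • o'.z (n + 1) (hpos n) = 0 :=
    fun n p => Iff.rfl
  have down : ∀ (s t : ℝ) (hs : 0 < s) (hst : s ≤ t) (a b : k),
      a • o.z t (hs.trans_le hst) + b • o'.z t (hs.trans_le hst) = 0 →
        a • o.z s hs + b • o'.z s hs = 0 := by
    intro s t hs hst a b h1
    rw [← o.comp s t hs hst, ← o'.comp s t hs hst, ← map_smul, ← map_smul, ← map_add, h1,
      map_zero]
  have anti : Antitone K := by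
    intro n n' hn p hp
    rw [hK] at hp ⊢
    exact down _ _ (hpos n) (by have : (n : ℝ) ≤ n' := by exact_mod_cast hn
                                linarith) _ _ hp
  have hne : ∀ n, K n ≠ ⊥ := by
    intro n h0
    obtain ⟨T, hT, h1⟩ := h (n + 1) (hpos n)
    obtain ⟨a, b, hab, h2⟩ := h1 (o.z T ((hpos n).trans_le hT)) (o'.z T ((hpos n).trans_le hT))
    rw [o.comp, o'.comp] at h2
    have h3 : ((a, b) : k × k) ∈ K n := h2
    rw [h0, Submodule.mem_bot] at h3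
    have h4 := congrArg Prod.fst h3
    have h5 := congrArg Prod.snd h3
    exact hab.elim (fun h => h h4) fun h => h h5
  obtain ⟨n₀, hn₀⟩ := IsArtinian.monotone_stabilizes (R := k) (M := k × k)
    ⟨fun n => OrderDual.toDual (K n), fun _ _ h => anti h⟩
  obtain ⟨p, hp, hp0⟩ := Submodule.exists_mem_ne_zero_of_ne_bot (hne n₀)
  refine ⟨p.1, p.2, ?_, fun t ht => ?_⟩
  · by_contra h1
    push Not at h1
    exact hp0 (Prod.ext h1.1 h1.2)
  · obtain ⟨n, hn⟩ := exists_nat_ge t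
    set N := max n n₀ with hN
    have h1 : K n₀ = K N := by
      have := hn₀ N (le_max_right _ _)
      exact this
    have h2 : p ∈ K N := h1 ▸ hp
    have h3 : (n : ℝ) ≤ N := by exact_mod_cast le_max_left _ _
    exact down t (N + 1) ht (by linarith) _ _ h2

/-- **Extension of families.** `G` restricts: `r t : A t → G t` natural; every class of `G` at a
high level extends, both modules are step modules. -/
theorem PM.Fam.extend {G : PM k} {T C T' C' : ℝ} (hA : A.Step T C) (hT : 0 ≤ T) (hC : 0 < C)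
    (hG : G.Step T' C') (hC' : 0 ≤ C') (r : ∀ t, 0 < t → A.V t →ₗ[k] G.V t)
    (nat : ∀ s t (hs : 0 < s) (h : s ≤ t) x,
      G.ρ s t hs h (r t (hs.trans_le h) x) = r s hs (A.ρ s t hs h x)) (y : G.Fam)
    (h : ∀ t (ht : 0 < t), ∃ x : A.V t, r t ht x = y.z t ht) :
    ∃ o : A.Fam, ∀ t (ht : 0 < t), r t ht (o.z t ht) = y.z t ht := by
  set s : ℝ := max (T + C) (T' + C') with hs
  have s1 : T + C ≤ s := le_max_left _ _
  have s2 : T' + C' ≤ s := le_max_right _ _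
  have s0 : 0 < s := by linarith
  have su : s ≤ s + C := by linarith
  obtain ⟨x, hx⟩ := h (s + C) (by linarith)
  obtain ⟨o, ho⟩ := hA.exists_fam hT hC s0 su s1 le_rfl x
  refine ⟨o, fun t ht => ?_⟩
  let δ : G.Fam := ⟨fun t ht => r t ht (o.z t ht) - y.z t ht, fun a b ha hab => by
    rw [map_sub, nat a b ha hab, o.comp, y.comp]⟩
  have h1 : δ.z s s0 = 0 := by
    show r s s0 (o.z s s0) - y.z s s0 = 0
    rw [ho, ← nat s (s + C) s0 su, hx, y.comp, sub_self]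
  exact sub_eq_zero.1 (hG.fam_zero hC' δ s0 s2 h1 t ht)

end Vale.Agent.P216.H901

namespace Vale.Agent.P216.H894

open Vale.Agent.P216.AS Vale.Agent.P216.H901 Vale.Agent.P216.PS Vale.Agent.P216.MV337
open Vale.Agent.P216.B64 Vale.Agent.P216.H754B Vale.Agent.P216.B609 Vale.Agent.P216.H550
open Vale.Agent.P216.Sl (cls exists_cls cls_eq_zero cls_add cls_smul cls_sub pull_cls res_cls
  CocL ExL Nrm cls_eq_cls)
open Vale.Agent.P216.H774D (PwP)

variable {k : Type} [Field k] {M : Type} [MetricSpace M]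

/-- **The outputs of the Leray zigzag at fixed levels.** The operator is the pull back by
`θ t : FL M t → FL M (c * t)`. -/
structure E2Lev (k : Type) [Field k] (M : Type) [MetricSpace M] (x₀ : M) (Bs Fs : ℕ → Prop)
    (w : ℕ → k) (c : ℝ) (θ : ℝ → (ℝ →ᵇ M) → (ℝ →ᵇ M)) : Prop where
  /-- (L1) no slot -/
  l1 : ∀ n, (∀ p q, Bs p → Fs q → p + q ≠ n) → ∀ t, 0 < t → ∃ T, t ≤ T ∧
    ∀ f : List (ℝ →ᵇ M) → k, Nrm f → CocL (FL M T) n f → ExL (FL M t) n f
  /-- (L2) one slot -/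
  l2 : ∀ p q, Bs p → Fs q → (∀ p' q', Bs p' → Fs q' → p' + q' = p + q → p' = p ∧ q' = q) →
    ∀ t, 0 < t → ∃ T, t ≤ T ∧ ∀ f g : List (ℝ →ᵇ M) → k, Nrm f → Nrm g →
      CocL (FL M T) (p + q) f → CocL (FL M T) (p + q) g →
        ∃ a b : k, (a ≠ 0 ∨ b ≠ 0) ∧ ExL (FL M t) (p + q) fun l => a * f l + b * g l
  /-- (L2w) one slot: the eigenvalue -/
  l2w : ∀ p q, Bs p → Fs q → (∀ p' q', Bs p' → Fs q' → p' + q' = p + q → p' = p ∧ q' = q) →
    ∀ t, 0 < t → ∃ T, t ≤ T ∧ c * t ≤ T ∧ ∀ f : List (ℝ →ᵇ M) → k, Nrm f →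
      CocL (FL M T) (p + q) f → ExL (FL M t) (p + q) fun l => f (l.map (θ t)) - w q * f l
  /-- (L3) extension of a fibre class -/
  l3 : ∀ q, q ≠ 0 → Fs q → (∀ p' q', Bs p' → Fs q' → 0 < p' → p' + q' = q + 1 → w q' ≠ w q) →
    ∀ t, 0 < t → ∃ T, t ≤ T ∧ ∀ y : List (ℝ →ᵇ M) → k, Nrm y → CocL (P x₀ x₀ T) q y →
      ∃ f : List (ℝ →ᵇ M) → k, CocL (FL M t) q f ∧ ExL (P x₀ x₀ t) q fun l => f l - y l

section

variable {x₀ : M} {Bs Fs : ℕ → Prop} {w : ℕ → k} {c : ℝ} {θ : ℝ → (ℝ →ᵇ M) → (ℝ →ᵇ M)}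

/-- `o` is an eigenvector of `θ`. -/
def EigTh (k : Type) [Field k] (M : Type) [MetricSpace M] (c : ℝ) (hc : 0 < c)
    (θ : ℝ → (ℝ →ᵇ M) → (ℝ →ᵇ M)) (n : ℕ) (o : (XP k M n).Fam) (a : k) : Prop :=
  ∀ t (ht : 0 < t) (h : UMap (FL M t) (FL M (c * t)) (θ t)),
    hpull k h n (o.z (c * t) (mul_pos hc ht)) = a • o.z t ht

theorem e2Out_of_lev_aux (hc : 0 < c) (L : E2Lev k M x₀ Bs Fs w c θ)
    (hX : ∀ n, ∃ T C, 0 ≤ T ∧ 0 < C ∧ (XP k M n).Step T C)
    (hG : ∀ n, ∃ T C, 0 ≤ T ∧ 0 < C ∧ (GP k x₀ n).Step T C) :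
    E2Out k M x₀ Bs Fs w (EigTh k M c hc θ) where
  u1 n hn o t ht := by
    refine o.eq_zero_of (fun t ht => ?_) t ht
    obtain ⟨T, hT, h⟩ := L.l1 n hn t ht
    refine ⟨T, hT, fun x => ?_⟩
    obtain ⟨f, hf, hN, rfl⟩ := exists_cls (a := a0 _) (χ := c0 k) (X := FL M T) (n := n) x
    exact (cls_eq_zero (h := hf.mono (FL_mono hT))).2 (h f hN hf)
  u2 p q hp hq hu o o' := by
    refine PM.Fam.dep_of (fun t ht => ?_) o o'
    obtain ⟨T, hT, h⟩ := L.l2 p q hp hq hu t ht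
    refine ⟨T, hT, fun x y => ?_⟩
    obtain ⟨f, hf, hN, rfl⟩ := exists_cls (a := a0 _) (χ := c0 k) (X := FL M T) (n := p + q) x
    obtain ⟨g, hg, hN', rfl⟩ := exists_cls (a := a0 _) (χ := c0 k) (X := FL M T) (n := p + q) y
    obtain ⟨a, b, hab, h1⟩ := h f g hN hN' hf hg
    refine ⟨a, b, hab, ?_⟩
    have hf' := hf.mono (FL_mono hT)
    have hg' := hg.mono (FL_mono hT)
    have h2 : a • cls (a0 _) (c0 k) f hf' + b • cls (a0 _) (c0 k) g hg' = 0 := by
      rw [cls_smul, cls_smul, cls_add, cls_eq_zero]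
      exact h1
    exact h2
  u2w p q hp hq hu o t ht hU := by
    obtain ⟨T, hT, hT', h⟩ := L.l2w p q hp hq hu t ht
    have hT0 : 0 < T := ht.trans_le hT
    obtain ⟨f, hf, hN, hfz⟩ := exists_cls (a := a0 _) (χ := c0 k) (X := FL M T) (n := p + q)
      (o.z T hT0)
    have e1 : o.z t ht = cls (a0 _) (c0 k) f (hf.mono (FL_mono hT)) := by
      rw [← o.comp t T ht hT, ← hfz]
      rfl
    have e2 : o.z (c * t) (mul_pos hc ht) = cls (a0 _) (c0 k) f (hf.mono (FL_mono hT')) := by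
      rw [← o.comp (c * t) T (mul_pos hc ht) hT', ← hfz]
      rfl
    rw [e1, e2]
    show pull (c0 k) hU (p + q) (cls (a0 _) (c0 k) f _) = w q • cls (a0 _) (c0 k) f _
    rw [pull_cls, cls_smul, cls_eq_cls]
    exact h f hN hf
  u3 q hq0 hq hs y := by
    obtain ⟨T, C, hT, hC, hXs⟩ := hX q
    obtain ⟨T', C', hT', hC', hGs⟩ := hG q
    obtain ⟨o, ho⟩ := PM.Fam.extend (A := XP k M q) (G := GP k x₀ q) hXs hT hC hGs hC'.le
      (fun t ht => hres k (P_subset_FL (a := x₀)) q) (fun s t hs h x => by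
        obtain ⟨f, hf, hN, rfl⟩ := exists_cls (a := a0 _) (χ := c0 k) (X := FL M t) (n := q) x
        rfl) y (fun t ht => by
        obtain ⟨S, hS, h⟩ := L.l3 q hq0 hq hs t ht
        obtain ⟨g, hg, hN, hgz⟩ := exists_cls (a := a0 _) (χ := c0 k) (X := P x₀ x₀ S) (n := q)
          (y.z S (ht.trans_le hS))
        obtain ⟨f, hf, hfe⟩ := h g hN hg
        refine ⟨cls (a0 _) (c0 k) f hf, ?_⟩
        have e1 : y.z t ht = cls (a0 _) (c0 k) g (hg.mono (P_mono hS)) := by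
          rw [← y.comp t S ht hS, ← hgz]
          rfl
        rw [e1]
        exact (cls_eq_cls (hf := hf.mono P_subset_FL) (hg := hg.mono (P_mono hS))).2 hfe)
    exact ⟨o, fun t ht h => ho t ht⟩

/-- Another notion of eigenvector. -/
theorem _root_.Vale.Agent.P216.H894.E2Out.congr {E E' : ∀ n, (XP k M n).Fam → k → Prop}
    (h : E2Out k M x₀ Bs Fs w E) (hE : ∀ n o a, E n o a → E' n o a) :
    E2Out k M x₀ Bs Fs w E' :=
  ⟨h.u1, h.u2, fun p q hp hq hu o => hE _ _ _ (h.u2w p q hp hq hu o), h.u3⟩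

/-- **Power maps.** -/
theorem e2Out_pw [CompactSpace M] {m : ℕ} (hm : 1 ≤ m)
    (L : E2Lev k M x₀ Bs Fs w m fun t => H774D.pwr t m)
    (hX : ∀ n, ∃ T C, 0 ≤ T ∧ 0 < C ∧ (XP k M n).Step T C)
    (hG : ∀ n, ∃ T C, 0 ≤ T ∧ 0 < C ∧ (GP k x₀ n).Step T C) :
    E2Out k M x₀ Bs Fs w (EigPw k M m hm) := by
  refine (e2Out_of_lev_aux (by exact_mod_cast hm) L hX hG).congr fun n o a ho t ht f hf hU => ?_
  have h1 := ho t ht (H774D.umap_pwr m ht.le)
  rw [← h1]
  exact LinearMap.congr_fun (pull_congr (χ := c0 k) (n := n) hU (H774D.umap_pwr m ht.le)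
      (H774D.PwP.eqOn hm ht hf (H774D.pwP_pwr m ht.le))) _

/-- **The reversal.** -/
theorem e2Out_rv [CompactSpace M] (L : E2Lev k M x₀ Bs Fs w 1 fun t => rv t)
    (hX : ∀ n, ∃ T C, 0 ≤ T ∧ 0 < C ∧ (XP k M n).Step T C)
    (hG : ∀ n, ∃ T C, 0 ≤ T ∧ 0 < C ∧ (GP k x₀ n).Step T C) :
    E2Out k M x₀ Bs Fs w (EigRv k M) := by
  refine (e2Out_of_lev_aux one_pos L hX hG).congr fun n o a ho t ht => ?_
  have h1 : UMap (FL M t) (FL M (1 * t)) (rv t) := by
    rw [one_mul]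
    exact evOp.map t ht
  have h2 := ho t ht h1
  rw [← h2]
  have key : ∀ (u : ℝ) (hu : 0 < u) (e : u = t) (h : UMap (FL M t) (FL M u) (rv t)),
      (opXP k M n).r t ht (o.z t ht) = hpull k h n (o.z u hu) := by
    rintro u hu rfl h
    rfl
  exact key (1 * t) _ (one_mul t) h1

end

end Vale.Agent.P216.H894
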