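import Vale.Agent.P216.H894.OmDir
import Vale.Agent.P216.N929.Main
import Vale.Agent.P216.H347.Tau3
import Vale.Agent.P216.H977C.MainC

/-!
# P216-D / D1, block (B): a map of non-zero degree is non-zero on the classes of the based loops

`h : M → M` Lipschitz, `M` homeomorphic to the sphere, `f ∘ h` cohomologous to `D f` for every
cocycle of degree `n`: then `w ↦ h ∘ w (· / K)` does not kill the classes of the based loops.
-/

open Finsupp Set BoundedContinuousFunction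

set_option linter.all false

namespace Vale.Agent.P216.H894

open Vale.Agent.P216.Sl Vale.Agent.P216.PS Vale.Agent.P216.N929
open Vale.Agent.P216.H977C (catc conc conc_cy)
open Vale.Agent.P216.B64 (HU hres hpull UMap OmegaOut)
open Vale.Agent.P216.H250 (cat_apply')

variable {k : Type} [Field k] {M : Type} [MetricSpace M] [CompactSpace M] {n : ℕ}

/-! ### The map of the path spaces -/

section Map

variable {h : M → M} {K : ℝ} {a b c : M} {s t : ℝ} {w v : ℝ →ᵇ M}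

/-- `w ↦ h ∘ w (· / K)` -/
noncomputable def hm (h : M → M) (K : ℝ) (w : ℝ →ᵇ M) : ℝ →ᵇ M := mo fun u => h (w (u / K))

theorem lip_hm (hK : 0 < K) (hh : ∀ x y, dist (h x) (h y) ≤ K * dist x y) (hw : Lip w) :
    Lip fun u => h (w (u / K)) := fun u v => by
  refine (hh _ _).trans ?_
  have h1 := mul_le_mul_of_nonneg_left (hw (u / K) (v / K)) hK.le
  refine h1.trans (le_of_eq ?_)
  rw [← sub_div, abs_div, abs_of_pos hK, mul_div_cancel₀ _ hK.ne']

theorem hm_apply (hK : 0 < K) (hh : ∀ x y, dist (h x) (h y) ≤ K * dist x y) (hw : Lip w) (u : ℝ) :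
    hm h K w u = h (w (u / K)) := (lip_hm hK hh hw).mo_apply u

theorem hm_mem (hK : 0 < K) (hh : ∀ x y, dist (h x) (h y) ≤ K * dist x y) (hw : w ∈ P a b t) :
    hm h K w ∈ P (h a) (h b) (K * t) := by
  refine mo_mem (lip_hm hK hh hw.1) (fun u hu => ?_) fun u hu => ?_
  · rw [eq_left hw (div_nonpos_of_nonpos_of_nonneg hu hK.le)]
  · rw [eq_right hw ((le_div_iff₀' hK).2 hu)]

theorem dist_hm_le (hK : 0 < K) (hh : ∀ x y, dist (h x) (h y) ≤ K * dist x y) (hw : Lip w)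
    (hv : Lip v) : dist (hm h K w) (hm h K v) ≤ K * dist w v := by
  rw [BoundedContinuousFunction.dist_le (by positivity)]
  intro u
  rw [hm_apply hK hh hw, hm_apply hK hh hv]
  exact (hh _ _).trans (mul_le_mul_of_nonneg_left
    (BoundedContinuousFunction.dist_coe_le_dist (f := w) (g := v) _) hK.le)

theorem hm_cst (hK : 0 < K) (hh : ∀ x y, dist (h x) (h y) ≤ K * dist x y) :
    hm h K (cst a) = cst (h a) := by
  ext u
  rw [hm_apply hK hh (lip_cst a), cst_apply, cst_apply]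

theorem hm_cat (hK : 0 < K) (hh : ∀ x y, dist (h x) (h y) ≤ K * dist x y) (hw : w ∈ P a b s)
    (hv : v ∈ P b c t) (hs : 0 ≤ s) (ht : 0 ≤ t) :
    hm h K (cat s w v) = cat (K * s) (hm h K w) (hm h K v) := by
  ext u
  have h1 : Lip (cat s w v : ℝ → M) := (cat_mem hs ht hw hv).1
  rw [hm_apply hK hh h1, cat_apply' hw hv, cat_apply' (hm_mem hK hh hw) (hm_mem hK hh hv),
    hm_apply hK hh hw.1, hm_apply hK hh hv.1]
  have h2 : u / K ≤ s ↔ u ≤ K * s := by rw [div_le_iff₀' hK]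
  by_cases h3 : u ≤ K * s
  · rw [if_pos h3, if_pos (h2.2 h3)]
  · rw [if_neg h3, if_neg fun h4 => h3 (h2.1 h4)]
    congr 2
    rw [sub_div, mul_div_cancel_left₀ _ hK.ne']

theorem hm_conc (hK : 0 < K) (hh : ∀ x y, dist (h x) (h y) ≤ K * dist x y) {m m' : ℕ}
    {z y : Ch k (ℝ →ᵇ M)} (hz : InP a b s m z) (hy : InP b c t m' y) (hs : 0 ≤ s) (ht : 0 ≤ t) :
    mp (hm h K) (conc s z y) = conc (K * s) (mp (hm h K) z) (mp (hm h K) y) := by
  have h2 : sh z y ∈ Sp k fun L : List ((ℝ →ᵇ M) × (ℝ →ᵇ M)) => ∀ q ∈ L,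
      q.1 ∈ P a b s ∧ q.2 ∈ P b c t := sh_ent hz.ent hy.ent
  have h3 : mp (hm h K) (conc s z y) = mp (fun p => hm h K (catc s p)) (sh z y) := by
    rw [conc, mp_comp]
  have h4 : conc (K * s) (mp (hm h K) z) (mp (hm h K) y) =
      mp (fun p => catc (K * s) (Prod.map (hm h K) (hm h K) p)) (sh z y) := by
    rw [conc, sh_mp, mp_comp]
  rw [h3, h4]
  refine eq_of_mem (P := fun L : List ((ℝ →ᵇ M) × (ℝ →ᵇ M)) => ∀ p ∈ L,
    p.1 ∈ P a b s ∧ p.2 ∈ P b c t) (fun L hL => ?_) h2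
  rw [mp_single, mp_single]
  congr 1
  exact List.map_congr_left fun p hp => hm_cat hK hh (hL p hp).1 (hL p hp).2 hs ht

theorem hm_InP (hK : 0 < K) (hh : ∀ x y, dist (h x) (h y) ≤ K * dist x y) {m : ℕ}
    {z : Ch k (ℝ →ᵇ M)} (hz : InP a b s m z) : InP (h a) (h b) (K * s) m (mp (hm h K) z) := by
  refine map_mem _ (fun l hl => ?_) hz
  rw [mp_single]
  refine single_mem ⟨by rw [List.length_map, hl.1], fun w hw => ?_⟩ _
  obtain ⟨x, hx, rfl⟩ := List.mem_map.1 hw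
  exact hm_mem hK hh (hl.2 x hx)

theorem hm_cy (hK : 0 < K) (hh : ∀ x y, dist (h x) (h y) ≤ K * dist x y) {m : ℕ} (hm0 : m ≠ 0)
    {η : ℝ} {z : Ch k (ℝ →ᵇ M)} (hz : Cy (P a b s) η m z) :
    Cy (P (h a) (h b) (K * s)) (K * η) m (mp (hm h K) z) := by
  refine ⟨map_mem _ (fun l hl => ?_) hz.1, ?_⟩
  · rw [mp_single]
    refine single_mem ⟨by rw [List.length_map, hl.1], fun w hw => ?_, fun w hw w' hw' => ?_⟩ _
    · obtain ⟨x, hx, rfl⟩ := List.mem_map.1 hw
      exact hm_mem hK hh (hl.2.1 x hx)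
    · obtain ⟨x, hx, rfl⟩ := List.mem_map.1 hw
      obtain ⟨y, hy, rfl⟩ := List.mem_map.1 hw'
      exact (dist_hm_le hK hh (hl.2.1 x hx).1 (hl.2.1 y hy).1).trans_lt
        (mul_lt_mul_of_pos_left (hl.2.2 x hx y hy) hK)
  · rw [bd_mp, bd_eq_zero hz hm0, map_zero]
    exact Submodule.zero_mem _

theorem hm_pw (hK : 0 < K) (hh : ∀ x y, dist (h x) (h y) ≤ K * dist x y) (hs : 0 ≤ s) {m : ℕ}
    {z : Ch k (ℝ →ᵇ M)} (hz : InP a a s m z) (j : ℕ) :
    mp (hm h K) (pw a s z j) = pw (h a) (K * s) (mp (hm h K) z) j := by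
  induction j with
  | zero => rw [pw_zero, pw_zero, mp_single, List.map_cons, List.map_nil, hm_cst hK hh]
  | succ j ih =>
    have hp := pw_InP hs hz j
    rw [pw_succ, pw_succ, hm_conc hK hh hp hz (by positivity) hs, ih]
    congr 1
    ring

end Map

/-! ### The degree -/

theorem exL_congr' {E : Type} [PseudoMetricSpace E] {X : Set E} {m : ℕ} {f g : List E → k}
    (h : ExL X m f) (hfg : ∀ l, (∀ x ∈ l, x ∈ X) → f l = g l) : ExL X m g := by
  obtain ⟨s, h0, ε, hε, H⟩ := h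
  exact ⟨s, h0, ε, hε, fun l hl hs => by rw [← hfg l hs.1, H l hl hs]⟩

section Deg

variable (G : Geo M n) (τ : Tau k M n G.ρ₁) {h : M → M} {K : ℝ}

/-- the value of `om b 1` on the image of a cycle -/
theorem ev_hm (hK : 0 < K) (hh : ∀ x y, dist (h x) (h y) ≤ K * dist x y) {x : M}
    (hx : h x = G.x₀) {D : k} (b : Bool)
    (hdeg : ∀ f : List M → k, Nrm f → CocL (univ : Set M) n f →
      ExL (univ : Set M) n fun l => f (l.map h) - D * f l) {s : ℝ} (hs : 0 ≤ s) :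
    ∃ ε₀ > 0, ∀ ε, 0 < ε → ε ≤ ε₀ → ∀ a : Ch k (ℝ →ᵇ M), Cy (P x x s) ε (n - 1) a →
      ∀ ι, Edge 0 s ε ι → ev (om G τ b 1) (mp (hm h K) a) =
        D * ev (fun l => τ.f (l.map (evp (G.y (!b))))) (sh a ι) := by
  have hn := G.hn
  set y : M := G.y (!b) with hy
  set F : List M → k := fun l => τ.f (l.map fun z => (z, y)) with hF
  have hFn : Nrm F := τ.nrm.map _
  have hFc : Coc (univ : Set M) τ.ε n F := by
    intro l hl hl'
    rw [hF, N929.dl_map τ.f fun z => (z, y)]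
    refine τ.coc _ (by rw [List.length_map, hl]) ⟨fun _ _ => mem_univ _, ?_⟩
    intro a ha c hc
    obtain ⟨p, hp, rfl⟩ := List.mem_map.1 ha
    obtain ⟨q, hq, rfl⟩ := List.mem_map.1 hc
    rw [Prod.dist_eq, dist_self, max_eq_left dist_nonneg]
    exact hl'.2 p hp q hq
  have hFL : CocL (univ : Set M) n F := ⟨τ.ε, τ.hε, hFc⟩
  have hcoc : CocL (univ : Set M) n fun l => F (l.map h) - D * F l := by
    refine CocL.sub (f := fun l => F (l.map h)) (g := fun l => D * F l) ⟨τ.ε / K,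
      div_pos τ.hε hK, fun l hl hs => ?_⟩ (hFL.smul D)
    rw [N929.dl_map F h]
    refine hFc _ (by rw [List.length_map, hl]) ⟨fun _ _ => mem_univ _, ?_⟩
    intro a ha c hc
    obtain ⟨p, hp, rfl⟩ := List.mem_map.1 ha
    obtain ⟨q, hq, rfl⟩ := List.mem_map.1 hc
    refine (hh p q).trans_lt ?_
    have := hs.2 p hp q hq
    rwa [lt_div_iff₀' hK] at this
  have hnrm : Nrm fun l => F (l.map h) - D * F l := by
    intro l hl
    have h1 : F (l.map h) = 0 := hFn.map h l hl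
    have h2 := hFn l hl
    change F (l.map h) - D * F l = 0
    rw [h1, h2]
    ring
  obtain ⟨g, hg, -, ε₁, hε₁, hg1⟩ := exists_nrm_prim hnrm hcoc (hdeg F hFn hFL)
  have hω := omε_pos G τ b 1
  refine ⟨min (omε G τ b 1 / K) (ε₁ / 2), lt_min (div_pos hω hK) (half_pos hε₁),
    fun ε hε hε' a ha ι hι => ?_⟩
  have e1 : K * ε ≤ omε G τ b 1 := by
    have := hε'.trans (min_le_left _ _)
    rwa [le_div_iff₀' hK] at this
  have e2 : 2 * ε ≤ ε₁ := by
    have := hε'.trans (min_le_right _ _)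
    linarith
  -- the edge
  have hι' : Edge 0 (K * s) (K * ε) (mp (fun σ => K * σ) ι) := by
    refine ⟨map_mem _ (fun l hl => ?_) hι.1, ?_⟩
    · rw [mp_single]
      refine single_mem ⟨by rw [List.length_map, hl.1], fun w hw => ?_,
        fun w hw w' hw' => ?_⟩ _
      · obtain ⟨σ, hσ, rfl⟩ := List.mem_map.1 hw
        have := hl.2.1 σ hσ
        exact ⟨mul_nonneg hK.le this.1, mul_le_mul_of_nonneg_left this.2 hK.le⟩
      · obtain ⟨σ, hσ, rfl⟩ := List.mem_map.1 hw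
        obtain ⟨σ', hσ', rfl⟩ := List.mem_map.1 hw'
        have := hl.2.2 σ hσ σ' hσ'
        rw [Real.dist_eq, ← mul_sub, abs_mul, abs_of_pos hK]
        rw [Real.dist_eq] at this
        exact mul_lt_mul_of_pos_left this hK
    · rw [bd_mp, hι.2, map_sub, mp_single, mp_single, List.map_cons, List.map_nil,
        List.map_cons, List.map_nil, mul_zero]
  have hcy := hm_cy hK hh (by omega) ha
  rw [hx] at hcy
  rw [ev_om_one G τ b (G.hx _) (by positivity) (by positivity) e1 hcy hι', sh_mp, ev_mp]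
  -- the chain in `M`
  set E : Ch k M := mp (fun p : (ℝ →ᵇ M) × ℝ => (p.1 p.2 : M)) (sh a ι) with hE
  have hsh : sh a ι ∈ Sp k fun L : List ((ℝ →ᵇ M) × ℝ) => L.length = n + 1 ∧
      Fine (PTm x x s s) ε L := by
    have := H977C.sh_fine (m := n - 1) ha.1 hι.1
    exact Sp_mono (fun L hL => ⟨by rw [hL.1]; omega, hL.2⟩) this
  have hEm : E ∈ Sp k fun l : List M => l.length = n + 1 ∧ Fine (univ : Set M) ε₁ l := by
    refine map_mem _ (fun L hL => ?_) hsh
    rw [mp_single]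
    refine single_mem ⟨by rw [List.length_map, hL.1], fun _ _ => mem_univ _,
      fun p hp q hq => ?_⟩ _
    obtain ⟨u, hu, rfl⟩ := List.mem_map.1 hp
    obtain ⟨v, hv, rfl⟩ := List.mem_map.1 hq
    exact (dist_ev_lt (hL.2.1 u hu) (hL.2.1 v hv) (hL.2.2 u hu v hv)).trans_le e2
  have s1 : ev (fun L : List ((ℝ →ᵇ M) × ℝ) => Sg.aL n τ.f (one1 k _) G.r y
      (L.map (Prod.map (hm h K) fun σ => K * σ))) (sh a ι) = ev (fun l => F (l.map h)) E := by
    rw [hE, ev_mp]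
    refine ev_congr (fun L hL => ?_) hsh
    change intg n τ.f (one1 k _) G.r y _ = _
    have h3 : ((L.map (Prod.map (hm h K) fun σ => K * σ)).map (cutp G.r y)).drop n =
        [((L.map (Prod.map (hm h K) fun σ => K * σ)).map (cutp G.r y)).getLastD (cst y)] := by
      have hl : (((L.map (Prod.map (hm h K) fun σ => K * σ)).map (cutp G.r y)).drop n).length = 1 := by
        rw [List.length_drop, List.length_map, List.length_map, hL.1]
        omega
      obtain ⟨c, hc⟩ := List.length_eq_one_iff.1 hl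
      rw [hc]
      congr 1
      have h4 := List.take_append_drop n
        ((L.map (Prod.map (hm h K) fun σ => K * σ)).map (cutp G.r y))
      rw [← h4, hc, List.getLastD_concat]
    rw [H977C.intg_eq', h3, one1, if_pos List.length_singleton, mul_one,
      List.take_of_length_le (by rw [List.length_map, List.length_map, hL.1]), hF]
    simp only [List.map_map]
    congr 1
    refine List.map_congr_left fun p hp => ?_
    have hp' := hL.2.1 p hp
    change ((hm h K p.1 (K * p.2) : M), y) = (h (p.1 p.2), y)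
    rw [hm_apply hK hh hp'.1.1, mul_div_cancel_left₀ _ hK.ne']
  have s2 : ev (fun l => F (l.map h)) E = D * ev F E + ev (dl g) E := by
    rw [← ev_smul_fun, ← ev_add_fun]
    refine ev_congr (fun l hl => ?_) hEm
    have := hg1 l hl.1 ⟨hl.2.1, hl.2.2⟩
    rw [← this]
    ring
  have s3 : ev (dl g) E = 0 := by
    have hbc : ∀ σ : ℝ, (∀ w ∈ P x x s, (w σ : M) = x) →
        ev g (mp (fun p : (ℝ →ᵇ M) × ℝ => (p.1 p.2 : M)) (sh a (single [σ] 1))) = 0 := by
      intro σ hσ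
      rw [sh_point_right σ (Sp_mono (fun l hl => by
        rintro rfl
        have := hl.1
        simp at this) ha.1), mp_comp, ev_mp]
      refine ev_zero_of (fun l hl => ?_) ha.1
      have e3 : l.map (fun w : ℝ →ᵇ M => (w σ : M)) = List.replicate n x := by
        rw [List.eq_replicate_iff]
        refine ⟨by rw [List.length_map, hl.1]; omega, fun c hc => ?_⟩
        obtain ⟨w, hw, rfl⟩ := List.mem_map.1 hc
        exact hσ w (hl.2.1 w hw)
      refine hg _ fun hc => ?_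
      rw [e3, show n = (n - 2) + 1 + 1 by omega, List.replicate_succ, List.replicate_succ,
        List.isChain_cons_cons] at hc
      exact hc.1 rfl
    rw [ev_dl, hE, bd_mp, bd_sh (p := n - 1) (q := 1) (by omega)
      (Sp_mono (fun l hl => hl.1) ha.1) (Sp_mono (fun l hl => hl.1) hι.1),
      bd_eq_zero ha (by omega), map_zero, LinearMap.zero_apply, zero_add, map_smul, map_smul,
      hι.2, map_sub, map_sub, map_sub, hbc s (fun w hw => eq_right hw le_rfl),
      hbc 0 (fun w hw => eq_left hw le_rfl), sub_zero, smul_zero]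
  have s4 : ev F E = ev (fun l => τ.f (l.map (evp y))) (sh a ι) := by
    rw [hE, ev_mp, hF]
    simp only [List.map_map]
    rfl
  rw [s1, s2, s3, add_zero, s4]

/-- **Lists**: the classes `om b j` are not killed by `h`. -/
theorem om_hm_ne (hK : 0 < K) (hh : ∀ x y, dist (h x) (h y) ≤ K * dist x y) {x : M}
    (hx : h x = G.x₀) {D : k} (hD : D ≠ 0)
    (hdeg : ∀ f : List M → k, Nrm f → CocL (univ : Set M) n f →
      ExL (univ : Set M) n fun l => f (l.map h) - D * f l) {s e₀ : ℝ} (hs : 0 ≤ s) (he₀ : 0 < e₀)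
    (ha : ∀ b, ∀ ε, 0 < ε → ε ≤ e₀ → ∃ a : Ch k (ℝ →ᵇ M), Cy (P x x s) ε (n - 1) a ∧
      ∀ ι : Ch k ℝ, Edge 0 s ε ι → ev (fun l => τ.f (l.map (evp (G.y (!b))))) (sh a ι) = 1)
    (j : ℕ) (b : Bool) :
    ¬ ExL (P x x (j * s)) (j * (n - 1)) fun l => om G τ b j (l.map (hm h K)) := by
  have hn := G.hn
  intro hex
  obtain ⟨ε₁, hε₁, H₁⟩ := ex_iff.2 hex
  obtain ⟨η₀, hη₀, hsc⟩ := exists_omscale G τ (j + 1)
  obtain ⟨ε₂, hε₂, H₂⟩ := ev_hm G τ hK hh hx false hdeg hs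
  obtain ⟨ε₃, hε₃, H₃⟩ := ev_hm G τ hK hh hx true hdeg hs
  set δ := min (min (η₀ / K) ε₁) (min (min ε₂ ε₃) e₀) with hδ
  have hδ0 : 0 < δ := lt_min (lt_min (div_pos hη₀ hK) hε₁) (lt_min (lt_min hε₂ hε₃) he₀)
  have d0 : K * δ ≤ η₀ := by
    have : δ ≤ η₀ / K := (min_le_left _ _).trans (min_le_left _ _)
    rwa [le_div_iff₀' hK] at this
  have d1 : δ ≤ ε₁ := (min_le_left _ _).trans (min_le_right _ _)
  have d2 : δ ≤ ε₂ := (min_le_right _ _).trans ((min_le_left _ _).trans (min_le_left _ _))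
  have d3 : δ ≤ ε₃ := (min_le_right _ _).trans ((min_le_left _ _).trans (min_le_right _ _))
  have d4 : δ ≤ e₀ := (min_le_right _ _).trans (min_le_right _ _)
  obtain ⟨ι, hι1, hι2⟩ := Sg.exists_seg' k hs hδ0
  have hι : Edge 0 s δ ι := ⟨hι1, hι2⟩
  -- one cycle for both crossing points
  set v : Bool → Ch k (ℝ →ᵇ M) → k := fun b a =>
    ev (fun l => τ.f (l.map (evp (G.y (!b))))) (sh a ι) with hv
  have hvadd : ∀ b z z', v b (z + z') = v b z + v b z' := fun b z z' => by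
    simp only [hv, map_add, LinearMap.add_apply]
  obtain ⟨a, hacy, hav⟩ : ∃ a, Cy (P x x s) δ (n - 1) a ∧ ∀ b, v b a ≠ 0 := by
    obtain ⟨a₀, c₀, e₀'⟩ := ha false δ hδ0 d4
    obtain ⟨a₁, c₁, e₁'⟩ := ha true δ hδ0 d4
    have v0 : v false a₀ ≠ 0 := by rw [hv]; simp only; rw [e₀' ι hι]; exact one_ne_zero
    have v1 : v true a₁ ≠ 0 := by rw [hv]; simp only; rw [e₁' ι hι]; exact one_ne_zero
    by_cases q₀ : v true a₀ = 0
    · by_cases q₁ : v false a₁ = 0
      · refine ⟨a₀ + a₁, ⟨Submodule.add_mem _ c₀.1 c₁.1, by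
          rw [map_add]; exact Submodule.add_mem _ c₀.2 c₁.2⟩, fun b => ?_⟩
        cases b
        · rwa [hvadd, q₁, add_zero]
        · rwa [hvadd, q₀, zero_add]
      · exact ⟨a₁, c₁, fun b => by cases b <;> assumption⟩
    · exact ⟨a₀, c₀, fun b => by cases b <;> assumption⟩
  have hu := hm_cy hK hh (by omega) hacy
  rw [hx] at hu
  have hune : ∀ b, ev (om G τ b 1) (mp (hm h K) a) ≠ 0 := by
    intro b
    cases b
    · rw [H₂ δ hδ0 d2 a hacy ι hι]
      exact mul_ne_zero hD (hav false)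
    · rw [H₃ δ hδ0 d3 a hacy ι hι]
      exact mul_ne_zero hD (hav true)
  have hne := ev_pw_om G τ (s := K * s) (by positivity) (by positivity) hu hune j
    (fun i hi b => d0.trans (hsc i hi b)) b
  apply hne
  have e1 := H₁ _ ((pw_cy hs (by omega) hδ0 hacy j).mono le_rfl d1)
  rw [← ev_mp, hm_pw hK hh hs (InP.of_cy hacy) j, hx] at e1
  exact e1

theorem om_cocL0 (b : Bool) (j : ℕ) (T : ℝ) :
    CocL (P G.x₀ G.x₀ T) (j * (n - 1)) (om G τ b j) :=
  ⟨_, omε_pos G τ b j, om_coc0 G τ b j (G.hx _) T⟩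

/-- **Classes**: the classes of the based loops are not killed by `h`. -/
theorem om_hm_class (hK : 0 < K) (hh : ∀ x y, dist (h x) (h y) ≤ K * dist x y) {x : M}
    (hx : h x = G.x₀) {D : k} (hD : D ≠ 0)
    (hdeg : ∀ f : List M → k, Nrm f → CocL (univ : Set M) n f →
      ExL (univ : Set M) n fun l => f (l.map h) - D * f l) {s e₀ : ℝ} (hs : 0 ≤ s) (he₀ : 0 < e₀)
    (ha : ∀ b, ∀ ε, 0 < ε → ε ≤ e₀ → ∃ a : Ch k (ℝ →ᵇ M), Cy (P x x s) ε (n - 1) a ∧
      ∀ ι : Ch k ℝ, Edge 0 s ε ι → ev (fun l => τ.f (l.map (evp (G.y (!b))))) (sh a ι) = 1)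
    {B : ℝ} (hB : 0 ≤ B) (O : OmegaOut M (n - 1) G.x₀ B k) (j : ℕ) {t : ℝ} (ht : j * s ≤ t)
    (Φ : (ℝ →ᵇ M) → (ℝ →ᵇ M)) (hΦ : ∀ w ∈ P x x t, ∀ u, Φ w u = h (w (u / K)))
    (hU : UMap (P x x t) (P G.x₀ G.x₀ (K * t)) Φ) :
    hpull k hU (j * (n - 1)) (O.om j (K * t)) ≠ 0 := by
  intro h0
  have hjs : 0 ≤ j * s := by positivity
  have ht0 : 0 ≤ K * t := mul_nonneg hK.le (hjs.trans ht)
  have hX : P G.x₀ G.x₀ (K * t) ⊆ P G.x₀ G.x₀ (K * t + B) := P_mono (by linarith)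
  obtain ⟨c, hc⟩ := O.span j (K * t) ht0 hX
    (cls (B64.a0 _) (B64.c0 k) (om G τ false j) (om_cocL0 G τ false j _))
  rw [B64.hres, res_cls] at hc
  have h1 := congrArg (hpull k hU (j * (n - 1))) hc
  rw [map_smul, h0, smul_zero, B64.hpull, pull_cls, cls_eq_zero] at h1
  refine om_hm_ne G τ hK hh hx hD hdeg hs he₀ ha j false ?_
  refine exL_congr' (h1.mono (P_mono ht)) fun l hl => ?_
  congr 1
  refine List.map_congr_left fun w hw => ?_
  ext u
  have hw' := P_mono ht (hl w hw)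
  rw [hΦ w hw' u, hm_apply hK hh hw'.1]

end Deg

/-- **P216-D / D1, block (B).** `M` homeomorphic to the sphere, `h : M → M` Lipschitz of degree
`D ≠ 0` in `k`: the classes `om j` of the based loops at `h x` are not killed by
`w ↦ h ∘ w (· / K)`. The duration `s` does not depend on the field. -/
theorem omegaDeg_ne (hn : 2 ≤ n) {ρ : ℝ} (hρ : 0 < ρ) (hU : LS.UniqSeg M ρ)
    (e : M ≃ₜ Metric.sphere (0 : EuclideanSpace ℝ (Fin (n + 1))) 1) {h : M → M} {K : ℝ}
    (hK : 0 < K) (hh : ∀ x y, dist (h x) (h y) ≤ K * dist x y) (x : M) :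
    ∃ s : ℝ, 0 ≤ s ∧ ∀ (k : Type) [Field k] (D : k), D ≠ 0 →
      (∀ f : List M → k, Nrm f → CocL (univ : Set M) n f →
        ExL (univ : Set M) n fun l => f (l.map h) - D * f l) →
      ∀ (B : ℝ), 0 ≤ B → ∀ (O : OmegaOut M (n - 1) (h x) B k) (j : ℕ) (t : ℝ), j * s ≤ t →
      ∀ Φ : (ℝ →ᵇ M) → (ℝ →ᵇ M), (∀ w ∈ P x x t, ∀ u, Φ w u = h (w (u / K))) →
      ∀ hΦ : UMap (P x x t) (P (h x) (h x) (K * t)) Φ,
        hpull k hΦ (j * (n - 1)) (O.om j (K * t)) ≠ 0 := by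
  obtain ⟨a, b, h1, h2, h3⟩ := exists_points hn e (h x)
  obtain ⟨G, hG⟩ := exists_geo hU hρ hn h1 h2 h3
  obtain ⟨e₀, la, he₀, hla, H⟩ := Tau.exists_tau hn e hρ hU G.h1
  set s : ℝ := max (la x (G.y true)) (la x (G.y false)) with hs
  have hs0 : 0 ≤ s := (hla _ _).le.trans (le_max_left _ _)
  have hsb : ∀ c : Bool, la x (G.y c) ≤ s := by
    rintro (_ | _)
    · exact le_max_right _ _
    · exact le_max_left _ _
  refine ⟨s, hs0, fun k _ D hD hdeg B hB O j t ht Φ hΦ hΦU => ?_⟩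
  obtain ⟨τ, hτe, hev⟩ := H k
  obtain ⟨G, rfl⟩ : ∃ G' : Geo M n, G' = G := ⟨G, rfl⟩
  have key : ∀ (x₀ : M) (hx₀ : h x = x₀) (O : OmegaOut M (n - 1) x₀ B k), G.x₀ = x₀ →
      ∀ hΦ' : UMap (P x x t) (P x₀ x₀ (K * t)) Φ,
      hpull k hΦ' (j * (n - 1)) (O.om j (K * t)) ≠ 0 := by
    rintro x₀ hx₀ O rfl hΦ'
    exact om_hm_class G τ hK hh hx₀ hD hdeg hs0 (half_pos he₀)
      (fun c ε hε hε' => hev true x (G.y (!c)) s (hsb _) ε hε hε') hB O j ht Φ hΦ hΦ'
  exact key (h x) rfl O hG hΦU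

end Vale.Agent.P216.H894
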