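import Vale.Agent.P216.MV337.MooreDefs
import Vale.Agent.P216.MV337.Pg
import Vale.Agent.P216.LS.Maps

/-!
# P216-B, block [W6], part A1: polygonal loops with durations in `XE M s` and in `FL M t`

* `lpOf f`: the loop with the values of `f` on `[0, 1]`;
* `gM t w`: change of scale `FL M t → XE M t`;
* `fM K η γ`: the polygon through the points `γ (i / K)`, the `i`-th side in time `l_i + η / K`;
* general lemmas on `mo (pg x D n)` and `lpOf (pg x D n)` (membership, continuity);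
* `Hp.refl`, `Hp.symm`, `Hp.trans`, `Hp.of_continuousOn`.
-/

set_option linter.all false

namespace Vale.Agent.P216.H894

open Set Filter Topology BoundedContinuousFunction
open Vale.Agent.P216.AS (IsMap IsHtpy)
open Vale.Agent.P216.H901 (tr Hp SpIntl)
open Vale.Agent.P216.L250
open Vale.Agent.P216.LS (UniqSeg)
open Vale.Agent.P216.MV337
open Vale.Agent.P216.PS (mo Lip PP)

/-! ### Homotopies of pairs -/

section Hp

variable {E E' : Type} [PseudoMetricSpace E] [PseudoMetricSpace E'] {A A' : Set E} {B B' : Set E'}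
  {f g h : E → E'}

theorem Hp_of_continuousOn (hA : IsCompact A) {D : ℝ → E → E'}
    (hc : ContinuousOn (fun q : ℝ × E => D q.1 q.2) (Icc (0 : ℝ) 1 ×ˢ A))
    (hm : ∀ s ∈ Icc (0 : ℝ) 1, MapsTo (D s) A B) (hm' : ∀ s ∈ Icc (0 : ℝ) 1, MapsTo (D s) A' B')
    (h0 : EqOn (D 0) f A) (h1 : EqOn (D 1) g A) : Hp A A' B B' f g :=
  ⟨D, IsHtpy.of_continuousOn hA hc hm fun _ _ i => i.elim, hm', h0, h1⟩

theorem Hp_refl (hf : IsMap (tr E) (tr E') A B f) (hf' : MapsTo f A' B') : Hp A A' B B' f f := by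
  refine ⟨fun _ => f, ⟨fun _ _ => hf.mapsX, fun _ _ i => i.elim, fun ε hε => ?_⟩,
    fun _ _ => hf', fun _ _ => rfl, fun _ _ => rfl⟩
  obtain ⟨δ, hδ, h⟩ := hf.uc ε hε
  exact ⟨δ, hδ, fun s _ t _ x hx y hy _ hxy => h x hx y hy hxy⟩

theorem Hp_symm (h : Hp A A' B B' f g) : Hp A A' B B' g f := by
  obtain ⟨D, h1, h2, h3, h4⟩ := h
  have hr : ∀ s ∈ Icc (0 : ℝ) 1, 1 - s ∈ Icc (0 : ℝ) 1 := fun s hs =>
    ⟨by linarith [hs.2], by linarith [hs.1]⟩
  refine ⟨fun s => D (1 - s), ⟨fun s hs => h1.mapsX _ (hr s hs), fun _ _ i => i.elim,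
    fun ε hε => ?_⟩, fun s hs => h2 _ (hr s hs), ?_, ?_⟩
  · obtain ⟨δ, hδ, h⟩ := h1.uc ε hε
    refine ⟨δ, hδ, fun s hs t ht x hx y hy hst hxy => h _ (hr s hs) _ (hr t ht) x hx y hy ?_ hxy⟩
    rw [show (1 - s) - (1 - t) = -(s - t) by ring, abs_neg]
    exact hst
  · intro x hx
    show D (1 - 0) x = g x
    rw [sub_zero]; exact h4 hx
  · intro x hx
    show D (1 - 1) x = f x
    rw [sub_self]; exact h3 hx

theorem Hp_trans (hfg : Hp A A' B B' f g) (hgh : Hp A A' B B' g h) : Hp A A' B B' f h := by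
  obtain ⟨D, h1, h2, h3, h4⟩ := hfg
  obtain ⟨F, k1, k2, k3, k4⟩ := hgh
  have hl : ∀ s : ℝ, s ∈ Icc (0 : ℝ) 1 → s ≤ 1 / 2 → 2 * s ∈ Icc (0 : ℝ) 1 := fun s hs h =>
    ⟨by linarith [hs.1], by linarith⟩
  have hr : ∀ s : ℝ, s ∈ Icc (0 : ℝ) 1 → 1 / 2 ≤ s → 2 * s - 1 ∈ Icc (0 : ℝ) 1 := fun s hs h =>
    ⟨by linarith, by linarith [hs.2]⟩
  let G : ℝ → E → E' := fun s x => if s ≤ 1 / 2 then D (2 * s) x else F (2 * s - 1) x
  have Gl : ∀ s ≤ (1 : ℝ) / 2, G s = D (2 * s) := fun s hs => by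
    funext x
    exact if_pos hs
  have Gr : ∀ s : ℝ, 1 / 2 ≤ s → ∀ x ∈ A, G s x = F (2 * s - 1) x := fun s hs x hx => by
    rcases hs.eq_or_lt with rfl | hs
    · rw [Gl _ le_rfl]
      norm_num
      rw [h4 hx, k3 hx]
    · exact if_neg (not_le.2 hs)
  refine ⟨G, ⟨fun s hs x hx => ?_, fun _ _ i => i.elim, fun ε hε => ?_⟩, fun s hs x hx => ?_,
    fun x hx => ?_, fun x hx => ?_⟩
  · rcases le_total s (1 / 2) with h | h
    · rw [Gl s h]; exact h1.mapsX _ (hl s hs h) hx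
    · rw [Gr s h x hx]; exact k1.mapsX _ (hr s hs h) hx
  · obtain ⟨δ, hδ, hD⟩ := h1.uc (ε / 2) (by positivity)
    obtain ⟨δ', hδ', hF⟩ := k1.uc (ε / 2) (by positivity)
    have key : ∀ s ∈ Icc (0 : ℝ) 1, ∀ t ∈ Icc (0 : ℝ) 1, s ≤ t → ∀ x ∈ A, ∀ y ∈ A,
        t - s < min δ δ' / 2 → dist x y < min δ δ' / 2 → dist (G s x) (G t y) < ε := by
      intro s hs t ht hst x hx y hy h5 h6
      have m1 : min δ δ' ≤ δ := min_le_left _ _
      have m2 : min δ δ' ≤ δ' := min_le_right _ _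
      rcases le_total t (1 / 2) with h | h
      · rw [Gl s (hst.trans h), Gl t h]
        refine (hD _ (hl s hs (hst.trans h)) _ (hl t ht h) x hx y hy ?_ (by linarith)).trans
          (by linarith)
        rw [abs_sub_comm, abs_of_nonneg (by linarith)]
        linarith
      rcases le_total (1 / 2) s with h' | h'
      · rw [Gr s h' x hx, Gr t h y hy]
        refine (hF _ (hr s hs h') _ (hr t ht h) x hx y hy ?_ (by linarith)).trans
          (by linarith)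
        rw [abs_sub_comm, abs_of_nonneg (by linarith)]
        linarith
      · rw [Gl s h', Gr t h y hy]
        have e1 : dist (D (2 * s) x) (g x) < ε / 2 := by
          rw [← h4 hx]
          refine hD _ (hl s hs h') _ ⟨zero_le_one, le_rfl⟩ x hx x hx ?_ (by rwa [dist_self])
          rw [abs_sub_comm, abs_of_nonneg (by linarith)]
          linarith
        have e2 : dist (g x) (F (2 * t - 1) y) < ε / 2 := by
          rw [← k3 hx]
          refine hF _ ⟨le_rfl, zero_le_one⟩ _ (hr t ht h) x hx y hy ?_ (by linarith)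
          rw [abs_sub_comm, abs_of_nonneg (by linarith)]
          linarith
        linarith [dist_triangle (D (2 * s) x) (g x) (F (2 * t - 1) y)]
    refine ⟨min δ δ' / 2, by positivity, fun s hs t ht x hx y hy hst hxy => ?_⟩
    rcases le_total s t with h | h
    · rw [abs_sub_comm, abs_of_nonneg (by linarith)] at hst
      exact key s hs t ht h x hx y hy hst hxy
    · rw [abs_of_nonneg (by linarith)] at hst
      rw [dist_comm]
      rw [dist_comm] at hxy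
      exact key t ht s hs h y hy x hx hst hxy
  · show G s x ∈ B'
    by_cases h : s ≤ 1 / 2
    · rw [Gl s h]; exact h2 _ (hl s hs h) hx
    · have : G s x = F (2 * s - 1) x := if_neg h
      rw [this]; exact k2 _ (hr s hs (le_of_not_ge h)) hx
  · rw [Gl 0 (by norm_num), mul_zero]; exact h3 hx
  · rw [Gr 1 (by norm_num) x hx]
    norm_num
    exact k4 hx

theorem Hp_congr {f' g' : E → E'} (hfg : Hp A A' B B' f g) (hf : EqOn f f' A) (hg : EqOn g g' A) :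
    Hp A A' B B' f' g' := by
  obtain ⟨D, h1, h2, h3, h4⟩ := hfg
  exact ⟨D, h1, h2, h3.trans hf, h4.trans hg⟩

theorem Hp_mono {C : Set E'} (hfg : Hp A ∅ B ∅ f g) (hBC : B ⊆ C) : Hp A ∅ C ∅ f g := by
  obtain ⟨D, h1, h2, h3, h4⟩ := hfg
  exact ⟨D, h1.mono Subset.rfl fun s hs x hx => hBC (h1.mapsX s hs hx), h2, h3, h4⟩

/-- Restriction of the source. -/
theorem Hp_mono_left {C : Set E} (hfg : Hp A ∅ B ∅ f g) (hCA : C ⊆ A) : Hp C ∅ B ∅ f g := by
  obtain ⟨D, h1, h2, h3, h4⟩ := hfg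
  exact ⟨D, h1.mono hCA fun s hs x hx => h1.mapsX s hs (hCA hx), h2, h3.mono hCA, h4.mono hCA⟩

end Hp

section

variable {M : Type} [MetricSpace M]

/-! ### Loops from functions on `[0, 1]` -/

theorem periodic_fract (f : ℝ → M) : Function.Periodic (fun u => f (Int.fract u)) 1 := fun u => by
  simp only [Int.fract_add_one]

open Classical in
/-- The loop with the values of `f` on `[0, 1]`. -/
noncomputable def lpOf (f : ℝ → M) : LM M :=
  if h : Continuous fun u => f (Int.fract u) then ofFn _ h (periodic_fract f)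
  else ofFn (fun _ => f 0) continuous_const fun _ => rfl

theorem fn_lpOf {f : ℝ → M} (h : Continuous fun u => f (Int.fract u)) (u : ℝ) :
    fn (lpOf f) u = f (Int.fract u) := by
  rw [lpOf, dif_pos h, fn_ofFn]

theorem hasE_fract {f : ℝ → M} (hf : f 1 = f 0) {e : ℝ → ℝ} {C : ℝ} (h : Cert f e 0 1)
    (hC : e 1 - e 0 ≤ C) : HasE (fun u => f (Int.fract u)) C := by
  refine (hasE_of_cert (periodic_fract f) (e := e)
    (h.congr (fun t ht => ?_) fun _ _ => rfl) rfl).mono hC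
  rcases ht.2.eq_or_lt with rfl | h1
  · rw [Int.fract_one, hf]
  · rw [Int.fract_eq_self.2 ⟨ht.1, h1⟩]

theorem fn_lpOf_of_cert {f : ℝ → M} (hf : f 1 = f 0) {e : ℝ → ℝ} (h : Cert f e 0 1) (u : ℝ) :
    fn (lpOf f) u = f (Int.fract u) :=
  fn_lpOf (LS.HasE.continuous' (hasE_fract hf h le_rfl)) u

theorem fn_lpOf_Icc {f : ℝ → M} (hf : f 1 = f 0) {e : ℝ → ℝ} (h : Cert f e 0 1) {u : ℝ}
    (hu : u ∈ Icc (0 : ℝ) 1) : fn (lpOf f) u = f u := by
  rw [fn_lpOf_of_cert hf h]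
  rcases hu.2.eq_or_lt with rfl | h1
  · rw [Int.fract_one, hf]
  · rw [Int.fract_eq_self.2 ⟨hu.1, h1⟩]

theorem lpOf_mem {f : ℝ → M} (hf : f 1 = f 0) {e : ℝ → ℝ} {s : ℝ} (h : Cert f e 0 1)
    (hC : e 1 - e 0 ≤ s ^ 2) : lpOf f ∈ XE M s := by
  have h1 : fn (lpOf f) = fun u => f (Int.fract u) := funext (fn_lpOf_of_cert hf h)
  rw [mem_XE, h1]
  exact hasE_fract hf h hC

/-! ### The change of scale -/

/-- Change of scale. -/
noncomputable def gM (t : ℝ) (w : ℝ →ᵇ M) : LM M := lpOf fun s => w (t * s)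

variable {t : ℝ} {w w' : ℝ →ᵇ M}

theorem cert_scale (ht : 0 ≤ t) (hw : w ∈ FL M t) :
    Cert (fun s => w (t * s)) (fun s => t ^ 2 * s) 0 1 := by
  intro a b _ hab _
  have h1 := hw.1 (t * a) (t * b)
  rw [← mul_sub, abs_mul, abs_of_nonneg ht, abs_sub_comm, abs_of_nonneg (sub_nonneg.2 hab)] at h1
  calc dist (w (t * a)) (w (t * b)) ^ 2 ≤ (t * (b - a)) ^ 2 := pow_le_pow_left₀ dist_nonneg h1 2
    _ = _ := by ring

theorem scale_closed (hw : w ∈ FL M t) : w (t * 1) = w (t * 0) := by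
  rw [mul_one, mul_zero]; exact hw.2.2 t le_rfl

theorem fn_gM (ht : 0 ≤ t) (hw : w ∈ FL M t) {s : ℝ} (hs : s ∈ Icc (0 : ℝ) 1) :
    fn (gM t w) s = w (t * s) :=
  fn_lpOf_Icc (f := fun s => w (t * s)) (scale_closed hw) (cert_scale ht hw) hs

theorem gM_mem (ht : 0 ≤ t) (hw : w ∈ FL M t) : gM t w ∈ XE M t :=
  lpOf_mem (f := fun s => w (t * s)) (scale_closed hw) (cert_scale ht hw) (by simp)

theorem dist_gM_le (ht : 0 ≤ t) (hw : w ∈ FL M t) (hw' : w' ∈ FL M t) :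
    dist (gM t w) (gM t w') ≤ dist w w' :=
  dist_le_of_Ico dist_nonneg fun s hs => by
    rw [fn_gM ht hw ⟨hs.1, hs.2.le⟩, fn_gM ht hw' ⟨hs.1, hs.2.le⟩]
    exact BoundedContinuousFunction.dist_coe_le_dist _

theorem isMap_gM (ht : 0 ≤ t) {t' : ℝ} (h : t ≤ t') :
    IsMap (tr (ℝ →ᵇ M)) (tr (LM M)) (FL M t) (XE M t') (gM t) where
  mapsX w hw := XE_mono ht h (gM_mem ht hw)
  eqv i := i.elim
  uc ε hε := ⟨ε, hε, fun w hw w' hw' h => (dist_gM_le ht hw hw').trans_lt h⟩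

/-! ### Polygons with durations, as Moore loops -/

section PolyF

variable [CompactSpace M] {ρ T : ℝ} {x : ℕ → M} {D : ℕ → ℝ} {n : ℕ}

omit [CompactSpace M] in
theorem lip_pg (hU : UniqSeg M ρ) (hD : ∀ i < n, 0 < D i)
    (hρ : ∀ i < n, dist (x i) (x (i + 1)) < ρ) (hd : ∀ i < n, dist (x i) (x (i + 1)) ≤ D i) :
    Lip (pg x D n) := fun u v => by
  have := dist_pg_le hU zero_le_one hD hρ (fun i hi => by rw [one_mul]; exact hd i hi) u v
  rwa [one_mul] at this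

theorem polyF_mem (hU : UniqSeg M ρ) (hD : ∀ i < n, 0 < D i)
    (hρ : ∀ i < n, dist (x i) (x (i + 1)) < ρ) (hd : ∀ i < n, dist (x i) (x (i + 1)) ≤ D i)
    (hx : x n = x 0) (hT : cs D n ≤ T) : mo (pg x D n) ∈ FL M T := by
  refine P_subset_FL (a := x 0) (PS.mo_mem (lip_pg hU hD hρ hd)
    (fun u hu => pg_of_nonpos hD hu) fun u hu => ?_)
  rw [pg_of_ge hD (hT.trans hu), hx]

theorem continuousOn_polyF (hU : UniqSeg M ρ) {S : Type*} [TopologicalSpace S] {A : Set S}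
    {X : S → ℕ → M} {D : S → ℕ → ℝ} (hT : 0 ≤ T)
    (hX : ∀ i ≤ n, ContinuousOn (fun s => X s i) A) (hDc : ∀ i < n, ContinuousOn (fun s => D s i) A)
    (hD : ∀ s ∈ A, ∀ i < n, 0 < D s i) (hρ : ∀ s ∈ A, ∀ i < n, dist (X s i) (X s (i + 1)) < ρ)
    (hd : ∀ s ∈ A, ∀ i < n, dist (X s i) (X s (i + 1)) ≤ D s i) (hx : ∀ s ∈ A, X s n = X s 0)
    (hcs : ∀ s ∈ A, cs (D s) n ≤ T) : ContinuousOn (fun s => mo (pg (X s) (D s) n)) A := by
  refine PS.continuousOn_of_eval hT (fun s hs => FL_subset_PP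
    (polyF_mem hU (hD s hs) (hρ s hs) (hd s hs) (hx s hs) (hcs s hs))) fun u => ?_
  refine (continuousOn_pg hU hX hDc (U := fun _ => u) continuousOn_const hD hρ).congr
    fun s hs => ?_
  exact (lip_pg hU (hD s hs) (hρ s hs) (hd s hs)).mo_apply u

end PolyF

/-! ### Polygons with durations, as loops of bounded energy -/

section PolyX

variable {ρ s : ℝ} {x : ℕ → M} {D : ℕ → ℝ} {n : ℕ}

/-- Energy certificate on `[0, 1]`. -/
theorem cert_pg' (hU : UniqSeg M ρ) (hD : ∀ i < n, 0 < D i)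
    (hρ : ∀ i < n, dist (x i) (x (i + 1)) < ρ) (h1 : cs D n ≤ 1) :
    ∃ e : ℝ → ℝ, Cert (pg x D n) e 0 1 ∧
      e 1 - e 0 = ∑ i ∈ Finset.range n, dist (x i) (x (i + 1)) ^ 2 / D i := by
  obtain ⟨e, h2, h3, h4⟩ := cert_pg hU hD hρ
  have h0 := cs_nonneg hD
  have hv : ∀ u, cs D n ≤ u → (if u ≤ cs D n then e u else e (cs D n)) = e (cs D n) := by
    intro u hu
    rcases hu.eq_or_lt with rfl | hu
    · rw [if_pos le_rfl]
    · rw [if_neg (not_le.2 hu)]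
  refine ⟨fun u => if u ≤ cs D n then e u else e (cs D n), Cert.glue (b := cs D n) ?_ ?_, ?_⟩
  · exact h2.congr (fun _ _ => rfl) fun u hu => if_pos hu.2
  · intro a b ha hab _
    show dist (pg x D n a) (pg x D n b) ^ 2 ≤ (b - a) *
      ((if b ≤ cs D n then e b else e (cs D n)) - (if a ≤ cs D n then e a else e (cs D n)))
    rw [hv a ha, hv b (ha.trans hab), pg_of_ge hD ha, pg_of_ge hD (ha.trans hab), dist_self]
    simp
  · show (if (1 : ℝ) ≤ cs D n then e 1 else e (cs D n)) - (if (0 : ℝ) ≤ cs D n then e 0 else _) = _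
    rw [hv 1 h1, if_pos h0, h3, h4, sub_zero]

theorem pg_closed (hD : ∀ i < n, 0 < D i) (hx : x n = x 0) (h1 : cs D n ≤ 1) :
    pg x D n 1 = pg x D n 0 := by
  rw [pg_of_ge hD h1, pg_of_nonpos hD le_rfl, hx]

theorem fn_polyX (hU : UniqSeg M ρ) (hD : ∀ i < n, 0 < D i)
    (hρ : ∀ i < n, dist (x i) (x (i + 1)) < ρ) (hx : x n = x 0) (h1 : cs D n ≤ 1) (u : ℝ) :
    fn (lpOf (pg x D n)) u = pg x D n (Int.fract u) := by
  obtain ⟨e, h2, -⟩ := cert_pg' hU hD hρ h1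
  exact fn_lpOf_of_cert (pg_closed hD hx h1) h2 u

theorem polyX_mem (hU : UniqSeg M ρ) (hD : ∀ i < n, 0 < D i)
    (hρ : ∀ i < n, dist (x i) (x (i + 1)) < ρ) (hx : x n = x 0) (h1 : cs D n ≤ 1)
    (hE : ∑ i ∈ Finset.range n, dist (x i) (x (i + 1)) ^ 2 / D i ≤ s ^ 2) :
    lpOf (pg x D n) ∈ XE M s := by
  obtain ⟨e, h2, h3⟩ := cert_pg' hU hD hρ h1
  exact lpOf_mem (pg_closed hD hx h1) h2 (h3.trans_le hE)

theorem continuousOn_polyX [CompactSpace M] (hU : UniqSeg M ρ) {S : Type*} [TopologicalSpace S]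
    {A : Set S} {X : S → ℕ → M} {D : S → ℕ → ℝ} (hs : 0 ≤ s)
    (hX : ∀ i ≤ n, ContinuousOn (fun s => X s i) A) (hDc : ∀ i < n, ContinuousOn (fun s => D s i) A)
    (hD : ∀ s ∈ A, ∀ i < n, 0 < D s i) (hρ : ∀ s ∈ A, ∀ i < n, dist (X s i) (X s (i + 1)) < ρ)
    (hx : ∀ s ∈ A, X s n = X s 0) (hcs : ∀ s ∈ A, cs (D s) n ≤ 1)
    (hE : ∀ a ∈ A, ∑ i ∈ Finset.range n, dist (X a i) (X a (i + 1)) ^ 2 / D a i ≤ s ^ 2) :
    ContinuousOn (fun s => lpOf (pg (X s) (D s) n)) A := by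
  refine LS.continuousOn_of_pointwise hs (fun a ha =>
    polyX_mem hU (hD a ha) (hρ a ha) (hx a ha) (hcs a ha) (hE a ha)) fun u => ?_
  refine (continuousOn_pg hU hX hDc (U := fun _ => Int.fract u) continuousOn_const hD hρ).congr
    fun a ha => ?_
  exact fn_polyX hU (hD a ha) (hρ a ha) (hx a ha) (hcs a ha) u

end PolyX

/-! ### Change of the durations -/

theorem inv_conv {a b σ l : ℝ} (ha : 0 < a) (hb : 0 < b) (hσ : σ ∈ Icc (0 : ℝ) 1) :
    l ^ 2 / ((1 - σ) * a + σ * b) ≤ (1 - σ) * (l ^ 2 / a) + σ * (l ^ 2 / b) := by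
  have h0 : 0 < (1 - σ) * a + σ * b := by
    rcases hσ.1.eq_or_lt with h | h
    · rw [← h]; simpa using ha
    · have : 0 ≤ (1 - σ) * a := mul_nonneg (by linarith [hσ.2]) ha.le
      have : 0 < σ * b := mul_pos h hb
      linarith
  rw [div_le_iff₀ h0]
  have h1 : ((1 - σ) * (l ^ 2 / a) + σ * (l ^ 2 / b)) * ((1 - σ) * a + σ * b) - l ^ 2 =
      l ^ 2 * (σ * (1 - σ)) * (a - b) ^ 2 / (a * b) := by
    field_simp
    ring
  have h2 : 0 ≤ l ^ 2 * (σ * (1 - σ)) * (a - b) ^ 2 / (a * b) := by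
    have : 0 ≤ σ * (1 - σ) := mul_nonneg hσ.1 (by linarith [hσ.2])
    positivity
  linarith

theorem cs_conv (D D' : ℕ → ℝ) (σ : ℝ) (n : ℕ) :
    cs (fun i => (1 - σ) * D i + σ * D' i) n = (1 - σ) * cs D n + σ * cs D' n := by
  unfold cs
  rw [Finset.sum_add_distrib, Finset.mul_sum, Finset.mul_sum]

theorem conv_pos {a b σ : ℝ} (ha : 0 < a) (hb : 0 < b) (hσ : σ ∈ Icc (0 : ℝ) 1) :
    0 < (1 - σ) * a + σ * b := by
  rcases hσ.1.eq_or_lt with h | h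
  · rw [← h]; simpa using ha
  · have : 0 ≤ (1 - σ) * a := mul_nonneg (by linarith [hσ.2]) ha.le
    have : 0 < σ * b := mul_pos h hb
    linarith

theorem conv_le {a b c σ : ℝ} (ha : a ≤ c) (hb : b ≤ c) (hσ : σ ∈ Icc (0 : ℝ) 1) :
    (1 - σ) * a + σ * b ≤ c := by
  have h1 : (1 - σ) * a ≤ (1 - σ) * c := mul_le_mul_of_nonneg_left ha (by linarith [hσ.2])
  have h2 : σ * b ≤ σ * c := mul_le_mul_of_nonneg_left hb hσ.1
  linarith

theorem le_conv {a b c σ : ℝ} (ha : c ≤ a) (hb : c ≤ b) (hσ : σ ∈ Icc (0 : ℝ) 1) :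
    c ≤ (1 - σ) * a + σ * b := by
  have h1 : (1 - σ) * c ≤ (1 - σ) * a := mul_le_mul_of_nonneg_left ha (by linarith [hσ.2])
  have h2 : σ * c ≤ σ * b := mul_le_mul_of_nonneg_left hb hσ.1
  linarith

section Dur

variable [CompactSpace M] {ρ T s : ℝ} {n : ℕ} {E : Type} [PseudoMetricSpace E] {A : Set E}
  {X : E → ℕ → M} {D D' : E → ℕ → ℝ}

/-- Change of the durations in `XE M s`. -/
theorem Hp_durX (hU : UniqSeg M ρ) (hA : IsCompact A) (hs : 0 ≤ s)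
    (hX : ∀ i ≤ n, ContinuousOn (fun a => X a i) A)
    (hDc : ∀ i < n, ContinuousOn (fun a => D a i) A)
    (hDc' : ∀ i < n, ContinuousOn (fun a => D' a i) A)
    (hD : ∀ a ∈ A, ∀ i < n, 0 < D a i) (hD' : ∀ a ∈ A, ∀ i < n, 0 < D' a i)
    (hρ : ∀ a ∈ A, ∀ i < n, dist (X a i) (X a (i + 1)) < ρ)
    (hx : ∀ a ∈ A, X a n = X a 0) (hcs : ∀ a ∈ A, cs (D a) n ≤ 1)
    (hcs' : ∀ a ∈ A, cs (D' a) n ≤ 1)
    (hE : ∀ a ∈ A, ∑ i ∈ Finset.range n, dist (X a i) (X a (i + 1)) ^ 2 / D a i ≤ s ^ 2)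
    (hE' : ∀ a ∈ A, ∑ i ∈ Finset.range n, dist (X a i) (X a (i + 1)) ^ 2 / D' a i ≤ s ^ 2) :
    Hp A ∅ (XE M s) ∅ (fun a => lpOf (pg (X a) (D a) n)) (fun a => lpOf (pg (X a) (D' a) n)) := by
  have p1 : ∀ q ∈ Icc (0 : ℝ) 1 ×ˢ A, ∀ i < n, 0 < (1 - q.1) * D q.2 i + q.1 * D' q.2 i :=
    fun q hq i hi => conv_pos (hD _ hq.2 i hi) (hD' _ hq.2 i hi) hq.1
  have p2 : ∀ q ∈ Icc (0 : ℝ) 1 ×ˢ A, cs (fun i => (1 - q.1) * D q.2 i + q.1 * D' q.2 i) n ≤ 1 :=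
    fun q hq => by rw [cs_conv]; exact conv_le (hcs _ hq.2) (hcs' _ hq.2) hq.1
  have p3 : ∀ q ∈ Icc (0 : ℝ) 1 ×ˢ A, ∑ i ∈ Finset.range n, dist (X q.2 i) (X q.2 (i + 1)) ^ 2 /
      ((1 - q.1) * D q.2 i + q.1 * D' q.2 i) ≤ s ^ 2 := by
    intro q hq
    refine le_trans (Finset.sum_le_sum fun i hi => inv_conv (hD _ hq.2 i (Finset.mem_range.1 hi))
      (hD' _ hq.2 i (Finset.mem_range.1 hi)) hq.1) ?_
    rw [Finset.sum_add_distrib, ← Finset.mul_sum, ← Finset.mul_sum]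
    exact conv_le (hE _ hq.2) (hE' _ hq.2) hq.1
  refine Hp_of_continuousOn hA
    (D := fun σ a => lpOf (pg (X a) (fun i => (1 - σ) * D a i + σ * D' a i) n)) ?_
    (fun σ hσ a ha => ?_) (fun _ _ => mapsTo_empty _ _) (fun a ha => ?_) fun a ha => ?_
  · refine continuousOn_polyX hU hs (A := Icc (0 : ℝ) 1 ×ˢ A) (X := fun q => X q.2)
      (D := fun q i => (1 - q.1) * D q.2 i + q.1 * D' q.2 i) (fun i hi => ?_) (fun i hi => ?_)
      p1 (fun q hq => hρ _ hq.2) (fun q hq => hx _ hq.2) p2 p3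
    · exact (hX i hi).comp continuousOn_snd fun q hq => hq.2
    · exact ((continuousOn_const.sub continuousOn_fst).mul
        ((hDc i hi).comp continuousOn_snd fun q hq => hq.2)).add
        (continuousOn_fst.mul ((hDc' i hi).comp continuousOn_snd fun q hq => hq.2))
  · exact polyX_mem hU (p1 (σ, a) ⟨hσ, ha⟩) (hρ a ha) (hx a ha) (p2 (σ, a) ⟨hσ, ha⟩)
      (p3 (σ, a) ⟨hσ, ha⟩)
  · show lpOf (pg (X a) (fun i => (1 - 0) * D a i + 0 * D' a i) n) = _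
    simp
  · show lpOf (pg (X a) (fun i => (1 - 1) * D a i + 1 * D' a i) n) = _
    simp

/-- Change of the durations in `FL M T`. -/
theorem Hp_durF (hU : UniqSeg M ρ) (hA : IsCompact A) (hT : 0 ≤ T)
    (hX : ∀ i ≤ n, ContinuousOn (fun a => X a i) A)
    (hDc : ∀ i < n, ContinuousOn (fun a => D a i) A)
    (hDc' : ∀ i < n, ContinuousOn (fun a => D' a i) A)
    (hD : ∀ a ∈ A, ∀ i < n, 0 < D a i) (hD' : ∀ a ∈ A, ∀ i < n, 0 < D' a i)
    (hρ : ∀ a ∈ A, ∀ i < n, dist (X a i) (X a (i + 1)) < ρ)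
    (hd : ∀ a ∈ A, ∀ i < n, dist (X a i) (X a (i + 1)) ≤ D a i)
    (hd' : ∀ a ∈ A, ∀ i < n, dist (X a i) (X a (i + 1)) ≤ D' a i)
    (hx : ∀ a ∈ A, X a n = X a 0) (hcs : ∀ a ∈ A, cs (D a) n ≤ T)
    (hcs' : ∀ a ∈ A, cs (D' a) n ≤ T) :
    Hp A ∅ (FL M T) ∅ (fun a => mo (pg (X a) (D a) n)) (fun a => mo (pg (X a) (D' a) n)) := by
  have p1 : ∀ q ∈ Icc (0 : ℝ) 1 ×ˢ A, ∀ i < n, 0 < (1 - q.1) * D q.2 i + q.1 * D' q.2 i :=
    fun q hq i hi => conv_pos (hD _ hq.2 i hi) (hD' _ hq.2 i hi) hq.1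
  have p2 : ∀ q ∈ Icc (0 : ℝ) 1 ×ˢ A, cs (fun i => (1 - q.1) * D q.2 i + q.1 * D' q.2 i) n ≤ T :=
    fun q hq => by rw [cs_conv]; exact conv_le (hcs _ hq.2) (hcs' _ hq.2) hq.1
  have p3 : ∀ q ∈ Icc (0 : ℝ) 1 ×ˢ A, ∀ i < n, dist (X q.2 i) (X q.2 (i + 1)) ≤
      (1 - q.1) * D q.2 i + q.1 * D' q.2 i :=
    fun q hq i hi => le_conv (hd _ hq.2 i hi) (hd' _ hq.2 i hi) hq.1
  refine Hp_of_continuousOn hA
    (D := fun σ a => mo (pg (X a) (fun i => (1 - σ) * D a i + σ * D' a i) n)) ?_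
    (fun σ hσ a ha => ?_) (fun _ _ => mapsTo_empty _ _) (fun a ha => ?_) fun a ha => ?_
  · refine continuousOn_polyF hU (A := Icc (0 : ℝ) 1 ×ˢ A) (X := fun q => X q.2)
      (D := fun q i => (1 - q.1) * D q.2 i + q.1 * D' q.2 i) hT (fun i hi => ?_) (fun i hi => ?_)
      p1 (fun q hq => hρ _ hq.2) p3 (fun q hq => hx _ hq.2) p2
    · exact (hX i hi).comp continuousOn_snd fun q hq => hq.2
    · exact ((continuousOn_const.sub continuousOn_fst).mul
        ((hDc i hi).comp continuousOn_snd fun q hq => hq.2)).add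
        (continuousOn_fst.mul ((hDc' i hi).comp continuousOn_snd fun q hq => hq.2))
  · exact polyF_mem hU (p1 (σ, a) ⟨hσ, ha⟩) (hρ a ha) (p3 (σ, a) ⟨hσ, ha⟩) (hx a ha)
      (p2 (σ, a) ⟨hσ, ha⟩)
  · show mo (pg (X a) (fun i => (1 - 0) * D a i + 0 * D' a i) n) = _
    simp
  · show mo (pg (X a) (fun i => (1 - 1) * D a i + 1 * D' a i) n) = _
    simp

end Dur

/-! ### The polygon of a loop, with durations -/

/-- The points `γ (i / K)`. -/
noncomputable def vx (K : ℕ) (γ : LM M) (i : ℕ) : M := fn γ (i / K)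

/-- The lengths of the sides. -/
noncomputable def ln (K : ℕ) (γ : LM M) (i : ℕ) : ℝ := dist (vx K γ i) (vx K γ (i + 1))

/-- The durations. -/
noncomputable def du (K : ℕ) (η : ℝ) (γ : LM M) (i : ℕ) : ℝ := ln K γ i + η / K

/-- The number of points. -/
noncomputable def mesh (ρ t : ℝ) : ℕ := ⌊t ^ 2 / ρ ^ 2⌋₊ + 1

theorem mesh_pos (ρ t : ℝ) : 0 < mesh ρ t := Nat.succ_pos _

theorem lt_mesh {ρ : ℝ} (hρ : 0 < ρ) (t : ℝ) : t ^ 2 < mesh ρ t * ρ ^ 2 := by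
  have h := Nat.lt_floor_add_one (t ^ 2 / ρ ^ 2)
  rw [div_lt_iff₀ (by positivity)] at h
  unfold mesh
  push_cast
  exact h

theorem mesh_mono {ρ : ℝ} {s t : ℝ} (hs : 0 ≤ s) (hst : s ≤ t) : mesh ρ s ≤ mesh ρ t := by
  unfold mesh
  gcongr

section Vx

variable {K : ℕ} {γ : LM M} {η ρ : ℝ}

theorem vx_closed (hK : 0 < K) (γ : LM M) : vx K γ K = vx K γ 0 := by
  have hK' : (K : ℝ) ≠ 0 := by exact_mod_cast hK.ne'
  have := fn_periodic γ 0
  rw [zero_add] at this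
  rw [vx, vx, div_self hK', this, Nat.cast_zero, zero_div]

theorem sum_sq_ln_le (hK : 0 < K) (hγ : γ ∈ XE M t) :
    K * ∑ i ∈ Finset.range K, ln K γ i ^ 2 ≤ t ^ 2 := by
  haveI : NeZero K := ⟨hK.ne'⟩
  refine le_trans (le_of_eq ?_) (LS.E_sample_le (K := K) (fn_periodic γ) hγ)
  rw [LS.E, LS.sum_zmod]
  congr 1
  refine Finset.sum_congr rfl fun i _ => ?_
  have h1 := LS.sample_natCast (K := K) (fn_periodic γ) i
  have h2 := LS.sample_natCast (K := K) (fn_periodic γ) (i + 1)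
  rw [Nat.cast_add, Nat.cast_one] at h2
  rw [h1, h2, ln, vx, vx]

theorem sum_ln_le (ht : 0 ≤ t) (hK : 0 < K) (hγ : γ ∈ XE M t) :
    ∑ i ∈ Finset.range K, ln K γ i ≤ t := by
  have h1 := sq_sum_le_card_mul_sum_sq (s := Finset.range K) (f := fun i => ln K γ i)
  rw [Finset.card_range] at h1
  exact (pow_le_pow_iff_left₀ (Finset.sum_nonneg fun i _ => dist_nonneg) ht two_ne_zero).1
    (h1.trans (sum_sq_ln_le hK hγ))

theorem pos_of_sq_lt (hK : t ^ 2 < K * ρ ^ 2) : 0 < K := by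
  rcases Nat.eq_zero_or_pos K with rfl | h
  · rw [Nat.cast_zero, zero_mul] at hK
    linarith [sq_nonneg t]
  · exact h

theorem ln_lt (hρ : 0 < ρ) (hK : t ^ 2 < K * ρ ^ 2) (hγ : γ ∈ XE M t) (i : ℕ) :
    ln K γ i < ρ := by
  haveI : NeZero K := ⟨(pos_of_sq_lt hK).ne'⟩
  have := LS.dist_step_lt hρ hK hγ i (v := 1) ⟨zero_le_one, le_rfl⟩
  rw [ln, vx, vx]
  push_cast at this ⊢
  exact this

theorem ln_nonneg (i : ℕ) : 0 ≤ ln K γ i := dist_nonneg

theorem du_pos (hK : 0 < K) (hη : 0 < η) (i : ℕ) : 0 < du K η γ i := by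
  have : (0 : ℝ) < K := by exact_mod_cast hK
  have := ln_nonneg (K := K) (γ := γ) i
  unfold du
  positivity

theorem cs_du (hK : 0 < K) : cs (du K η γ) K = ∑ i ∈ Finset.range K, ln K γ i + η := by
  have : (K : ℝ) ≠ 0 := by exact_mod_cast hK.ne'
  unfold cs du
  rw [Finset.sum_add_distrib, Finset.sum_const, Finset.card_range, nsmul_eq_mul,
    mul_div_cancel₀ _ this]

theorem cs_du_le (ht : 0 ≤ t) (hK : 0 < K) (hγ : γ ∈ XE M t) : cs (du K η γ) K ≤ t + η := by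
  rw [cs_du hK]
  linarith [sum_ln_le ht hK hγ]

theorem ln_le_du (hη : 0 < η) (i : ℕ) : ln K γ i ≤ du K η γ i := by
  unfold du
  have : 0 ≤ η / K := by positivity
  linarith

theorem continuous_vx (i : ℕ) : Continuous fun γ : LM M => vx K γ i := LS.continuous_fn_left _

theorem continuous_ln (i : ℕ) : Continuous fun γ : LM M => ln K γ i :=
  (continuous_vx i).dist (continuous_vx (i + 1))

theorem continuous_du (i : ℕ) : Continuous fun γ : LM M => du K η γ i :=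
  (continuous_ln i).add continuous_const

section Compact

variable [CompactSpace M]

/-- From loops of bounded energy to Moore loops. -/
noncomputable def fM (K : ℕ) (η : ℝ) (γ : LM M) : ℝ →ᵇ M := mo (pg (vx K γ) (du K η γ) K)

theorem fM_mem (hU : UniqSeg M ρ) (hρ : 0 < ρ) (hη : 0 < η) (ht : 0 ≤ t)
    (hK : t ^ 2 < K * ρ ^ 2) (hγ : γ ∈ XE M t) : fM K η γ ∈ FL M (t + η) :=
  polyF_mem hU (fun i _ => du_pos (pos_of_sq_lt hK) hη i) (fun i _ => ln_lt hρ hK hγ i)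
    (fun i _ => ln_le_du hη i) (vx_closed (pos_of_sq_lt hK) γ) (cs_du_le ht (pos_of_sq_lt hK) hγ)

theorem fM_apply (hU : UniqSeg M ρ) (hρ : 0 < ρ) (hη : 0 < η)
    (hK : t ^ 2 < K * ρ ^ 2) (hγ : γ ∈ XE M t) (u : ℝ) :
    fM K η γ u = pg (vx K γ) (du K η γ) K u :=
  (lip_pg hU (fun i _ => du_pos (pos_of_sq_lt hK) hη i) (fun i _ => ln_lt hρ hK hγ i)
    fun i _ => ln_le_du hη i).mo_apply u

theorem continuousOn_fM (hU : UniqSeg M ρ) (hρ : 0 < ρ) (hη : 0 < η) (ht : 0 ≤ t)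
    (hK : t ^ 2 < K * ρ ^ 2) : ContinuousOn (fM K η) (XE M t) :=
  continuousOn_polyF hU (X := fun γ => vx K γ) (D := fun γ => du K η γ) (T := t + η)
    (by linarith) (fun i _ => (continuous_vx i).continuousOn)
    (fun i _ => (continuous_du i).continuousOn)
    (fun γ hγ i _ => du_pos (pos_of_sq_lt hK) hη i) (fun γ hγ i _ => ln_lt hρ hK hγ i)
    (fun γ hγ i _ => ln_le_du hη i) (fun γ hγ => vx_closed (pos_of_sq_lt hK) γ)
    (fun γ hγ => cs_du_le ht (pos_of_sq_lt hK) hγ)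

theorem isMap_fM (hU : UniqSeg M ρ) (hρ : 0 < ρ) (hη : 0 < η) (ht : 0 ≤ t)
    (hK : t ^ 2 < K * ρ ^ 2) : IsMap (tr (LM M)) (tr (ℝ →ᵇ M)) (XE M t) (FL M (t + η)) (fM K η) :=
  IsMap.of_continuousOn (isCompact_XE ht) (continuousOn_fM hU hρ hη ht hK)
    (fun _ hγ => fM_mem hU hρ hη ht hK hγ) fun i => i.elim

end Compact

end Vx

end

end Vale.Agent.P216.H894
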