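import Vale.Agent.P216.H894.MooreBr

/-!
# P216-B, block [W6], part A4: `g_nat`
-/

set_option linter.all false

namespace Vale.Agent.P216.H894

open Set Filter Topology BoundedContinuousFunction
open Vale.Agent.P216.AS (IsMap IsHtpy)
open Vale.Agent.P216.H901 (tr Hp SpIntl)
open Vale.Agent.P216.L250
open Vale.Agent.P216.LS (UniqSeg)
open Vale.Agent.P216.MV337

variable {M : Type} [MetricSpace M] {s t r r' ε : ℝ} {w w' : ℝ →ᵇ M}

theorem dist_gM_gM_le (hr : 0 ≤ r) (hr' : 0 ≤ r') (hw : w ∈ FL M r) (hw' : w' ∈ FL M r') :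
    dist (gM r w) (gM r' w') ≤ |r - r'| + dist w w' :=
  dist_le_of_Ico (add_nonneg (abs_nonneg _) dist_nonneg) fun u hu => by
    rw [fn_gM hr hw ⟨hu.1, hu.2.le⟩, fn_gM hr' hw' ⟨hu.1, hu.2.le⟩]
    have h1 := hw.1 (r * u) (r' * u)
    have h2 := BoundedContinuousFunction.dist_coe_le_dist (f := w) (g := w') (r' * u)
    have h3 : |r * u - r' * u| ≤ |r - r'| := by
      rw [← sub_mul, abs_mul, abs_of_nonneg hu.1]
      exact mul_le_of_le_one_right (abs_nonneg _) hu.2.le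
    linarith [dist_triangle (w (r * u)) (w (r' * u)) (w' (r' * u))]

theorem Hp_gnat (hs : 0 ≤ s) (hst : s ≤ t) {T : ℝ} (hT : t ≤ T) :
    Hp (FL M s) ∅ (XE M T) ∅ (gM s) (gM t) := by
  have h0 : ∀ σ ∈ Icc (0 : ℝ) 1, s ≤ s + σ * (t - s) ∧ s + σ * (t - s) ≤ t := fun σ hσ =>
    ⟨by have := mul_nonneg hσ.1 (sub_nonneg.2 hst); linarith,
     by have := mul_le_of_le_one_left (sub_nonneg.2 hst) hσ.2; linarith⟩
  refine ⟨fun σ => gM (s + σ * (t - s)), ⟨fun σ hσ w hw => ?_, fun _ _ i => i.elim,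
    fun η hη => ?_⟩, fun _ _ => mapsTo_empty _ _, fun w _ => ?_, fun w _ => ?_⟩
  · have h1 := h0 σ hσ
    exact XE_mono (hs.trans h1.1) (h1.2.trans hT) (gM_mem (hs.trans h1.1) (FL_mono h1.1 hw))
  · refine ⟨η / (2 * (1 + (t - s))), by have := sub_nonneg.2 hst; positivity,
      fun σ hσ τ hτ w hw w' hw' h1 h2 => ?_⟩
    have h3 := h0 σ hσ
    have h4 := h0 τ hτ
    have h5 : (0 : ℝ) < 1 + (t - s) := by linarith
    rw [lt_div_iff₀ (by positivity)] at h1 h2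
    refine (dist_gM_gM_le (hs.trans h3.1) (hs.trans h4.1) (FL_mono h3.1 hw)
      (FL_mono h4.1 hw')).trans_lt ?_
    have h6 : |s + σ * (t - s) - (s + τ * (t - s))| = |σ - τ| * (t - s) := by
      rw [show s + σ * (t - s) - (s + τ * (t - s)) = (σ - τ) * (t - s) by ring, abs_mul,
        abs_of_nonneg (sub_nonneg.2 hst)]
    rw [h6]
    have h7 : 0 ≤ |σ - τ| := abs_nonneg _
    have h8 : 0 ≤ dist w w' := dist_nonneg
    have h9 : 0 ≤ dist w w' * (t - s) := mul_nonneg h8 (by linarith)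
    nlinarith
  · show gM (s + 0 * (t - s)) w = gM s w
    rw [zero_mul, add_zero]
  · show gM (s + 1 * (t - s)) w = gM t w
    rw [one_mul, add_sub_cancel]

/-- **g_nat** as required by `SpIntl`. -/
theorem g_nat (hε : 0 ≤ ε) (hs : 0 < s) (hst : s ≤ t) :
    Hp (FL M s) ∅ (XE M (t + ε)) ∅ (MR.gM s) (MR.gM t) :=
  Hp_congr (Hp_gnat hs.le hst (by linarith)) (fun w hw => (MR_gM_eq hs.le hw).symm)
    fun w hw => (MR_gM_eq (hs.le.trans hst) (FL_mono hst hw)).symm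

end Vale.Agent.P216.H894
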