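import Vale.Agent.P216.H894.Pw
import Vale.Agent.P216.H787.Rev
import Vale.Agent.P216.H787.COmega
import Vale.Agent.P216.H787.CLow
import Vale.Agent.P216.H550.OmC

/-!
# P216-C, C13-SIGN: the reversal acts on `W j` by `(-1)^j` and on `A j` by `(-1)^(j+1)`

Input: `W b 1 ∘ rv + W b 1` and `eta ∘ rv + eta` are exact on the loops at the base point.
-/

open Finsupp Set BoundedContinuousFunction

set_option linter.all false

namespace Vale.Agent.P216.H894

open Vale.Agent.P216.Sl Vale.Agent.P216.PS Vale.Agent.P216.N929 Vale.Agent.P216.H977C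
open Vale.Agent.P216.H754B (rv rv_apply rv_mem_P dist_rv_le opP PMOp)
open Vale.Agent.P216.H901 (PM)
open Vale.Agent.P216.B64 (HU hres hpull UMap OmegaOutC OmegaSignC RevP)

variable {k : Type} [Field k]

/-! ### Eigenvalues -/

/-- The operator acts by a scalar on a line. -/
theorem exists_eig {A : PM k} {O : PMOp A} {o : A.Fam} {B : ℝ} (h : A.Line o B) (hB : 0 ≤ B)
    (ho : o.alive.Nonempty) : ∃ a : k, ∀ t ht, O.r t ht (o.z t ht) = a • o.z t ht := by
  have h1 : ∀ t (ht : 0 < t), ∃ c : k, O.r t ht (o.z t ht) = c • o.z t ht := by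
    intro t ht
    have p1 : 0 < t + B := by linarith
    obtain ⟨c, hc⟩ := h t (t + B) ht (by linarith) le_rfl (O.r (t + B) p1 (o.z (t + B) p1))
    refine ⟨c, ?_⟩
    rw [← hc, O.nat t (t + B) ht (by linarith) p1, o.comp t (t + B) ht (by linarith)]
  obtain ⟨T, hT, hne⟩ := ho
  obtain ⟨a, ha⟩ := h1 T hT
  refine ⟨a, fun t ht => ?_⟩
  rcases le_total t T with htT | htT
  · rw [← o.comp t T ht htT, ← O.nat t T ht htT hT, ha, map_smul]
  · obtain ⟨c, hc⟩ := h1 t ht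
    have e1 : c • o.z T hT = a • o.z T hT := by
      rw [← ha, ← o.comp T t hT htT, ← O.nat T t hT htT ht, hc, map_smul]
    have e2 : (c - a) • o.z T hT = 0 := by rw [sub_smul, e1, sub_self]
    have e3 : c = a := sub_eq_zero.1 ((smul_eq_zero.1 e2).resolve_right hne)
    rw [hc, e3]

variable {M : Type} [MetricSpace M] [CompactSpace M] {n e D : ℕ}

/-! ### Lists -/

theorem cy_rv {a b : M} {s η : ℝ} {m : ℕ} (hm : m ≠ 0) {z : Ch k (ℝ →ᵇ M)}
    (hz : Cy (P a b s) η m z) : Cy (P b a s) η m (mp (rv s) z) := by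
  refine ⟨map_mem _ (fun l hl => ?_) hz.1, ?_⟩
  · rw [mp_single]
    refine single_mem ⟨by rw [List.length_map, hl.1], fun w hw => ?_, fun w hw w' hw' => ?_⟩ _
    · obtain ⟨x, hx, rfl⟩ := List.mem_map.1 hw
      exact rv_mem_P (hl.2.1 x hx) le_rfl
    · obtain ⟨x, hx, rfl⟩ := List.mem_map.1 hw
      obtain ⟨y, hy, rfl⟩ := List.mem_map.1 hw'
      exact (dist_rv_le s x y).trans_lt (hl.2.2 x hx y hy)
  · rw [bd_mp, bd_eq_zero hz hm, map_zero]
    exact Submodule.zero_mem _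

theorem cy_add {a b : M} {s η : ℝ} {m : ℕ} {z y : Ch k (ℝ →ᵇ M)}
    (hz : Cy (P a b s) η m z) (hy : Cy (P a b s) η m y) : Cy (P a b s) η m (z + y) :=
  ⟨Submodule.add_mem _ hz.1 hy.1, by rw [map_add]; exact Submodule.add_mem _ hz.2 hy.2⟩

section

variable (G : Geo M n) (τ : Tau k M n G.ρ₁) (E : Eta k M e) (hD : D + 1 = n + e)

/-- One fine cycle which detects both classes. -/
theorem exists_both {s δ : ℝ} (hδ : 0 < δ)
    (hne : ∀ b, ¬ ExL (P G.x₀ G.x₀ s) D (W G τ E hD b 1)) :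
    ∃ h, Cy (P G.x₀ G.x₀ s) δ D h ∧ ∀ b, ev (W G τ E hD b 1) h ≠ 0 := by
  obtain ⟨h₀, c₀, e₀⟩ := not_ex_iff.1 (hne false) δ hδ
  obtain ⟨h₁, c₁, e₁⟩ := not_ex_iff.1 (hne true) δ hδ
  by_cases a₀ : ev (W G τ E hD true 1) h₀ = 0
  · by_cases a₁ : ev (W G τ E hD false 1) h₁ = 0
    · refine ⟨h₀ + h₁, cy_add c₀ c₁, fun b => ?_⟩
      cases b
      · rwa [map_add, a₁, add_zero]
      · rwa [map_add, a₀, zero_add]
    · exact ⟨h₁, c₁, fun b => by cases b <;> assumption⟩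
  · exact ⟨h₀, c₀, fun b => by cases b <;> assumption⟩

/-- **The eigenvalue of the reversal on `W b j`.** -/
theorem W_eig (hE : AddE E.f) (he : 1 ≤ e) (hen : e + 1 < n) (hn : Even n) (hDe : Even D) {s : ℕ}
    (hne : ∀ b, ¬ ExL (P G.x₀ G.x₀ s) D (W G τ E hD b 1))
    (hrev : ∀ b, ExL (P G.x₀ G.x₀ s) D
      fun l => W G τ E hD b 1 (l.map (rv s)) + W G τ E hD b 1 l) (j : ℕ) (b : Bool) {a : k}
    (ha : ExL (P G.x₀ G.x₀ (j * s)) (j * D)
      fun l => W G τ E hD b j (l.map (rv (j * s))) - a * W G τ E hD b j l) :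
    a = (-1) ^ j := by
  have hD1 : D ≠ 0 := by have := G.hn; omega
  obtain ⟨η₀, hη₀, hsc⟩ := exists_scale G τ E hD (j + 1)
  obtain ⟨ε₁, hε₁, H₁⟩ := ex_iff.2 ha
  obtain ⟨ε₂, hε₂, H₂⟩ := ex_iff.2 (hrev false)
  obtain ⟨ε₃, hε₃, H₃⟩ := ex_iff.2 (hrev true)
  set δ := min (min η₀ ε₁) (min ε₂ ε₃) with hδ
  have hδ0 : 0 < δ := lt_min (lt_min hη₀ hε₁) (lt_min hε₂ hε₃)
  obtain ⟨h, hh, hb⟩ := exists_both G τ E hD hδ0 hne
  have hs0 : (0 : ℝ) ≤ s := Nat.cast_nonneg s
  have hsc' : ∀ i ≤ j + 1, ∀ b, δ ≤ Wε G τ E hD b i := fun i hi b =>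
    ((min_le_left _ _).trans (min_le_left _ _)).trans (hsc i hi b)
  -- the reversal on `h`
  have hr : ∀ b, ev (W G τ E hD b 1) (mp (rv s) h) = -ev (W G τ E hD b 1) h := by
    intro b
    rw [eq_neg_iff_add_eq_zero, ev_mp, ← ev_add_fun]
    cases b
    · exact H₂ h (hh.mono le_rfl ((min_le_right _ _).trans (min_le_left _ _)))
    · exact H₃ h (hh.mono le_rfl ((min_le_right _ _).trans (min_le_right _ _)))
  have hcy := pw_cy hs0 (by omega) hδ0 hh j
  have e1 := H₁ _ (hcy.mono le_rfl ((min_le_left _ _).trans (min_le_right _ _)))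
  have e2 : ev (fun l => W G τ E hD b j (l.map (rv (j * s)))) (pw G.x₀ s h j) =
      (-1) ^ j * pp (fun b => ev (W G τ E hD b 1) h) j b := by
    rw [← ev_mp, rv_pw hs0 (InP.of_cy hh) hDe,
      ev_pw G τ E hD hE he hen hn hDe hδ0 (cy_rv hD1 hh) j hsc' b, ← pp_neg]
    congr 1
    funext b
    exact hr b
  have e3 := ev_pw G τ E hD hE he hen hn hDe hδ0 hh j hsc' b
  have e4 : ev (fun l => W G τ E hD b j (l.map (rv (j * s))) - a * W G τ E hD b j l)
      (pw G.x₀ s h j) = ev (fun l => W G τ E hD b j (l.map (rv (j * s)))) (pw G.x₀ s h j) -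
        a * ev (W G τ E hD b j) (pw G.x₀ s h j) := by
    have : (fun l => W G τ E hD b j (l.map (rv (j * s))) - a * W G τ E hD b j l) =
        fun l => W G τ E hD b j (l.map (rv (j * s))) + (-a) * W G τ E hD b j l := by
      funext l
      ring
    rw [this, ev_add_fun, ev_smul_fun]
    ring
  rw [e4, e2, e3, ← sub_mul] at e1
  exact (sub_eq_zero.1 ((mul_eq_zero.1 e1).resolve_right (pp_ne hb j b))).symm

/-- the same for `j = 0` -/
theorem W_eig_zero {t : ℝ} (b : Bool) {a : k} (ha : ExL (P G.x₀ G.x₀ t) (0 * D)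
      fun l => W G τ E hD b 0 (l.map (rv t)) - a * W G τ E hD b 0 l) : a = 1 := by
  have h1 : cst G.x₀ ∈ P G.x₀ G.x₀ t :=
    ⟨lip_cst _, fun u _ => by rw [cst_apply], fun u _ => by rw [cst_apply]⟩
  rw [Nat.zero_mul] at ha
  have h2 := exL_zero ha h1
  simp only [W_zero, one1, List.map_cons, List.map_nil, List.length_singleton, if_true,
    mul_one] at h2
  exact (sub_eq_zero.1 h2).symm

end

/-! ### Classes -/

section Cls

variable {I : Type} [IsEmpty I] {E' : Type} [PseudoMetricSpace E'] {a : I → E' → E'} {χ : I → k}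
  {X : Set E'} {m : ℕ}

theorem cls_eq_of {f g : List E' → k} {hf : CocL X m f} {hg : CocL X m g}
    (h : ∀ l, l.length = m + 1 → SmL X 1 l → f l = g l) : cls a χ f hf = cls a χ g hg := by
  refine cls_eq_cls.2 ⟨fun _ => 0, fun _ _ => rfl, 1, one_pos, fun l hl hs => ?_⟩
  rw [PS.dl_zero_fun]
  exact sub_eq_zero.2 (h l hl hs)

end Cls

/-- `c • [f] = f^*[f]` in terms of lists. -/
theorem hpull_cls_iff {X : Set (ℝ →ᵇ M)} {m : ℕ} {F : (ℝ →ᵇ M) → (ℝ →ᵇ M)} (hF : UMap X X F)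
    {f : List (ℝ →ᵇ M) → k} (hf : CocL X m f) (c : k) :
    hpull k hF m (cls (B64.a0 _) (B64.c0 k) f hf) = c • cls (B64.a0 _) (B64.c0 k) f hf ↔
      ExL X m fun l => f (l.map F) - c * f l := by
  rw [hpull, pull_cls, cls_smul, cls_eq_cls]

section Sign

variable (G : Geo M n) (τ : Tau k M n G.ρ₁) (E : Eta k M e) (hD : D + 1 = n + e)

theorem W_cocL0 (b : Bool) (j : ℕ) (T : ℝ) : CocL (P G.x₀ G.x₀ T) (j * D) (W G τ E hD b j) :=
  ⟨_, Wε_pos G τ E hD b j, W_coc0 G τ E hD b j (G.hx _) T⟩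

theorem A_cocL0 (b : Bool) (j : ℕ) (T : ℝ) :
    CocL (P G.x₀ G.x₀ T) (j * D + e) (A G τ E hD b j) :=
  ⟨_, Aε_pos G τ E hD b j, coc_cup (E.coc _ _ _) (W_coc0 G τ E hD b j (G.hx _) T)
    (min_le_left _ _) (min_le_right _ _)⟩

/-- **The signs of the reversal**, from the signs on `W b 1` and `eta`. -/
theorem signC (hE : AddE E.f) (he : 1 ≤ e) (hen : e + 1 < n) (hn : Even n) (hDe : Even D)
    {s : ℕ} (hne : ∀ b, ¬ ExL (P G.x₀ G.x₀ s) D (W G τ E hD b 1))
    (hrev : ∀ b, ExL (P G.x₀ G.x₀ s) D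
      fun l => W G τ E hD b 1 (l.map (rv s)) + W G τ E hD b 1 l)
    (heta : ∀ T : ℕ, ExL (P G.x₀ G.x₀ T) e fun l => E.f (l.map (rv T)) + E.f l)
    {B : ℝ} (hB : 0 ≤ B) (O : OmegaOutC M e D G.x₀ B k)
    (hW : ∀ j (T : ℕ), O.W j T =
      cls (B64.a0 _) (B64.c0 k) (W G τ E hD false j) (W_cocL0 G τ E hD false j T))
    (hA : ∀ j (T : ℕ), O.A j T =
      cls (B64.a0 _) (B64.c0 k) (A G τ E hD false j) (A_cocL0 G τ E hD false j T)) :
    OmegaSignC O := by
  have hs0 : 0 < s := by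
    rcases Nat.eq_zero_or_pos s with h0 | h0
    · exfalso
      subst h0
      refine hne false ⟨fun _ => 0, fun _ _ => rfl, 1, one_pos, fun l hl hs => ?_⟩
      have hD1 : D ≠ 0 := by have := G.hn; omega
      rw [PS.dl_zero_fun]
      -- all loops of duration `0` are constant
      have hl' : l = List.replicate (D + 1) (cst G.x₀) := by
        rw [List.eq_replicate_iff]
        refine ⟨hl, fun w hw => ?_⟩
        have hw' := hs.1 w hw
        rw [Nat.cast_zero] at hw'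
        ext u
        rw [cst_apply]
        rcases le_total u 0 with hu | hu
        · exact eq_left hw' hu
        · exact eq_right hw' hu
      refine W_nrm G τ E hD false 1 _ fun hc => ?_
      rw [hl', show D + 1 = (D - 1) + 1 + 1 by omega, List.replicate_succ, List.replicate_succ,
        List.isChain_cons_cons] at hc
      exact hc.1 rfl
    · exact h0
  -- eigenvalues
  have eigW : ∀ j, ∃ c : k, ∀ t (ht : 0 < t), hpull k ((opP G.x₀).map t ht) (j * D) (O.W j t) =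
      c • O.W j t := by
    intro j
    obtain ⟨c, hc⟩ := exists_eig (O := H285.opOm (opP G.x₀) k (H754B.mono_P G.x₀) (j * D))
      ((H550.slotsOf O hB).lineW j) hB ((H550.slotsOf O hB).alive_W hB j)
    refine ⟨c, fun t ht => ?_⟩
    have h1 := hc t ht
    have h2 := H550.opOm_abs (j * D) t ht (O.W j t)
    apply (H83.absE k (P G.x₀ G.x₀ t) (j * D)).injective
    rw [map_smul, ← h2]
    exact h1
  have eigA : ∀ j, ∃ c : k, ∀ t (ht : 0 < t),
      hpull k ((opP G.x₀).map t ht) (j * D + e) (O.A j t) = c • O.A j t := by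
    intro j
    obtain ⟨c, hc⟩ := exists_eig (O := H285.opOm (opP G.x₀) k (H754B.mono_P G.x₀) (j * D + e))
      ((H550.slotsOf O hB).lineA j) hB ((H550.slotsOf O hB).alive_A hB j)
    refine ⟨c, fun t ht => ?_⟩
    have h1 := hc t ht
    have h2 := H550.opOm_abs (j * D + e) t ht (O.A j t)
    apply (H83.absE k (P G.x₀ G.x₀ t) (j * D + e)).injective
    rw [map_smul, ← h2]
    exact h1
  -- the sign on `W j`
  have sgW : ∀ j t (ht : 0 < t), hpull k ((opP G.x₀).map t ht) (j * D) (O.W j t) =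
      (-1 : k) ^ j • O.W j t := by
    intro j
    obtain ⟨c, hc⟩ := eigW j
    suffices h : c = (-1) ^ j by
      rw [← h]
      exact hc
    rcases Nat.eq_zero_or_pos j with h0 | h0
    · subst h0
      have h1 := hc ((1 : ℕ) : ℝ) (by norm_num)
      rw [hW, hpull_cls_iff] at h1
      rw [pow_zero]
      exact W_eig_zero G τ E hD false h1
    · have h1 := hc ((j * s : ℕ) : ℝ) (by exact_mod_cast Nat.mul_pos h0 hs0)
      rw [hW, hpull_cls_iff] at h1
      rw [Nat.cast_mul] at h1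
      exact W_eig G τ E hD hE he hen hn hDe hne hrev j false h1
  -- the sign on `A j`
  have sgA : ∀ j t (ht : 0 < t), hpull k ((opP G.x₀).map t ht) (j * D + e) (O.A j t) =
      (-1 : k) ^ (j + 1) • O.A j t := by
    intro j
    obtain ⟨c, hc⟩ := eigA j
    suffices h : c = (-1) ^ (j + 1) by
      rw [← h]
      exact hc
    obtain ⟨t₁, ht₁, hne₁⟩ := (H550.slotsOf O hB).alive_A hB j
    obtain ⟨hT, hneT⟩ := ((H550.slotsOf O hB).A j).alive_up ⟨ht₁, hne₁⟩ (Nat.le_ceil t₁)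
    have hneT' : O.A j ((⌈t₁⌉₊ : ℕ) : ℝ) ≠ 0 := (H550.relFam_ne (hz := O.res_A j) hT).1 hneT
    have h1 := hc _ hT
    have h2 : hpull k ((opP G.x₀).map _ hT) (j * D + e) (O.A j ((⌈t₁⌉₊ : ℕ) : ℝ)) =
        (-1 : k) ^ (j + 1) • O.A j ((⌈t₁⌉₊ : ℕ) : ℝ) := by
      have h3 := sgW j _ hT
      rw [hW, hpull_cls_iff] at h3
      rw [hA, hpull_cls_iff]
      have h4 := Sg.exL_cup_rev (X := P G.x₀ G.x₀ ((⌈t₁⌉₊ : ℕ) : ℝ)) (θ := rv ((⌈t₁⌉₊ : ℕ) : ℝ))
        (ε := min E.ε (Wε G τ E hD false j)) (lt_min E.hε (Wε_pos G τ E hD false j))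
        (c := (-1 : k) ^ j) he (fun w hw => rv_mem_P hw le_rfl)
        (fun w _ w' _ => dist_rv_le _ w w')
        ((E.coc G.x₀ G.x₀ _).mono le_rfl (min_le_left _ _))
        ((W_coc0 G τ E hD false j (G.hx _) _).mono le_rfl (min_le_right _ _))
        (heta ⌈t₁⌉₊) h3
      refine Sg.exL_congr one_pos (fun l _ _ => ?_) h4
      rw [pow_succ]
      change _ = N929.cup e E.f (W G τ E hD false j) (l.map (rv ((⌈t₁⌉₊ : ℕ) : ℝ))) -
        (-1) ^ j * (-1) * N929.cup e E.f (W G τ E hD false j) l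
      ring
    rw [h2] at h1
    have e2 : ((-1 : k) ^ (j + 1) - c) • O.A j ((⌈t₁⌉₊ : ℕ) : ℝ) = 0 := by
      rw [sub_smul, h1, sub_self]
    exact (sub_eq_zero.1 ((smul_eq_zero.1 e2).resolve_right hneT')).symm
  refine ⟨fun j t ht f hf h => ?_, fun j t ht f hf h => ?_⟩
  · have : f = rv t := by
      funext w
      ext u
      exact hf w u
    subst this
    exact sgW j t ht
  · have : f = rv t := by
      funext w
      ext u
      exact hf w u
    subst this
    exact sgA j t ht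

end Sign

end Vale.Agent.P216.H894
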