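import Vale.Agent.P216.H923E.Geo
import Vale.Agent.P216.H754B.Rev
import Vale.Agent.P216.H892.FibO

/-!
# P216-D, [E2], fibre step: the reversal

`rv_phi`: the conjugation `φ x` commutes with the reversal. `uh_rv`: the hypothesis `hθ` of
`H892.fib_of` for `θ = rv`.
-/

set_option linter.all false

open Set BoundedContinuousFunction

namespace Vale.Agent.P216.H894

open Vale.Agent.P216.PS Vale.Agent.P216.MV337 Vale.Agent.P216.C337 Vale.Agent.P216.H923E
open Vale.Agent.P216.H892 (nbc)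
open Vale.Agent.P216.H754B (rv rv_apply lip_rv rv_mem_FL rv_mem_P)

variable {M : Type} [MetricSpace M]

theorem c2_rv {m t : ℝ} {p w : ℝ → M} (hm : 0 ≤ m) (ht : 0 ≤ t) (h0 : w 0 = p 0) (h1 : w t = p 0)
    (u : ℝ) : c2 m t p p w (t + (m + m) - u) = c2 m t p p (fun v => w (t - v)) u := by
  have h0' : (fun v => w (t - v)) 0 = p 0 := by
    show w (t - 0) = p 0
    rw [sub_zero, h1]
  have h1' : (fun v => w (t - v)) t = p 0 := by
    show w (t - t) = p 0
    rw [sub_self, h0]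
  rcases le_total u m with h2 | h2
  · rw [c2_three h0 ht h1 (by linarith), c2_one h2]
    congr 1
    ring
  rcases le_total u (m + t) with h3 | h3
  · rw [c2_two h0 (by linarith) (by linarith), c2_two h0' h2 h3]
    congr 1
    ring
  · rw [c2_one (by linarith), c2_three h0' ht h1' h3]
    congr 1
    ring

variable [CompactSpace M] {x₀ x : M} {ρ R ℓ₀ D ℓ r0 s t : ℝ} {c : M → ℝ → M}

/-- The conjugation commutes with the reversal. -/
theorem rv_phi (T : Tr0 x₀ ρ R ℓ₀ D ℓ r0 c) (hs : 0 ≤ s) {w : ℝ →ᵇ M} (hw : w ∈ FL M s)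
    (hx : dist x (w 0) ≤ r0) :
    phi (fun y => y) R ℓ c x s (rv s w) =
      rv (s + (R + ℓ + (R + ℓ))) (phi (fun y => y) R ℓ c x s w) := by
  have hg : ∀ x y : M, dist ((fun y : M => y) x) ((fun y : M => y) y) ≤ dist x y :=
    fun _ _ => le_rfl
  have e0 : rv s w 0 = w 0 := by
    rw [rv_apply, sub_zero]
    exact hw.2.2 s le_rfl
  have hp : Pt (R + ℓ) (w 0) x₀ (pφ R c x (w 0)) := T.pφ_pt le_rfl hx
  have hp' : Pt (R + ℓ) (rv s w 0) x₀ (pφ R c x (rv s w 0)) := by rw [e0]; exact hp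
  ext u
  rw [rv_apply]
  show cg (fun y => y) (R + ℓ) s (pφ R c x (rv s w 0)) (rv s w) u =
    cg (fun y => y) (R + ℓ) s (pφ R c x (w 0)) w (s + (R + ℓ + (R + ℓ)) - u)
  rw [cg_apply hg hs hp' (rv_mem_FL hw le_rfl), cg_apply hg hs hp hw, e0]
  exact (c2_rv T.m_nonneg hs hp.zero.symm ((hw.2.2 s le_rfl).trans hp.zero.symm) u).symm

/-- **The reversal, `hθ`.** -/
theorem uh_rv (T : Tr0 x₀ ρ R ℓ₀ D ℓ r0 c) (hs : 0 < s) :
    UH (fun x : M => nbc (evz (M := M)) (FL M s) x r0)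
      (fun _ => P x₀ x₀ (1 * (s + (R + ℓ + (R + ℓ)))))
      (fun x w => phi (fun y => y) R ℓ c x (1 * s) (rv s w))
      fun x w => rv (s + (R + ℓ + (R + ℓ))) (phi (fun y => y) R ℓ c x s w) := by
  have hg : ∀ x y : M, dist ((fun y : M => y) x) ((fun y : M => y) y) ≤ dist x y :=
    fun _ _ => le_rfl
  rw [one_mul, one_mul]
  have h1 := T.g0 hg hs.le
  have hrv : UM (fun x : M => nbc (evz (M := M)) (FL M s) x r0)
      (fun x => XL (fun y => y) (NB x r0) s) fun _ => rv s := by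
    refine ⟨fun x w hw => ⟨rv_mem_FL hw.1 le_rfl, ?_⟩, fun ε hε => ⟨ε, hε, fun x w _ w' _ hd => ?_⟩⟩
    · show dist x (rv s w 0) ≤ r0
      rw [rv_apply, sub_zero]
      have h2 : w s = w 0 := hw.1.2.2 s le_rfl
      rw [h2]
      exact hw.2
    · refine lt_of_le_of_lt ?_ hd
      exact (dist_le dist_nonneg).2 fun u => dist_coe_le_dist (f := w) (g := w') _
  have h3 := h1.comp hrv
  have h4 : UM (fun x : M => nbc (evz (M := M)) (FL M s) x r0)
      (fun _ => P x₀ x₀ (s + (R + ℓ + (R + ℓ))))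
      fun x w => phi (fun y => y) R ℓ c x s (rv s w) := by
    refine UM.mono h3 (fun _ => subset_rfl) fun _ => ?_
    rw [XL_singleton]
  exact UH.congr (UH.refl h4) (fun _ _ _ => rfl) fun x w hw => rv_phi T hs.le hw.1 hw.2

end Vale.Agent.P216.H894
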