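import Vale.Agent.P216.H894.DegB
import Vale.Agent.P216.D337.TrMap

/-!
# P216-D / D1, block (B), in the form of the assembly

`bne_strong`, `bne`: for a self-map `h` of a space `N` homeomorphic to the sphere, Lipschitz with
constant `K`, of degree `D ≠ 0` in `k`: `(Ω h)^* om_j ≠ 0` with `Ω h = gm h K`.
-/

set_option linter.all false

open Set Filter Topology BoundedContinuousFunction

namespace Vale.Agent.P216.H894

open Vale.Agent.P216.Sl Vale.Agent.P216.PS Vale.Agent.P216.N929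
open Vale.Agent.P216.B64 (HU hres hpull UMap OmegaOut)
open Vale.Agent.P216.D337 (LipC gm gm_apply map_gm_P gm_mem_P)


variable {N : Type} [MetricSpace N] [CompactSpace N] {m : ℕ} {h : N → N} {K : ℝ}

/-- **(B), strong form**: the duration `s` does not depend on the field, on `j`, `B`, `O`. -/
theorem bne_strong (hm : 1 ≤ m) {ρ : ℝ} (hρ : 0 < ρ) (hU : LS.UniqSeg N ρ)
    (e : N ≃ₜ Metric.sphere (0 : EuclideanSpace ℝ (Fin (m + 1 + 1))) 1)
    (hK : 0 < K) (hh : LipC h K) (y₀ : N) :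
    ∃ s : ℝ, 0 ≤ s ∧ ∀ (k : Type) [Field k] (D : k), D ≠ 0 →
      (∀ f : List N → k, Nrm f → CocL (univ : Set N) (m + 1) f →
        ExL (univ : Set N) (m + 1) fun l => f (l.map h) - D * f l) →
      ∀ (B : ℝ), 0 ≤ B → ∀ (O : OmegaOut N m (h y₀) B k) (j : ℕ) (t : ℝ), j * s ≤ t →
        hpull k (map_gm_P hh hK y₀ y₀ t) (j * m) (O.om j (K * t)) ≠ 0 := by
  obtain ⟨s, hs, H⟩ := omegaDeg_ne (n := m + 1) (by omega) hρ hU e hK hh y₀
  refine ⟨s, hs, fun k _ D hD hdeg B hB O j t ht => ?_⟩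
  exact H k D hD hdeg B hB O j t ht (fun w => gm h K w)
    (fun w hw u => gm_apply hh hK hw.1 u) (map_gm_P hh hK y₀ y₀ t)

/-- **(B)**, `BNE`. -/
theorem bne (hm : 1 ≤ m) {ρ : ℝ} (hρ : 0 < ρ) (hU : LS.UniqSeg N ρ)
    (e : N ≃ₜ Metric.sphere (0 : EuclideanSpace ℝ (Fin (m + 1 + 1))) 1)
    (hK : 0 < K) (hh : LipC h K) (y₀ : N) {k : Type} [Field k] {D : k} (hD : D ≠ 0)
    (hdeg : ∀ f : List N → k, Nrm f → CocL (univ : Set N) (m + 1) f →
      ExL (univ : Set N) (m + 1) fun l => f (l.map h) - D * f l) {B : ℝ} (hB : 0 ≤ B)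
    (O : OmegaOut N m (h y₀) B k) (j : ℕ) :
    ∃ t : ℝ, 0 < t ∧ hpull k (map_gm_P hh hK y₀ y₀ t) (j * m) (O.om j (K * t)) ≠ 0 := by
  obtain ⟨s, hs, H⟩ := bne_strong hm hρ hU e hK hh y₀
  have h0 : (0 : ℝ) ≤ j * s := by positivity
  exact ⟨j * s + 1, by linarith, H k D hD hdeg B hB O j _ (by linarith)⟩

end Vale.Agent.P216.H894
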