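import Vale.Agent.P216.H550.Lin
import Vale.Agent.P216.H754B.Gen

/-!
# P216-C, C07: attaching one cell (abstract form)

`CellAt G X Y n c`: the persistence modules `Y q` are obtained from the `X q` by attaching one cell
of dimension `n`, the relative modules being interleaved with the `G q` (based loops), in degrees
shifted by `n`.  `CellAt.Op`: natural operators (the reversal) compatible with everything.
-/

set_option linter.all false

namespace Vale.Agent.P216.H894

open Vale.Agent.P216.H901 Vale.Agent.P216.H754B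

variable {k : Type} [Field k]

/-- One cell of dimension `n` is attached: `X q` = `H^q` over the old part, `Y q` = `H^q` over the
new part, `G q` = `H^q` of the based loops. -/
structure CellAt (G X Y : ℕ → PM k) (n : ℕ) (c : ℝ) where
  /-- the relative modules -/
  Rel : ℕ → PM k
  N : PM k
  N0 : ∀ t, 0 < t → ∀ x : N.V t, x = 0
  /-- long exact sequence, degree `0` -/
  e0 : Ex5 N (Rel 0) (Y 0) (X 0) (Rel 1)
  /-- long exact sequence -/
  e : ∀ q, Ex5 (X q) (Rel (q + 1)) (Y (q + 1)) (X (q + 1)) (Rel (q + 2))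
  i : ∀ q, Intl (Rel (q + n)) (G q) c
  low : ∀ q, q < n → (Rel q).Eph (2 * c)

/-- The first map of an interleaving commutes with the operators. -/
def CommF {A B : PM k} {c : ℝ} (I : Intl A B c) (OA : PMOp A) (OB : PMOp B) : Prop :=
  ∀ s t (hs : 0 < s) (ht : 0 < t) (h : s + c ≤ t) (x : A.V t),
    I.f s t hs h (OA.r t ht x) = OB.r s hs (I.f s t hs h x)

/-- The second map of an interleaving commutes with the operators. -/
def CommG {A B : PM k} {c : ℝ} (I : Intl A B c) (OA : PMOp A) (OB : PMOp B) : Prop :=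
  ∀ s t (hs : 0 < s) (ht : 0 < t) (h : s + c ≤ t) (x : B.V t),
    I.g s t hs h (OB.r t ht x) = OA.r s hs (I.g s t hs h x)

/-- It is enough to check the levels `s`, `s + c`. -/
theorem CommF.of {A B : PM k} {c : ℝ} (hc : 0 ≤ c) {I : Intl A B c} {OA : PMOp A} {OB : PMOp B}
    (hf : ∀ s (hs : 0 < s) (ht : 0 < s + c) x,
      I.f s (s + c) hs le_rfl (OA.r (s + c) ht x) = OB.r s hs (I.f s (s + c) hs le_rfl x)) :
    CommF I OA OB := by
  intro s t hs ht h x
  have hs' : 0 < s + c := by linarith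
  rw [← I.f_ρ hs hs' le_rfl h h, ← I.f_ρ hs hs' le_rfl h h x, OA.nat, hf]

/-- It is enough to check the levels `s`, `s + c`. -/
theorem CommG.of {A B : PM k} {c : ℝ} (hc : 0 ≤ c) {I : Intl A B c} {OA : PMOp A} {OB : PMOp B}
    (hg : ∀ s (hs : 0 < s) (ht : 0 < s + c) x,
      I.g s (s + c) hs le_rfl (OB.r (s + c) ht x) = OA.r s hs (I.g s (s + c) hs le_rfl x)) :
    CommG I OA OB :=
  CommF.of (I := I.symm) hc hg

/-- Operators on the modules of a cell attachment, compatible with all maps. -/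
structure CellAt.Op {G X Y : ℕ → PM k} {n : ℕ} {c : ℝ} (S : CellAt G X Y n c)
    (OG : ∀ q, PMOp (G q)) (OX : ∀ q, PMOp (X q)) (OY : ∀ q, PMOp (Y q)) where
  R : ∀ q, PMOp (S.Rel q)
  α0 : ∀ t ht x, S.e0.α t ht ((R 0).r t ht x) = (OY 0).r t ht (S.e0.α t ht x)
  β0 : ∀ t ht x, S.e0.β t ht ((OY 0).r t ht x) = (OX 0).r t ht (S.e0.β t ht x)
  δ0 : ∀ t ht x, S.e0.δ t ht ((OX 0).r t ht x) = (R 1).r t ht (S.e0.δ t ht x)
  α : ∀ q t ht x, (S.e q).α t ht ((R (q + 1)).r t ht x) =
    (OY (q + 1)).r t ht ((S.e q).α t ht x)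
  β : ∀ q t ht x, (S.e q).β t ht ((OY (q + 1)).r t ht x) =
    (OX (q + 1)).r t ht ((S.e q).β t ht x)
  δ : ∀ q t ht x, (S.e q).δ t ht ((OX (q + 1)).r t ht x) =
    (R (q + 2)).r t ht ((S.e q).δ t ht x)
  i : ∀ q, CommF (S.i q) (R (q + n)) (OG q) ∨ CommG (S.i q) (R (q + n)) (OG q)

end Vale.Agent.P216.H894
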