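import Vale.Agent.P216.H894.Sg

/-!
# P216-C, C07: the ladder over the cells

`X 0 ⊂ X 1 ⊂ .. ⊂ X J`, where `X (j + 1)` is obtained from `X j` by attaching one cell of dimension
`n j` (`CellAt`).  If in every degree at most one cell contributes, every `X j q` has rank at most
one and the operator acts by the sign; the classes of the based loops whose sign differs from the
sign of the next degree extend over all cells, with births changed by a bounded amount only.
-/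

set_option linter.all false

namespace Vale.Agent.P216.H894

open Vale.Agent.P216.H901 Vale.Agent.P216.H754B

variable {k : Type} [Field k]

namespace CellAt

variable {G X Y : ℕ → PM k} {n : ℕ} {c C a : ℝ} (S : CellAt G X Y n c)

/-- `H^q(new, old) → H^q(new)` -/
def alp : ∀ q, PM.Hom (S.Rel q) (Y q)
  | 0 => ⟨S.e0.α, S.e0.α_nat⟩
  | q + 1 => ⟨(S.e q).α, (S.e q).α_nat⟩

/-- `H^q(new) → H^q(old)` -/
def bet : ∀ q, PM.Hom (Y q) (X q)
  | 0 => ⟨S.e0.β, S.e0.β_nat⟩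
  | q + 1 => ⟨(S.e q).β, (S.e q).β_nat⟩

/-- `H^q(old) → H^{q+1}(new, old)` -/
def del : ∀ q, PM.Hom (X q) (S.Rel (q + 1))
  | 0 => ⟨S.e0.δ, S.e0.δ_nat⟩
  | q + 1 => ⟨(S.e q).δ, (S.e q).δ_nat⟩

theorem exX : ∀ q t ht, Function.Exact ((S.alp q).f t ht) ((S.bet q).f t ht)
  | 0, t, ht => S.e0.exX t ht
  | q + 1, t, ht => (S.e q).exX t ht

theorem exQ : ∀ q t ht, Function.Exact ((S.bet q).f t ht) ((S.del q).f t ht)
  | 0, t, ht => S.e0.exQ t ht
  | q + 1, t, ht => (S.e q).exQ t ht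

theorem bet_inj {q : ℕ} (h : (S.Rel q).Eph a) : (S.bet q).Inj a := by
  intro s t hs ht hst h1 x hx
  obtain ⟨p, rfl⟩ := (S.exX q t ht x).1 hx
  rw [(S.alp q).nat s t hs ht, h s t hs hst h1, map_zero]

theorem alp_onto {q : ℕ} (h : (X q).Eph a) : (S.alp q).Onto a := by
  intro s t hs ht hst h1 y
  refine (S.exX q s hs _).1 ?_
  rw [← (S.bet q).nat s t hs ht]
  exact h s t hs hst h1 _

theorem alp_inj (h : ∀ q, (X q).Eph a) (ha : 0 ≤ a) : ∀ q, (S.alp q).Inj a
  | 0 => by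
    intro s t hs ht hst h1 x hx
    obtain ⟨p, hp⟩ := (S.e0.exP t ht x).1 hx
    rw [← hp, S.N0 t ht p, map_zero, map_zero]
  | q + 1 => by
    intro s t hs ht hst h1 x hx
    obtain ⟨p, hp⟩ := ((S.e q).exP t ht x).1 hx
    rw [← hp, (S.e q).ν_nat s t hs ht, h q s t hs hst h1, map_zero]

/-- The slots of a cell: the degrees `q` with `q - n` a slot of the based loops. -/
def Slot (SG : ℕ → Prop) (n q : ℕ) : Prop := ∃ r, SG r ∧ q = r + n

variable {SG : ℕ → Prop}

theorem rel_eph (hc : 0 ≤ c) (hC : 0 ≤ C) (hG : ∀ q, ¬ SG q → (G q).Eph C) {q : ℕ}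
    (h : ¬ Slot SG n q) : (S.Rel q).Eph (C + 2 * c) := by
  rcases lt_or_ge q n with h1 | h1
  · exact (S.low q h1).mono (by linarith)
  · obtain ⟨r, rfl⟩ : ∃ r, q = r + n := ⟨q - n, by omega⟩
    exact (S.i r).eph hc hC (hG r fun hr => h ⟨r, hr, rfl⟩)

variable {OG : ∀ q, PMOp (G q)} {OX : ∀ q, PMOp (X q)} {OY : ∀ q, PMOp (Y q)}

theorem rel_sg (O : S.Op OG OX OY) (hc : 0 ≤ c) (hC : 0 ≤ C) {σ : ℕ → k}
    (hσ : ∀ q, SgM (G q) (OG q) (σ q) C) (hn : ∀ q, σ (q + n) = σ q) (q : ℕ) :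
    SgM (S.Rel q) (O.R q) (σ q) (C + 2 * c) := by
  rcases lt_or_ge q n with h1 | h1
  · exact SgM.of_eph _ ((S.low q h1).mono (by linarith)) _
  · obtain ⟨r, rfl⟩ : ∃ r, q = r + n := ⟨q - n, by omega⟩
    rw [hn]
    exact SgM.intl (S.i r) (O.i r) hc hC (hσ r)

theorem Op.alp (O : S.Op OG OX OY) : ∀ q t ht x, (S.alp q).f t ht ((O.R q).r t ht x) =
    (OY q).r t ht ((S.alp q).f t ht x)
  | 0, t, ht, x => O.α0 t ht x
  | q + 1, t, ht, x => O.α q t ht x

theorem Op.bet (O : S.Op OG OX OY) : ∀ q t ht x, (S.bet q).f t ht ((OY q).r t ht x) =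
    (OX q).r t ht ((S.bet q).f t ht x)
  | 0, t, ht, x => O.β0 t ht x
  | q + 1, t, ht, x => O.β q t ht x

theorem Op.del (O : S.Op OG OX OY) : ∀ q t ht x, (S.del q).f t ht ((OX q).r t ht x) =
    (O.R (q + 1)).r t ht ((S.del q).f t ht x)
  | 0, t, ht, x => O.δ0 t ht x
  | q + 1, t, ht, x => O.δ q t ht x

/-- Extension over the cell, by the signs. -/
theorem bet_onto (O : S.Op OG OX OY) (hc : 0 ≤ c) (hC : 0 ≤ C) (ha : 0 ≤ a) {σ : ℕ → k}
    (hσ : ∀ q, SgM (G q) (OG q) (σ q) C) (hn : ∀ q, σ (q + n) = σ q) {q : ℕ}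
    (hq : SgM (X q) (OX q) (σ q) a) (hne : σ q ≠ σ (q + 1)) :
    (S.bet q).Onto (a + (C + 2 * c)) := by
  intro s t hs ht hst h1 y
  refine (S.exQ q s hs _).1 ?_
  exact SgM.zero_of_ne (S.del q) (Op.del S O q) ha (by linarith) hq
    (S.rel_sg O hc hC hσ hn (q + 1)) hne hs hst h1 y

end CellAt

open CellAt

section Ladder

variable {G : ℕ → PM k} {X : ℕ → ℕ → PM k} {n : ℕ → ℕ} {c C C₀ : ℝ} {J : ℕ}
  (S : ∀ j, j < J → CellAt G (X j) (X (j + 1)) (n j) c) {SG : ℕ → Prop}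

/-- the constants -/
noncomputable def lc (C₀ K : ℝ) (j : ℕ) : ℝ := C₀ + j * K

theorem lc_zero (C₀ K : ℝ) : lc C₀ K 0 = C₀ := by rw [lc]; simp

theorem lc_succ (C₀ K : ℝ) (j : ℕ) : lc C₀ K (j + 1) = lc C₀ K j + K := by
  rw [lc, lc]; push_cast; ring

theorem lc_nonneg {C₀ K : ℝ} (h0 : 0 ≤ C₀) (hK : 0 ≤ K) (j : ℕ) : 0 ≤ lc C₀ K j :=
  add_nonneg h0 (mul_nonneg (Nat.cast_nonneg _) hK)

include S in
/-- **No class where there is no slot.** -/
theorem ladder_eph (hc : 0 ≤ c) (hC : 0 ≤ C) (h0 : 0 ≤ C₀) (hG : ∀ q, ¬ SG q → (G q).Eph C)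
    (hX : ∀ q, (X 0 q).Eph C₀) {q : ℕ} : ∀ j, j ≤ J → (∀ i < j, ¬ Slot SG (n i) q) →
      (X j q).Eph (lc C₀ (C + 2 * c) j) := by
  intro j
  induction j with
  | zero => intro _ _; rw [lc_zero]; exact hX q
  | succ j ih =>
    intro hj hq
    have hj' : j < J := hj
    have h1 := ih hj'.le fun i hi => hq i (by omega)
    have h2 := (S j hj').rel_eph hc hC hG (hq j (Nat.lt_succ_self j))
    have h3 := ((S j hj').bet_inj h2).eph h1 (by linarith) (lc_nonneg h0 (by linarith) _)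
    rw [lc_succ]
    exact h3.mono (by linarith)

variable {OG : ∀ q, PMOp (G q)} {OX : ∀ j q, PMOp (X j q)}
  (O : ∀ j (hj : j < J), (S j hj).Op OG (OX j) (OX (j + 1)))

include O in
/-- **Rank at most one, and the sign.** -/
theorem ladder_sg (hc : 0 ≤ c) (hC : 0 ≤ C) (h0 : 0 ≤ C₀) (hG : ∀ q, ¬ SG q → (G q).Eph C)
    (hX : ∀ q, (X 0 q).Eph C₀) {σ : ℕ → k} (hσ : ∀ q, SgM (G q) (OG q) (σ q) C)
    (hn : ∀ j < J, ∀ q, σ (q + n j) = σ q) {q : ℕ}
    (hu : ∀ i j, i < j → j < J → Slot SG (n i) q → ¬ Slot SG (n j) q) :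
    ∀ j, j ≤ J → SgM (X j q) (OX j q) (σ q) (lc C₀ (C + 2 * c) j) := by
  intro j
  induction j with
  | zero => intro _; rw [lc_zero]; exact SgM.of_eph _ (hX q) _
  | succ j ih =>
    intro hj
    have hj' : j < J := hj
    rw [lc_succ]
    by_cases hs : Slot SG (n j) q
    · have h1 := ladder_eph S hc hC h0 hG hX j hj'.le fun i hi hsi => hu i j hi hj' hsi hs
      have h2 := (S j hj').rel_sg (O j hj') hc hC hσ (hn j hj') q
      have h3 := SgM.mid_right ((S j hj').alp q).nat ((S j hj').bet q).nat ((S j hj').exX q)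
        (Op.alp _ (O j hj') q) (lc_nonneg h0 (by linarith) j) (by linarith) h2 h1
      exact h3.mono (by rw [add_comm])
    · have h1 := ih hj'.le
      have h2 := (S j hj').rel_eph hc hC hG hs
      exact SgM.mid_left ((S j hj').alp q).nat ((S j hj').bet q).nat ((S j hj').exX q)
        (Op.bet _ (O j hj') q) (by linarith) (lc_nonneg h0 (by linarith) j) h2 h1

include O in
/-- **Restriction to the bottom cell** in a degree where only the bottom cell contributes and the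
sign changes: injective and surjective up to a shift. -/
theorem ladder_down (hc : 0 ≤ c) (hC : 0 ≤ C) (h0 : 0 ≤ C₀) (hG : ∀ q, ¬ SG q → (G q).Eph C)
    (hX : ∀ q, (X 0 q).Eph C₀) {σ : ℕ → k} (hσ : ∀ q, SgM (G q) (OG q) (σ q) C)
    (hn : ∀ j < J, ∀ q, σ (q + n j) = σ q) {q : ℕ}
    (hu : ∀ i j, i < j → j < J → Slot SG (n i) q → ¬ Slot SG (n j) q)
    (hq : ∀ j, 0 < j → j < J → ¬ Slot SG (n j) q) (hne : σ q ≠ σ (q + 1)) :
    ∀ j, j < J → ∃ Φ : PM.Hom (X (j + 1) q) (X 1 q),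
      Φ.Onto (j * (lc C₀ (C + 2 * c) (j + 1))) ∧ Φ.Inj (j * (C + 2 * c)) := by
  intro j
  induction j with
  | zero =>
    intro hj
    refine ⟨⟨fun t ht => LinearMap.id, fun s t hs ht h x => rfl⟩, ?_, ?_⟩
    · intro s t hs ht hst _ y
      exact ⟨_, rfl⟩
    · intro s t hs ht hst _ x hx
      have hx' : x = 0 := hx
      rw [hx', map_zero]
  | succ j ih =>
    intro hj
    have hj' : j < J := by omega
    have hK : 0 ≤ C + 2 * c := by linarith
    obtain ⟨Φ, h1, h2⟩ := ih hj'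
    have hl := lc_nonneg h0 hK (j + 1)
    have hl' := lc_nonneg h0 hK j
    have h3 := (S (j + 1) hj).bet_onto (O (j + 1) hj) hc hC hl hσ (hn _ hj)
      (ladder_sg S O hc hC h0 hG hX hσ hn hu (j + 1) (by omega)) hne
    have h4 := (S (j + 1) hj).bet_inj ((S (j + 1) hj).rel_eph hc hC hG (hq _ (by omega) hj))
    have hj0 : (0 : ℝ) ≤ j := Nat.cast_nonneg j
    refine ⟨Φ.comp ((S (j + 1) hj).bet q), (h1.comp h3 (by positivity) (by linarith)).mono ?_,
      (h2.comp h4 (by positivity) hK).mono ?_⟩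
    · rw [lc_succ _ _ (j + 1)]
      push_cast
      nlinarith [mul_nonneg hj0 hK]
    · push_cast
      linarith

include O in
/-- **Births.** `A` generates the based loops in the degree `q`, `g` generates the free loops in the
degree `q + n 0`: their births differ by a bounded amount. -/
theorem ladder_births (hJ : 0 < J) (hc : 0 ≤ c) (hC : 0 ≤ C) (h0 : 0 ≤ C₀)
    (hG : ∀ q, ¬ SG q → (G q).Eph C)
    (hX : ∀ q, (X 0 q).Eph C₀) {σ : ℕ → k} (hσ : ∀ q, SgM (G q) (OG q) (σ q) C)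
    (hn : ∀ j < J, ∀ q, σ (q + n j) = σ q) {q : ℕ}
    (hu : ∀ i j, i < j → j < J → Slot SG (n i) (q + n 0) → ¬ Slot SG (n j) (q + n 0))
    (hq : ∀ j, 0 < j → j < J → ¬ Slot SG (n j) (q + n 0)) (hne : σ (q + n 0) ≠ σ (q + n 0 + 1))
    {A : (G q).Fam} {g : (X J (q + n 0)).Fam} {b b' : ℝ} (hb : 0 ≤ b) (hb' : 0 ≤ b')
    (hA : (G q).Line A b) (hg : (X J (q + n 0)).Line g b') :
    (∀ s t hs ht, s + (c + C₀) ≤ t → A.z s hs ≠ 0 → g.z t ht ≠ 0) ∧
    (∀ s t hs ht, s + (J * (C + 2 * c) + c) ≤ t → g.z s hs ≠ 0 → A.z t ht ≠ 0) := by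
  obtain ⟨J', rfl⟩ : ∃ J', J = J' + 1 := ⟨J - 1, by omega⟩
  have hK : 0 ≤ C + 2 * c := by linarith
  obtain ⟨Φ, hΦ1, hΦ2⟩ := ladder_down S O hc hC h0 hG hX hσ hn hu hq hne J' (Nat.lt_succ_self _)
  have hJ0 : (0 : ℝ) ≤ J' := Nat.cast_nonneg J'
  have hl : 0 ≤ (J' : ℝ) * lc C₀ (C + 2 * c) (J' + 1) := mul_nonneg hJ0 (lc_nonneg h0 hK _)
  have hl' : 0 ≤ (J' : ℝ) * (C + 2 * c) := mul_nonneg hJ0 hK
  set I := (S 0 hJ).i q with hI
  have ai := (S 0 hJ).alp_inj hX h0 (q + n 0)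
  have ao := (S 0 hJ).alp_onto (hX (q + n 0))
  -- where the image of `A` does not vanish, `g` does not vanish
  constructor
  · intro s t hs ht hst hAs
    have p1 : 0 < s + c := by linarith
    set o' : ((S 0 hJ).Rel (q + n 0)).Fam := I.symm.fFam hc A with ho'
    have e1 : o'.z (s + c) p1 ≠ 0 := by
      intro e
      have := I.f_f_fam hc A hs p1 le_rfl
      rw [← ho', e, map_zero] at this
      exact hAs this.symm
    set o1 : (X 1 (q + n 0)).Fam := o'.map ((S 0 hJ).alp (q + n 0)).f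
      ((S 0 hJ).alp (q + n 0)).nat with ho1
    have e2 : o1.z t ht ≠ 0 := by
      intro e
      apply e1
      have := ai (s + c) t p1 ht (by linarith) (by linarith) (o'.z t ht) e
      rwa [o'.comp] at this
    -- lift `o1` to `X J`
    have pu : 0 < t + b' := by linarith
    have pv : 0 < t + b' + (J' : ℝ) * lc C₀ (C + 2 * c) (J' + 1) := by linarith
    obtain ⟨x, hx⟩ := hΦ1 (t + b') _ pu pv (by linarith) le_rfl (o1.z _ pv)
    rw [o1.comp] at hx
    refine line_ne hg ht (by linarith : t ≤ t + b') le_rfl (x := x) ?_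
    intro e
    apply e2
    rw [← o1.comp t (t + b') ht (by linarith), ← hx, Φ.nat t (t + b') ht pu, e, map_zero]
  · intro s t hs ht hst hgs hAt
    push_cast at hst
    -- `v = s + J' (C + 2 c)`
    have pv : 0 < s + J' * (C + 2 * c) := by linarith
    set v := s + J' * (C + 2 * c) with hv
    set w : (X 1 (q + n 0)).Fam := g.map Φ.f Φ.nat with hw
    have e1 : w.z v pv ≠ 0 := by
      intro e
      apply hgs
      have := hΦ2 s v hs pv (by linarith) le_rfl (g.z v pv) e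
      rwa [g.comp] at this
    have p1 : 0 < v + c := by linarith
    have hA0 : A.z (v + c) p1 = 0 := by
      rw [← A.comp (v + c) t p1 (by linarith), hAt, map_zero]
    -- a large level `u`
    have pu : 0 < v + c + b + c := by linarith
    have pu' : 0 < v + c + b + c + C₀ := by linarith
    obtain ⟨p, hp⟩ := ao (v + c + b + c) (v + c + b + c + C₀) pu pu' (by linarith) le_rfl
      (w.z _ pu')
    rw [w.comp] at hp
    obtain ⟨y, hy⟩ := hA (v + c) (v + c + b) p1 (by linarith) le_rfl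
      (I.f (v + c + b) (v + c + b + c) (by linarith) le_rfl p)
    rw [hA0, smul_zero, I.ρ_f (by linarith) p1 le_rfl (by linarith) (by linarith) hc] at hy
    have e2 := I.gf v (v + c) (v + c + b + c) pv p1 le_rfl (by linarith) (by linarith) p
    rw [hy, map_zero] at e2
    apply e1
    rw [← w.comp v (v + c + b + c) pv (by linarith), ← hp,
      ((S 0 hJ).alp (q + n 0)).nat v _ pv pu, ← e2, map_zero]

end Ladder

end Vale.Agent.P216.H894
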