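import Vale.Agent.P216.H894.GenE2
import Vale.Agent.P216.H774D.MainH
import Vale.Agent.P216.D239.SignQ
import Vale.Agent.P216.H550.GenD3
import Vale.Agent.P216.H550.ToFL

/-!
# P216-D: the main theorem for `4 ∣ d` from the signs of the reversal

`main_4`: no power maps, no lifts from weights.
-/

set_option linter.all false

open Set Topology Bundle Manifold
open scoped ContDiff

namespace Vale.Agent.P216.H894

open Vale.Agent.P216.B609 Vale.Agent.P216.B64 Vale.Agent.P216.H550 Vale.Agent.P216.H774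
open Vale.Agent.P216.H901 Vale.Agent.P216.H754B Vale.Agent.P216.AS Vale.Agent.P216.PS
open Vale.Agent.P216.H494 Vale.Agent.P216.H288

/-- **`4 ∣ d`, `h ≥ 1`**, by the reversal. -/
theorem main_4
    {E : Type} [NormedAddCommGroup E] [NormedSpace ℝ E] [FiniteDimensional ℝ E]
    {M : Type} [MetricSpace M] [CompactSpace M] [ChartedSpace E M] [IsManifold 𝓘(ℝ, E) ∞ M]
    [RiemannianBundle (fun x : M => TangentSpace 𝓘(ℝ, E) x)]
    [IsContMDiffRiemannianBundle 𝓘(ℝ, E) ∞ E (fun x : M => TangentSpace 𝓘(ℝ, E) x)]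
    [IsRiemannianManifold 𝓘(ℝ, E) M] [PathConnectedSpace M]
    {d h N : ℕ} (hd4 : 4 ∣ d) (hd : 0 < d) (hh : 0 < h) (hD : N + 2 = d * (h + 1)) (P0 : ℕ)
    (x₀ : M)
    (H : ∀ ρ : ℝ, 0 < ρ → LS.UniqSeg M ρ → ∃ B : ℝ, 0 < B ∧ ∀ p : ℕ, ∀ _ : Fact p.Prime, 2 < p →
      P0 < p → ∃ O : OmegaOutC M (d - 1) N x₀ B (ZMod p),
        E2Out (ZMod p) M x₀ (BsE d h) (FsE d N) (wE (-1 : ZMod p) N) (EigRv (ZMod p) M)) :
    (primeClosedGeodesicImages M).Infinite := by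
  refine Vale.Agent.P216.D239.main_CQ (E := E) (fun p => P0 < p) (fun K => ?_)
    (fun i => i * N + (d - 1)) fun ρ hρ hs => ?_
  · obtain ⟨p, hp, hpp⟩ := Nat.exists_infinite_primes (max K P0 + 1)
    exact ⟨p, by have := le_max_left K P0; omega, hpp, by have := le_max_right K P0; omega⟩
  obtain ⟨n, T, i, r, hT, hri⟩ := H269D.exists_dom_manifold E M hρ hs
  obtain ⟨B, hB, h1⟩ := H ρ hρ hs
  obtain ⟨B', hB', h2⟩ := exists_flGenC hρ hs T hT i r hri x₀ hB (d := d) (h := h) (q := d - 1)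
    (N := N) hd4 hd hh hD (by omega)
  obtain ⟨I, hI⟩ := Vale.Agent.P216.MR.stMoore M ρ hρ hs 1 one_pos
  refine ⟨B' + 3, by linarith, fun p hp hp2 hp0 => ?_⟩
  obtain ⟨O, hE⟩ := h1 p hp hp2 hp0
  have h2k : (2 : ZMod p) ≠ 0 := by
    intro h0
    have h3 : ((2 : ℕ) : ZMod p) = 0 := by exact_mod_cast h0
    rw [ZMod.natCast_eq_zero_iff] at h3
    exact absurd (Nat.le_of_dvd (by norm_num) h3) (by omega)
  obtain ⟨S, hS⟩ := stab_four h2k hd4 hd hh hD (by omega) hB O hE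
  obtain ⟨F⟩ := h2 (ZMod p) h2k O S fun n o t ht => hS n o t ht
  exact ⟨xGenC I F hB' hI⟩

/-- **`h = 1`, `4 ∣ n`** (`M` with the cohomology of the `n`-sphere), by the reversal. -/
theorem main_4s
    {E : Type} [NormedAddCommGroup E] [NormedSpace ℝ E] [FiniteDimensional ℝ E]
    {M : Type} [MetricSpace M] [CompactSpace M] [ChartedSpace E M] [IsManifold 𝓘(ℝ, E) ∞ M]
    [RiemannianBundle (fun x : M => TangentSpace 𝓘(ℝ, E) x)]
    [IsContMDiffRiemannianBundle 𝓘(ℝ, E) ∞ E (fun x : M => TangentSpace 𝓘(ℝ, E) x)]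
    [IsRiemannianManifold 𝓘(ℝ, E) M] [PathConnectedSpace M]
    {n : ℕ} (hn4 : 4 ∣ n) (hn : 0 < n) (P0 : ℕ) (x₀ : M)
    (H : ∀ ρ : ℝ, 0 < ρ → LS.UniqSeg M ρ → ∃ B : ℝ, 0 < B ∧ ∀ p : ℕ, ∀ _ : Fact p.Prime, 2 < p →
      P0 < p → Nonempty (OmegaOut M (n - 1) x₀ B (ZMod p)) ∧
        E2Out (ZMod p) M x₀ (BsE n 1) (FsE n (2 * n - 2)) (wE (-1 : ZMod p) (2 * n - 2))
          (EigRv (ZMod p) M)) :
    (primeClosedGeodesicImages M).Infinite := by
  have hn' : 4 ≤ n := Nat.le_of_dvd hn hn4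
  obtain ⟨d1, d2, d3⟩ := deg_facts (d := n) (h := 1) (N := 2 * n - 2) (q := n - 1) hn4 hn one_pos
    (by omega) (by omega)
  refine Vale.Agent.P216.D239.main_CQ (E := E) (fun p => P0 < p) (fun K => ?_)
    (fun i => i * (2 * n - 2) + (n - 1)) fun ρ hρ hs => ?_
  · obtain ⟨p, hp, hpp⟩ := Nat.exists_infinite_primes (max K P0 + 1)
    exact ⟨p, by have := le_max_left K P0; omega, hpp, by have := le_max_right K P0; omega⟩
  obtain ⟨_, T, i, r, hT, hri⟩ := H269D.exists_dom_manifold E M hρ hs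
  obtain ⟨B, hB, h1⟩ := H ρ hρ hs
  obtain ⟨C, hC, h2⟩ := exists_stepFL1 hρ hs T hT i r hri x₀ hB
  obtain ⟨I, hI⟩ := Vale.Agent.P216.MR.stMoore M ρ hρ hs 1 one_pos
  set R : ℕ := 2 * n - 2 with hR
  set B' : ℝ := 3 * C + B * R + B * (0 * (2 * n - 2) + (n - 1) : ℕ) with hB'
  have hB'0 : 0 < B' := by positivity
  refine ⟨B' + 3, by linarith, fun p hp hp2 hp0 => ?_⟩
  obtain ⟨⟨O⟩, hE⟩ := h1 p hp hp2 hp0
  have h2k : (2 : ZMod p) ≠ 0 := by
    intro h0
    have h3 : ((2 : ℕ) : ZMod p) = 0 := by exact_mod_cast h0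
    rw [ZMod.natCast_eq_zero_iff] at h3
    exact absurd (Nat.le_of_dvd (by norm_num) h3) (by omega)
  obtain ⟨c, hc⟩ := hn4
  have A := ar_even (k := ZMod p) (d := n) (h := 1) (N := 2 * n - 2) (μ := -1) (by omega) hn'
    le_rfl (by omega) (neg_ne_zero.2 one_ne_zero) (fun h3 => h2k (by linear_combination -h3)) (by
      have : n / 2 = 2 * c := by omega
      rw [this, pow_mul]
      norm_num)
  have S : Stab (fun q => XP (ZMod p) M q) fun i => i * (2 * n - 2) + (n - 1) :=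
    stab_of_e2 A hE fun i => by
      have hdeg : (2 * i + 1) * (n - 1) = i * (2 * n - 2) + (n - 1) := by
        have h3 : 2 * n - 2 = 2 * (n - 1) := by omega
        rw [h3]
        ring
      have h4 := exists_ne_om O hB.le (2 * i + 1)
      rw [hdeg] at h4
      exact h4
  obtain ⟨W, hW, hW0, hst⟩ := h2 (ZMod p) h2k (n - 1) (by omega) O
  obtain ⟨Γ⟩ := genC_of_stab (O := fun q => opXP (ZMod p) M q) (σ := fun q => sgn (ZMod p) q) S
    (fun q o t ht => by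
      have h4 := eig_of_e2 A hE (fun n o c => eigRv_zero n o c) q o
      have h5 : wD (-1 : ZMod p) 1 q = sgn (ZMod p) q := by
        rw [wD, sgn, inv_neg, inv_one, Nat.add_sub_cancel]
      rw [h5] at h4
      exact h4 t ht) hW hC hst (R := R) (B := B') (fun i => (d1 (Nat.lt_succ_self i)).le)
    (fun i => by
      have : (i + 1) * (2 * n - 2) = i * (2 * n - 2) + (2 * n - 2) := by ring
      omega) (by rw [hW0, add_zero])
  exact ⟨xGenC I (Vale.Agent.P216.H550.flGenC Γ d1 d2 d3 hB'0.le) hB'0 hI⟩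

end Vale.Agent.P216.H894
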