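import Vale.Agent.P216.H894.MooreMaps

/-!
# P216-B, block [W6], part A2: on `XE M t` the composite `gM (t + ε) ∘ fM K ε` is homotopic to the
identity, inside `XE M (t + ε)`
-/

set_option linter.all false

namespace Vale.Agent.P216.H894

open Set Filter Topology BoundedContinuousFunction
open Vale.Agent.P216.AS (IsMap IsHtpy)
open Vale.Agent.P216.H901 (tr Hp SpIntl)
open Vale.Agent.P216.L250
open Vale.Agent.P216.LS (UniqSeg seg seg_zero seg_one itp sample itpL sampleL MiL)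
open Vale.Agent.P216.MV337
open Vale.Agent.P216.PS (mo Lip PP)

variable {M : Type} [MetricSpace M]

theorem ext_Ico {g g' : LM M} (h : ∀ u ∈ Ico (0 : ℝ) 1, fn g u = fn g' u) : g = g' := by
  apply dist_le_zero.1
  exact dist_le_of_Ico le_rfl fun u hu => by rw [h u hu, dist_self]

/-- With equal durations `1 / K` the polygon is the broken geodesic of `LS`. -/
theorem pg_eq_itp {K : ℕ} [NeZero K] (γ : LM M) (m : ℕ) {u : ℝ} (h0 : 0 ≤ u)
    (hu : u ≤ m / K) : pg (vx K γ) (fun _ => 1 / (K : ℝ)) m u = itp (sample K (fn γ)) u := by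
  have hK : (0 : ℝ) < K := LS.cast_pos_K
  induction m with
  | zero =>
    have h1 : u = 0 := le_antisymm (by simpa using hu) h0
    have h2 := LS.itp_int (K := K) (sample K (fn γ)) 0
    have h3 := LS.sample_intCast (K := K) (fn_periodic γ) 0
    rw [Int.cast_zero, zero_div] at h2
    rw [h1, pg_zero_n, h2, h3, vx]
    simp
  | succ m ih =>
    by_cases h : u ≤ cs (fun _ => 1 / (K : ℝ)) m
    · rw [pg_succ, if_pos h]
      rw [cs_const, mul_one_div] at h
      exact ih h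
    · rw [pg_succ, if_neg h]
      rw [cs_const, mul_one_div] at h ⊢
      have h1 : (u - m / K) / (1 / (K : ℝ)) = K * u - m := by field_simp
      have h2 : K * u - m ∈ Icc (0 : ℝ) 1 := by
        constructor
        · have := (div_lt_iff₀ hK).1 (not_le.1 h)
          linarith
        · have := (le_div_iff₀ hK).1 hu
          push_cast at this
          linarith
      have h3 := LS.itp_apply (K := K) (sample K (fn γ)) m h2
      have h4 : (((m : ℤ) : ℝ) + (K * u - m)) / K = u := by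
        push_cast
        field_simp
        ring
      have h5 := LS.sample_natCast (K := K) (fn_periodic γ) m
      have h6 := LS.sample_natCast (K := K) (fn_periodic γ) (m + 1)
      rw [h4] at h3
      rw [h1, min_eq_right h2.2, h3, vx, vx, ← h5, ← h6]
      push_cast
      rfl

variable [CompactSpace M] {ρ t ε : ℝ} {K : ℕ}

/-- The identity is homotopic to the equidistant polygon. -/
theorem Hp_id_poly (hU : UniqSeg M ρ) (hρ : 0 < ρ) (ht : 0 ≤ t) (hK : t ^ 2 < K * ρ ^ 2) :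
    Hp (XE M t) ∅ (XE M t) ∅ id (fun γ => lpOf (pg (vx K γ) (fun _ => 1 / (K : ℝ)) K)) := by
  have hK0 := pos_of_sq_lt hK
  haveI : NeZero K := ⟨hK0.ne'⟩
  have hK' : (0 : ℝ) < K := LS.cast_pos_K
  refine Hp_of_continuousOn (isCompact_XE ht) (D := fun s γ => MiL K s γ)
    (LS.continuousOn_MiL hU hρ ht hK) (fun s hs γ hγ => LS.MiL_mem hU hρ hK hγ hs)
    (fun _ _ => mapsTo_empty _ _) (fun γ _ => LS.MiL_zero γ) fun γ hγ => ?_
  show MiL K 1 γ = lpOf (pg (vx K γ) (fun _ => 1 / (K : ℝ)) K)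
  rw [LS.MiL_one hU hρ hK hγ]
  refine ext_Ico fun u hu => ?_
  have h1 : cs (fun _ => 1 / (K : ℝ)) K ≤ 1 := by rw [cs_const, mul_one_div, div_self hK'.ne']
  rw [fn_polyX hU (fun i _ => by positivity) (fun i _ => ln_lt hρ hK hγ i) (vx_closed hK0 γ) h1,
    Int.fract_eq_self.2 ⟨hu.1, hu.2⟩,
    LS.fn_itpL hU hρ (lt_of_le_of_lt (LS.sampleL_mem hγ) hK),
    pg_eq_itp γ K hu.1 (by rw [div_self hK'.ne']; exact hu.2.le), sampleL]

/-- The value of `gM ∘ fM` as a polygon with durations. -/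
theorem gM_fM (hU : UniqSeg M ρ) (hρ : 0 < ρ) (ht : 0 ≤ t) (hε : 0 < ε)
    (hK : t ^ 2 < K * ρ ^ 2) {γ : LM M} (hγ : γ ∈ XE M t) :
    lpOf (pg (vx K γ) (fun i => (t + ε)⁻¹ * du K ε γ i) K) = gM (t + ε) (fM K ε γ) := by
  have hK0 := pos_of_sq_lt hK
  have hc : 0 < (t + ε)⁻¹ := inv_pos.2 (by linarith)
  have h1 : cs (fun i => (t + ε)⁻¹ * du K ε γ i) K ≤ 1 := by
    rw [cs_mul, inv_mul_le_iff₀ (by linarith), mul_one]
    exact cs_du_le ht hK0 hγ
  refine ext_Ico fun u hu => ?_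
  rw [fn_polyX hU (fun i _ => mul_pos hc (du_pos hK0 hε i)) (fun i _ => ln_lt hρ hK hγ i)
    (vx_closed hK0 γ) h1, Int.fract_eq_self.2 ⟨hu.1, hu.2⟩,
    fn_gM (by linarith) (fM_mem hU hρ hε ht hK hγ) ⟨hu.1, hu.2.le⟩, fM_apply hU hρ hε hK hγ,
    ← pg_scale hc (vx K γ) (du K ε γ) K ((t + ε) * u)]
  congr 1
  rw [← mul_assoc, inv_mul_cancel₀ (by linarith), one_mul]

/-- **gf**, with an arbitrary fine mesh. -/
theorem Hp_gf (hU : UniqSeg M ρ) (hρ : 0 < ρ) (ht : 0 ≤ t) (hε : 0 < ε)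
    (hK : t ^ 2 < K * ρ ^ 2) :
    Hp (XE M t) ∅ (XE M (t + ε)) ∅ id (gM (t + ε) ∘ fM K ε) := by
  have hK0 := pos_of_sq_lt hK
  have hK' : (0 : ℝ) < K := by exact_mod_cast hK0
  have hc : 0 < (t + ε)⁻¹ := inv_pos.2 (by linarith)
  have hsq : t ^ 2 ≤ (t + ε) ^ 2 := pow_le_pow_left₀ ht (by linarith) 2
  refine Hp_trans (Hp_mono (Hp_id_poly hU hρ ht hK) (XE_mono ht (by linarith))) ?_
  refine Hp_congr (Hp_durX hU (isCompact_XE ht) (s := t + ε) (n := K) (by linarith)
    (X := fun γ => vx K γ) (D := fun γ _ => 1 / (K : ℝ))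
    (D' := fun γ i => (t + ε)⁻¹ * du K ε γ i)
    (fun i _ => (continuous_vx i).continuousOn) (fun i _ => continuousOn_const)
    (fun i _ => (continuous_const.mul (continuous_du i)).continuousOn)
    (fun γ _ i _ => by positivity) (fun γ _ i _ => mul_pos hc (du_pos hK0 hε i))
    (fun γ hγ i _ => ln_lt hρ hK hγ i) (fun γ _ => vx_closed hK0 γ)
    (fun γ _ => by rw [cs_const, mul_one_div, div_self hK'.ne'])
    (fun γ hγ => ?_) (fun γ hγ => ?_) fun γ hγ => ?_) (fun γ _ => rfl) fun γ hγ => ?_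
  · rw [cs_mul, inv_mul_le_iff₀ (by linarith), mul_one]
    exact cs_du_le ht hK0 hγ
  · refine le_trans (le_of_eq ?_) ((sum_sq_ln_le hK0 hγ).trans hsq)
    rw [Finset.mul_sum]
    refine Finset.sum_congr rfl fun i _ => ?_
    rw [ln]
    field_simp
  · have h1 : ∀ i ∈ Finset.range K, dist (vx K γ i) (vx K γ (i + 1)) ^ 2 /
        ((t + ε)⁻¹ * du K ε γ i) ≤ (t + ε) * ln K γ i := by
      intro i _
      have h2 := du_pos (γ := γ) hK0 hε i
      have h3 := ln_le_du (K := K) (γ := γ) hε i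
      have h4 := ln_nonneg (K := K) (γ := γ) i
      rw [div_le_iff₀ (mul_pos hc h2)]
      have h5 : (t + ε) * ln K γ i * ((t + ε)⁻¹ * du K ε γ i) = ln K γ i * du K ε γ i := by
        field_simp
      rw [h5, ← ln, sq]
      exact mul_le_mul_of_nonneg_left h3 h4
    refine (Finset.sum_le_sum h1).trans ?_
    rw [← Finset.mul_sum, sq]
    exact mul_le_mul_of_nonneg_left ((sum_ln_le ht hK0 hγ).trans (by linarith)) (by linarith)
  · exact gM_fM hU hρ ht hε hK hγ

/-- **gf** as required by `SpIntl`. -/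
theorem gf (hU : UniqSeg M ρ) (hρ : 0 < ρ) (hε : 0 < ε) (ht : 0 < t) :
    Hp (XE M t) ∅ (XE M (t + ε + ε)) ∅ id (gM (t + ε) ∘ fM (mesh ρ t) ε) :=
  Hp_mono (Hp_gf hU hρ ht.le hε (lt_mesh hρ t)) (XE_mono (by linarith) (by linarith))

end Vale.Agent.P216.H894
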