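import Vale.Agent.P216.H894.Pw

/-!
# P216-D / D1, block (B), part 1: the classes `om b j` on concatenations of cycles

`om b (j + 1)` evaluated on `z · u` (`u` a fine cycle of degree `n - 1`) is
`± ⟨om b 1, u⟩ ⟨om (!b) j, z⟩`; end points and junctions are arbitrary points away from the
crossing points.
-/

open Finsupp Set BoundedContinuousFunction

set_option linter.all false

namespace Vale.Agent.P216.H894

open Vale.Agent.P216.Sl Vale.Agent.P216.PS Vale.Agent.P216.N929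
open Vale.Agent.P216.H977C (chg chg_le_length chg_map chg_take Nrm_zero sh_chg_mem' catc conc
  conc_cy edge_add capE ev_capE cap_formula evp_left cutp_left catc_right intg_eq')

variable {k : Type} [Field k] {M : Type} [MetricSpace M] [CompactSpace M] {n : ℕ}

section

variable (G : Geo M n) (τ : Tau k M n G.ρ₁)

/-- `om b j` is a cocycle on the paths from `x₀` to any point away from the crossing point. -/
theorem om_coc0 (b : Bool) (j : ℕ) {q : M} (hq : G.ρ₁ ≤ dist q (G.y (!b))) (T : ℝ) :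
    Coc (P G.x₀ q T) (omε G τ b j) (j * (n - 1)) (om G τ b j) := by
  rcases j with _ | j
  · rw [om_zero, Nat.zero_mul]
    exact coc_one1 _ _
  · have h := om_scl G τ b j
    have h1 := stp_coc' (y' := q) τ G.seg G.hr G.hrρ h hq (G.hx _)
      (by have := G.hn; omega) (om_coc G τ (!b) j) (δ := omε G τ b (j + 1) / 2) (half_pos h.pos)
      (half_lt_self h.pos) T
    have e : n + j * (n - 1) - 1 = (j + 1) * (n - 1) := by
      have := G.hn
      rw [Nat.add_mul, Nat.one_mul]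
      omega
    rw [om_succ]
    rwa [e] at h1

/-- Evaluation of `om b (j + 1)` on fine cycles of paths from `x₀` to `q`. -/
theorem om_eval0 (b : Bool) (j : ℕ) {q : M} (hq : G.ρ₁ ≤ dist q (G.y (!b))) {T T' : ℝ}
    (hT : 0 ≤ T) (hTT : T ≤ T') {η : ℝ} (hη : 0 < η) (hη' : η ≤ omε G τ b (j + 1))
    {z : Ch k (ℝ →ᵇ M)} (hz : Cy (P G.x₀ q T) η ((j + 1) * (n - 1)) z) {ι : Ch k ℝ}
    (hι : Edge 0 T' η ι) :
    ev (om G τ b (j + 1)) z = ev (Sg.aL n τ.f (om G τ (!b) j) G.r (G.y (!b))) (sh z ι) := by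
  have h := om_scl G τ b j
  rw [om_succ]
  exact stp_eval τ G.seg G.hr G.hrρ G.hn (deg_succ (n := n) j (by have := G.hn; omega)) h hq
    (om_coc G τ (!b) j) (half_pos h.pos) (half_lt_self h.pos) hT hTT hη hη' hz hι

theorem ev_split {p q q' : M} {c s : ℝ} (f : List (M × M) → k) (g : List (ℝ →ᵇ M) → k) {r : ℝ}
    (hf : Nrm f) (hn : 2 ≤ n) (hr : 0 < r) (hc : 0 ≤ c) {v : ℝ →ᵇ M} (hv : v ∈ P q q' s) {m : ℕ}
    (hm : n ≤ m + 1) {z : Ch k (ℝ →ᵇ M)}
    (hz : z ∈ Sp k fun l => l.length = m + 1 ∧ ∀ w ∈ l, w ∈ P p q c) {y : M}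
    {ι₁ ι : Ch k ℝ} (hι₁ : ι₁ ∈ Sp k fun l => l.length = 2 ∧ ∀ σ ∈ l, σ ≤ c)
    (hι : ι ∈ Sp k fun l => l.length = 2 ∧ ∀ σ ∈ l, 0 ≤ σ) :
    ev (Sg.aL n f g r y) (sh (mp (fun w => cat c w v) z) (ι₁ + mp (fun σ => c + σ) ι)) =
      ev (Sg.aL n f g r y) (sh z ι₁) := by
  rw [map_add, map_add]
  have h1 : ev (Sg.aL n f g r y) (sh (mp (fun w => cat c w v) z) ι₁) =
      ev (Sg.aL n f g r y) (sh z ι₁) := by
    have e1 : sh (mp (fun w => cat c w v) z) ι₁ =
        mp (Prod.map (fun w => cat c w v) fun σ => σ) (sh z ι₁) := by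
      rw [← sh_mp, mp_self]
    rw [e1, ev_mp]
    refine ev_congr (P := fun L : List ((ℝ →ᵇ M) × ℝ) => ∀ x ∈ L, x.1 ∈ P p q c ∧ x.2 ≤ c)
      (fun L hL => ?_) (sh_ent (P := fun w => w ∈ P p q c) (Q := fun σ => σ ≤ c)
        (Sp_mono (fun l hl => hl.2) hz) (Sp_mono (fun l hl => hl.2) hι₁))
    change intg n f g r y _ = intg n f g r y L
    rw [intg_eq', intg_eq', List.map_map, List.map_map]
    have e2 : L.map (evp y ∘ Prod.map (fun w => cat c w v) fun σ => σ) = L.map (evp y) :=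
      List.map_congr_left fun x hx => evp_left (x := (x.1, v)) (hL x hx).1 hv (hL x hx).2
    have e3 : L.map (cutp r y ∘ Prod.map (fun w => cat c w v) fun σ => σ) = L.map (cutp r y) :=
      List.map_congr_left fun x hx => cutp_left (x := (x.1, v)) hr (hL x hx).1 hv (hL x hx).2
    rw [e2, e3]
  have h2 : ev (Sg.aL n f g r y) (sh (mp (fun w => cat c w v) z) (mp (fun σ => c + σ) ι)) = 0 := by
    rw [sh_mp, ev_mp]
    refine ev_zero_of (fun L hL => ?_) (sh_chg_mem' (k := k) (fun _ : ℝ →ᵇ M => ())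
      (id : ℝ → ℝ) hz hι)
    obtain ⟨s', t', hs', ht', hG, hch⟩ := hL
    change intg n f g r y _ = 0
    rw [intg_eq']
    have hlen : n + 1 ≤ L.length := by
      have := hG.1
      have := hs'.1
      have := ht'.1
      omega
    have e2 : (L.map (Prod.map (fun w => cat c w v) fun σ => c + σ)).map (evp y) =
        (L.map (Prod.map (fun _ : ℝ →ᵇ M => ()) (id : ℝ → ℝ))).map
          fun q : Unit × ℝ => ((v q.2 : M), y) := by
      rw [List.map_map, List.map_map]
      refine List.map_congr_left fun x hx => ?_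
      have h3 := hs'.2 _ (hG.2 x hx).1
      have h4 := ht'.2 _ (hG.2 x hx).2
      change ((catc c (x.1, v) (c + x.2) : M), y) = ((v x.2 : M), y)
      rw [catc_right (x := (x.1, v)) h3 hv (by linarith)]
      congr 2
      ring
    have h5 : f (((L.map (Prod.map (fun w => cat c w v) fun σ => c + σ)).map (evp y)).take
        (n + 1)) = 0 := by
      refine Nrm_zero hf ?_
      rw [List.length_take, List.length_map, List.length_map, min_eq_left hlen, e2]
      have h6 := chg_take (n + 1) ((L.map (Prod.map (fun _ : ℝ →ᵇ M => ()) (id : ℝ → ℝ))).map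
          fun q : Unit × ℝ => ((v q.2 : M), y))
      have h7 := chg_map (fun q : Unit × ℝ => ((v q.2 : M), y))
        (L.map (Prod.map (fun _ : ℝ →ᵇ M => ()) (id : ℝ → ℝ)))
      have h8 := chg_le_length (t'.map (id : ℝ → ℝ))
      rw [List.length_map, ht'.1] at h8
      have h9 : chg (s'.map fun _ : ℝ →ᵇ M => ()) = 0 := by
        rw [List.map_const']
        have : ∀ N, chg (List.replicate N ()) = 0 := by
          intro N
          induction N with
          | zero => simp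
          | succ N ih =>
            rcases N with _ | N
            · simp
            · rw [List.replicate_succ, List.replicate_succ, H977C.chg_eq,
                ← List.replicate_succ, ih]
        exact this _
      omega
    rw [h5, zero_mul]
  rw [h1, h2, add_zero]

/-- A path behind does not change `om b j`. -/
theorem om_cat (b : Bool) (j : ℕ) {q q' : M} (hq : G.ρ₁ ≤ dist q (G.y (!b)))
    (hq' : G.ρ₁ ≤ dist q' (G.y (!b))) {c s η : ℝ} (hc : 0 ≤ c) (hs : 0 ≤ s) (hη : 0 < η)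
    (hη' : η ≤ omε G τ b j) {v : ℝ →ᵇ M} (hv : v ∈ P q q' s) {z : Ch k (ℝ →ᵇ M)}
    (hz : Cy (P G.x₀ q c) η (j * (n - 1)) z) :
    ev (om G τ b j) (mp (fun w => cat c w v) z) = ev (om G τ b j) z := by
  rcases j with _ | j
  · have e0 : (fun l : List (ℝ →ᵇ M) => one1 k (ℝ →ᵇ M) (l.map fun w => cat c w v)) =
        one1 k (ℝ →ᵇ M) := by
      funext l
      rw [one1, one1, List.length_map]
    rw [om_zero, ev_mp, e0]
  have hn := G.hn
  have hm : n ≤ (j + 1) * (n - 1) + 1 := by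
    have : n - 1 ≤ (j + 1) * (n - 1) := Nat.le_mul_of_pos_left _ (Nat.succ_pos j)
    omega
  obtain ⟨ι₁, h1, h2⟩ := Sg.exists_seg' k hc hη
  obtain ⟨ι, h3, h4⟩ := Sg.exists_seg' k hs hη
  have hι₁ : Edge 0 c η ι₁ := ⟨h1, h2⟩
  have hι : Edge 0 s η ι := ⟨h3, h4⟩
  have hcy : Cy (P G.x₀ q' (c + s)) η ((j + 1) * (n - 1)) (mp (fun w => cat c w v) z) := by
    refine ⟨map_mem _ (fun l hl => ?_) hz.1, ?_⟩
    · rw [mp_single]
      refine single_mem ⟨by rw [List.length_map, hl.1], fun w hw => ?_, fun w hw w' hw' => ?_⟩ _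
      · obtain ⟨x, hx, rfl⟩ := List.mem_map.1 hw
        exact cat_mem hc hs (hl.2.1 x hx) hv
      · obtain ⟨x, hx, rfl⟩ := List.mem_map.1 hw
        obtain ⟨x', hx', rfl⟩ := List.mem_map.1 hw'
        exact (H250.dist_catR_le hv (hl.2.1 x hx) (hl.2.1 x' hx')).trans_lt (hl.2.2 x hx x' hx')
    · rw [bd_mp, bd_eq_zero hz (by
        have : 0 < (j + 1) * (n - 1) := Nat.mul_pos (Nat.succ_pos j) (by omega)
        omega), map_zero]
      exact Submodule.zero_mem _
  rw [om_eval0 G τ b j hq' (by positivity) le_rfl hη hη' hcy (edge_add hc hs hι₁ hι),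
    om_eval0 G τ b j hq hc le_rfl hη hη' hz hι₁]
  exact ev_split τ.f (om G τ (!b) j) τ.nrm hn G.hr hc hv (m := (j + 1) * (n - 1)) hm
    (Sp_mono (fun l hl => ⟨hl.1, hl.2.1⟩) hz.1)
    (Sp_mono (fun l hl => ⟨hl.1, fun σ hσ => (hl.2.1 σ hσ).2⟩) h1)
    (Sp_mono (fun l hl => ⟨hl.1, fun σ hσ => (hl.2.1 σ hσ).1⟩) h3)

/-- **The product formula** for the classes `om`. -/
theorem om_mul (b : Bool) (j : ℕ) {q q' : M} (hq : ∀ b, G.ρ₁ ≤ dist q (G.y b))
    (hq' : G.ρ₁ ≤ dist q' (G.y (!b))) {c s η : ℝ} (hc : 0 ≤ c) (hs : 0 ≤ s) (hη : 0 < η)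
    (h0 : η ≤ omε G τ (!b) j) (h1 : η ≤ omε G τ b (j + 1)) {z u : Ch k (ℝ →ᵇ M)}
    (hz : Cy (P G.x₀ q c) η (j * (n - 1)) z) (hu : Cy (P q q' s) η (n - 1) u) {ι : Ch k ℝ}
    (hι : Edge 0 s η ι) :
    ev (om G τ b (j + 1)) (conc c z u) = (-1) ^ ((j * (n - 1) + 1 + 1) * n) *
      (ev (Sg.aL n τ.f (one1 k _) G.r (G.y (!b))) (sh u ι) * ev (om G τ (!b) j) z) := by
  have hn := G.hn
  have hcy := conc_cy hc hs (by omega) hz hu
  rw [show j * (n - 1) + (n - 1) = (j + 1) * (n - 1) by ring] at hcy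
  obtain ⟨ι₁, h2, h3⟩ := Sg.exists_seg' k hc hη
  have hι₁ : Edge 0 c η ι₁ := ⟨h2, h3⟩
  rw [om_eval0 G τ b j hq' (by positivity) le_rfl hη h1 hcy (edge_add hc hs hι₁ hι), conc]
  have hscl := (om_scl G τ b j).mono hη h1
  rw [cap_formula (e := 0) τ G.seg G.hr G.hrρ hscl (om_nrm G τ (!b) j) (m := n - 1)
    (by omega) (by omega) (Sp_mono (fun l hl => ⟨hl.1, hl.2.1⟩) hz.1) hu.1
    (Sp_mono (fun l hl => ⟨hl.1, fun σ hσ => (hl.2.1 σ hσ).2⟩) h2) hι.1 hc, ← ev_capE]
  congr 1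
  -- the cap product is a chain of points
  have hY : capE n τ.f G.r (G.y (!b)) u ι ∈ Sp k fun l : List (ℝ →ᵇ M) => l.length = 1 ∧
      ∀ w ∈ l, w ∈ P q (G.y (!b)) (s + G.r) := by
    refine map_mem _ (P := fun l => l.length = 1 ∧
      SmL (P q (G.y (!b)) (s + G.r)) (omε G τ (!b) j) (l.map (cutp G.r (G.y (!b)))))
      (fun l hl => ?_) (H977C.capf_mem (H977C.sh_fine hu.1 hι.1)
        fun L hL h0 => ⟨by rw [List.length_drop, hL.1]; omega, ?_⟩)
    · rw [mp_single]
      exact single_mem ⟨by rw [List.length_map]; exact hl.1, hl.2.1⟩ _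
    · exact cut_fine (x₀ := q) (y' := q') (T := s) (S := s) τ G.seg G.hr G.hrρ hscl.pos hscl.mod
        hscl.h3' hL.2 (by rintro rfl; simp at hL) h0
  have hsr : 0 ≤ s + G.r := by have := G.hr; positivity
  have key := eq_of_mem (k := k) (P := fun l : List (ℝ →ᵇ M) => l.length = 1 ∧
      ∀ w ∈ l, w ∈ P q (G.y (!b)) (s + G.r))
    (F := ev (om G τ (!b) j) ∘ₗ mp (catc c) ∘ₗ sh (k := k) z)
    (G := (ev (om G τ (!b) j) z) • ev (one1 k (ℝ →ᵇ M))) (fun l hl => by
      obtain ⟨v, rfl⟩ := List.length_eq_one_iff.1 hl.1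
      have hv := hl.2 v List.mem_cons_self
      have hzne : z ∈ Sp k Ne := Sp_mono (fun l hl => by
        rintro rfl
        have := hl.1
        simp at this) hz.1
      rw [LinearMap.comp_apply, LinearMap.comp_apply, LinearMap.smul_apply, ev_single, one1,
        if_pos List.length_singleton, one_mul, smul_eq_mul, mul_one, sh_point_right v hzne,
        mp_comp]
      exact om_cat G τ (!b) j (q := q) (q' := G.y (!b)) (by rw [Bool.not_not]; exact hq b)
        (G.hy _) hc hsr hη h0 hv hz) hY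
  rw [LinearMap.comp_apply, LinearMap.comp_apply, LinearMap.smul_apply, smul_eq_mul] at key
  rw [key]
  ring

/-- `om b 1` on a fine cycle. -/
theorem ev_om_one (b : Bool) {q : M} (hq : G.ρ₁ ≤ dist q (G.y (!b))) {T : ℝ} (hT : 0 ≤ T)
    {η : ℝ} (hη : 0 < η) (hη' : η ≤ omε G τ b 1) {u : Ch k (ℝ →ᵇ M)}
    (hu : Cy (P G.x₀ q T) η (n - 1) u) {ι : Ch k ℝ} (hι : Edge 0 T η ι) :
    ev (om G τ b 1) u = ev (Sg.aL n τ.f (one1 k _) G.r (G.y (!b))) (sh u ι) := by
  have hu' : Cy (P G.x₀ q T) η ((0 + 1) * (n - 1)) u := by rwa [Nat.zero_add, Nat.one_mul]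
  rw [om_eval0 G τ b 0 hq hT le_rfl hη hη' hu' hι, om_zero]

/-- A scale below finitely many scales. -/
theorem exists_omscale (j : ℕ) : ∃ η > 0, ∀ i ≤ j, ∀ b, η ≤ omε G τ b i := by
  induction j with
  | zero =>
    refine ⟨min (omε G τ true 0) (omε G τ false 0),
      lt_min (omε_pos G τ _ _) (omε_pos G τ _ _), fun i hi b => ?_⟩
    obtain rfl : i = 0 := by omega
    cases b
    · exact min_le_right _ _
    · exact min_le_left _ _
  | succ j ih =>
    obtain ⟨η, hη, h⟩ := ih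
    refine ⟨min η (min (omε G τ true (j + 1)) (omε G τ false (j + 1))),
      lt_min hη (lt_min (omε_pos G τ _ _) (omε_pos G τ _ _)), fun i hi b => ?_⟩
    rcases Nat.eq_or_lt_of_le hi with rfl | hi'
    · cases b
      · exact (min_le_right _ _).trans (min_le_right _ _)
      · exact (min_le_right _ _).trans (min_le_left _ _)
    · exact (min_le_left _ _).trans (h i (by omega) b)

/-- **The powers of a cycle are detected.** -/
theorem ev_pw_om {s η : ℝ} (hs : 0 ≤ s) (hη : 0 < η) {u : Ch k (ℝ →ᵇ M)}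
    (hu : Cy (P G.x₀ G.x₀ s) η (n - 1) u) (hne : ∀ b, ev (om G τ b 1) u ≠ 0) (j : ℕ)
    (hj : ∀ i ≤ j + 1, ∀ b, η ≤ omε G τ b i) (b : Bool) :
    ev (om G τ b j) (pw G.x₀ s u j) ≠ 0 := by
  have hn := G.hn
  induction j generalizing b with
  | zero =>
    rw [pw_zero, om_zero, ev_single, one1, if_pos List.length_singleton, one_mul]
    exact one_ne_zero
  | succ j ih =>
    have hp := pw_cy hs (by omega) hη hu j
    obtain ⟨ι, h3, h4⟩ := Sg.exists_seg' k hs hη
    have hι : Edge 0 s η ι := ⟨h3, h4⟩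
    rw [pw_succ, om_mul G τ b j (q := G.x₀) (q' := G.x₀) G.hx (G.hx _) (by positivity) hs hη
      (hj j (by omega) (!b)) (hj (j + 1) (by omega) b) hp hu hι,
      ← ev_om_one G τ b (G.hx _) hs hη (hj 1 (by omega) b) hu hι]
    exact mul_ne_zero (pow_ne_zero _ (neg_ne_zero.2 one_ne_zero))
      (mul_ne_zero (hne b) (ih (fun i hi b => hj i (by omega) b) (!b)))

end

end Vale.Agent.P216.H894
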