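import Vale.Agent.P216.H894.Rf
import Vale.Agent.P216.H977C.Sys
import Vale.Agent.P216.H985C.ShAssoc
import Vale.Agent.P216.H311.CrossB
import Vale.Agent.P216.H754B.Rev

/-!
# P216-C, C13-SIGN: powers of a cycle of loops, and their reversal

`pw j h = h * ... * h` (`j` factors), `W b j` evaluated on it is a product of values of `W _ 1` on
`h`, and the reversal of `pw j h` is `pw j` of the reversal of `h`.
-/

open Finsupp Set BoundedContinuousFunction

set_option linter.all false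

namespace Vale.Agent.P216.H894

open Vale.Agent.P216.Sl Vale.Agent.P216.PS Vale.Agent.P216.N929 Vale.Agent.P216.H977C
open Vale.Agent.P216.H754B (rv rv_apply rv_mem_P)
open Vale.Agent.P216.H250 (cat_apply')

variable {k : Type} [Field k]

/-! ### Chains -/

section Chains

variable {α β γ : Type}

theorem mp_comp (f : β → γ) (g : α → β) (c : Ch k α) : mp f (mp g c) = mp (fun x => f (g x)) c := by
  have := lin_ext_apply (f := (mp f).comp (mp (k := k) g)) (g := mp fun x => f (g x))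
    (fun l => by simp [Function.comp_def]) c
  simpa using this

theorem mp_self (c : Ch k α) : mp (fun x : α => x) c = c := by
  have := lin_ext_apply (f := mp (k := k) fun x : α => x) (g := LinearMap.id)
    (fun l => by simp) c
  simpa using this

theorem mp_congr_of {f g : α → β} {Q : α → Prop} (h : ∀ x, Q x → f x = g x) {c : Ch k α}
    (hc : c ∈ Sp k fun l => ∀ x ∈ l, Q x) : mp f c = mp g c :=
  eq_of_mem (fun l hl => by
    rw [mp_single, mp_single, List.map_congr_left fun x hx => h x (hl x hx)]) hc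

/-- the entries of a product -/
theorem sh_ent {P : α → Prop} {Q : β → Prop} {c : Ch k α} {c' : Ch k β}
    (hc : c ∈ Sp k fun l => ∀ x ∈ l, P x) (hc' : c' ∈ Sp k fun l => ∀ x ∈ l, Q x) :
    sh c c' ∈ Sp k fun L => ∀ x ∈ L, P x.1 ∧ Q x.2 :=
  sh_mem (fun a b L ha hb hG x hx => ⟨ha _ (hG.2 x hx).1, hb _ (hG.2 x hx).2⟩) hc hc'

end Chains

variable {M : Type} [MetricSpace M] [CompactSpace M] {x₀ a b c : M} {s t u : ℝ}

/-- Chains of lists of loops of duration `s`, `m + 1` entries. -/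
def InP (a b : M) (s : ℝ) (m : ℕ) (c : Ch k (ℝ →ᵇ M)) : Prop :=
  c ∈ Sp k fun l => l.length = m + 1 ∧ ∀ w ∈ l, w ∈ P a b s

theorem InP.ent {m : ℕ} {z : Ch k (ℝ →ᵇ M)} (h : InP a b s m z) :
    z ∈ Sp k fun l => ∀ w ∈ l, w ∈ P a b s := Sp_mono (fun l hl => hl.2) h

theorem InP.len {m : ℕ} {z : Ch k (ℝ →ᵇ M)} (h : InP a b s m z) :
    z ∈ Sp k (Ln (m + 1)) := Sp_mono (fun l hl => hl.1) h

theorem InP.of_cy {m : ℕ} {η : ℝ} {z : Ch k (ℝ →ᵇ M)} (h : Cy (P a b s) η m z) : InP a b s m z :=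
  Sp_mono (fun l hl => ⟨hl.1, hl.2.1⟩) h.1

theorem InP.conc {m m' : ℕ} {z y : Ch k (ℝ →ᵇ M)} (hs : 0 ≤ s) (ht : 0 ≤ t) (hz : InP a b s m z)
    (hy : InP b c t m' y) : InP a c (s + t) (m + m') (conc s z y) := by
  refine map_mem _ (P := fun L => L.length = m + m' + 1 ∧ (∀ x ∈ L, x.1 ∈ P a b s ∧
      x.2 ∈ P b c t)) (fun L hL => ?_) (sh_mem (fun p q L ha hb hG => ?_) hz hy)
  · rw [mp_single]
    refine single_mem ⟨by rw [List.length_map, hL.1], fun w hw => ?_⟩ _
    obtain ⟨x, hx, rfl⟩ := List.mem_map.1 hw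
    exact cat_mem hs ht (hL.2 x hx).1 (hL.2 x hx).2
  · refine ⟨?_, fun x hx => ⟨ha.2 _ (hG.2 x hx).1, hb.2 _ (hG.2 x hx).2⟩⟩
    have h1 := hG.1
    have h2 := ha.1
    have h3 := hb.1
    omega

theorem InP.rv {m : ℕ} {z : Ch k (ℝ →ᵇ M)} (h : InP a b s m z) :
    InP b a s m (mp (rv s) z) := by
  refine map_mem _ (fun l hl => ?_) h
  rw [mp_single]
  refine single_mem ⟨by rw [List.length_map, hl.1], fun w hw => ?_⟩ _
  obtain ⟨x, hx, rfl⟩ := List.mem_map.1 hw
  exact rv_mem_P (hl.2 x hx) le_rfl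

/-- Associativity of concatenation. -/
theorem conc_assoc {d : M} (hs : 0 ≤ s) (ht : 0 ≤ t) (hu : 0 ≤ u) {m₁ m₂ m₃ : ℕ}
    {x y z : Ch k (ℝ →ᵇ M)} (hx : InP a b s m₁ x) (hy : InP b c t m₂ y) (hz : InP c d u m₃ z) :
    conc (s + t) (conc s x y) z = conc s x (conc t y z) := by
  have e1 : sh (conc s x y) z = mp (Prod.map (catc s) fun w => w) (sh (sh x y) z) := by
    rw [← sh_mp, mp_self]
    rfl
  have e2 : sh x (conc t y z) = mp (Prod.map (fun w => w) (catc t)) (sh x (sh y z)) := by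
    rw [← sh_mp, mp_self]
    rfl
  have h1 : sh x y ∈ Sp k fun L : List ((ℝ →ᵇ M) × (ℝ →ᵇ M)) => ∀ q ∈ L,
      q.1 ∈ P a b s ∧ q.2 ∈ P b c t := sh_ent hx.ent hy.ent
  have h2 : sh (sh x y) z ∈ Sp k fun L : List (((ℝ →ᵇ M) × (ℝ →ᵇ M)) × (ℝ →ᵇ M)) => ∀ p ∈ L,
      (p.1.1 ∈ P a b s ∧ p.1.2 ∈ P b c t) ∧ p.2 ∈ P c d u :=
    sh_ent (P := fun q : (ℝ →ᵇ M) × (ℝ →ᵇ M) => q.1 ∈ P a b s ∧ q.2 ∈ P b c t) h1 hz.ent
  have h3 : conc (s + t) (conc s x y) z =
      mp (fun p => catc (s + t) (Prod.map (catc s) (fun w => w) p)) (sh (sh x y) z) := by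
    rw [← mp_comp, ← e1]
    rfl
  have h4 : conc s x (conc t y z) =
      mp (fun p => catc s (Prod.map (fun w => w) (catc t) (asc p))) (sh (sh x y) z) := by
    have h5 := mp_comp (k := k) (fun p => catc s (Prod.map (fun w => w) (catc t) p))
      (asc (α := ℝ →ᵇ M) (β := ℝ →ᵇ M) (γ := ℝ →ᵇ M)) (sh (sh x y) z)
    rw [sh_assoc, ← mp_comp (catc s) (Prod.map (fun w => w) (catc t)), ← e2] at h5
    exact h5
  rw [h3, h4]
  refine eq_of_mem (P := fun L : List (((ℝ →ᵇ M) × (ℝ →ᵇ M)) × (ℝ →ᵇ M)) => ∀ p ∈ L,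
    (p.1.1 ∈ P a b s ∧ p.1.2 ∈ P b c t) ∧ p.2 ∈ P c d u) (fun L hL => ?_) h2
  rw [mp_single, mp_single]
  congr 1
  refine List.map_congr_left fun p hp => ?_
  have hp := hL p hp
  have := Sl.cat_assoc' (t := s) (s := s + t) (u' := u) (w := p.1.1) (v := p.1.2) (v' := p.2) hs
    (by linarith) hu hp.1.1 (by rw [add_sub_cancel_left]; exact hp.1.2) hp.2
  rw [add_sub_cancel_left] at this
  exact this

/-- The reversal of a concatenation. -/
theorem rv_cat {w v : ℝ →ᵇ M} (hw : w ∈ P a b s) (hv : v ∈ P b c t) :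
    rv (s + t) (cat s w v) = cat t (rv t v) (rv s w) := by
  ext u
  rw [rv_apply, cat_apply' hw hv, cat_apply' (rv_mem_P hv le_rfl) (rv_mem_P hw le_rfl)]
  by_cases h1 : u ≤ t
  · rw [if_pos h1, rv_apply]
    by_cases h2 : s + t - u ≤ s
    · rw [if_pos h2]
      have h3 : u = t := by linarith
      subst h3
      rw [add_sub_cancel_right, sub_self, eq_right hw le_rfl, eq_left hv le_rfl]
    · rw [if_neg h2]
      congr 1
      ring
  · rw [if_neg h1, if_pos (by linarith), rv_apply]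
    congr 1
    ring

theorem rv_conc {m m' : ℕ} {z y : Ch k (ℝ →ᵇ M)} (hz : InP a b s m z) (hy : InP b c t m' y)
    (he : Even (m * m')) :
    mp (rv (s + t)) (conc s z y) = conc t (mp (rv t) y) (mp (rv s) z) := by
  have e1 := sh_comm (hz.rv).len (hy.rv).len
  rw [he.neg_one_pow, one_smul] at e1
  have h2 : sh z y ∈ Sp k fun L : List ((ℝ →ᵇ M) × (ℝ →ᵇ M)) => ∀ q ∈ L,
      q.1 ∈ P a b s ∧ q.2 ∈ P b c t := sh_ent hz.ent hy.ent
  have h3 : mp (rv (s + t)) (conc s z y) = mp (fun p => rv (s + t) (catc s p)) (sh z y) := by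
    rw [conc, mp_comp]
  have h4 : conc t (mp (rv t) y) (mp (rv s) z) =
      mp (fun p => catc t (Prod.swap (Prod.map (rv s) (rv t) p))) (sh z y) := by
    rw [conc, ← e1, sh_mp, mp_comp, mp_comp]
  rw [h3, h4]
  refine eq_of_mem (P := fun L : List ((ℝ →ᵇ M) × (ℝ →ᵇ M)) => ∀ p ∈ L,
    p.1 ∈ P a b s ∧ p.2 ∈ P b c t) (fun L hL => ?_) h2
  rw [mp_single, mp_single]
  congr 1
  exact List.map_congr_left fun p hp => rv_cat (hL p hp).1 (hL p hp).2

theorem conc_cst_right {m : ℕ} {z : Ch k (ℝ →ᵇ M)} (hz : InP a b s m z) :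
    conc s z (single [cst b] 1) = z := by
  rw [conc, sh_point_right _ (Sp_mono (fun l hl => by
    rintro rfl
    have := hl.1
    simp at this) hz), mp_comp]
  conv_rhs => rw [← mp_self z]
  exact mp_congr_of (fun w hw => H311.cat_cst hw) hz.ent

theorem cst_cat {w : ℝ →ᵇ M} (hw : w ∈ P a b s) : cat 0 (cst a) w = w := by
  have h0 : cst a ∈ P a a (0 : ℝ) :=
    ⟨lip_cst a, fun u _ => by rw [cst_apply], fun u _ => by rw [cst_apply]⟩
  ext u
  rw [cat_apply' h0 hw]
  split_ifs with h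
  · rw [cst_apply, eq_left hw h]
  · rw [sub_zero]

theorem conc_cst_left {m : ℕ} {z : Ch k (ℝ →ᵇ M)} (hz : InP a b s m z) :
    conc 0 (single [cst a] 1) z = z := by
  rw [conc, sh_point_left _ (Sp_mono (fun l hl => by
    rintro rfl
    have := hl.1
    simp at this) hz), mp_comp]
  conv_rhs => rw [← mp_self z]
  exact mp_congr_of (fun w hw => cst_cat hw) hz.ent

/-! ### Powers -/

/-- The powers of a chain of loops of duration `s`. -/
noncomputable def pw (x₀ : M) (s : ℝ) (h : Ch k (ℝ →ᵇ M)) : ℕ → Ch k (ℝ →ᵇ M)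
  | 0 => single [cst x₀] 1
  | j + 1 => conc (j * s) (pw x₀ s h j) h

theorem pw_zero (h : Ch k (ℝ →ᵇ M)) : pw x₀ s h 0 = single [cst x₀] 1 := rfl

theorem pw_succ (h : Ch k (ℝ →ᵇ M)) (j : ℕ) :
    pw x₀ s h (j + 1) = conc (j * s) (pw x₀ s h j) h := rfl

theorem cst_InP (x₀ : M) (s : ℝ) : InP x₀ x₀ s 0 (single [cst x₀] (1 : k)) :=
  single_mem ⟨rfl, fun w hw => by
    rw [List.mem_singleton.1 hw]
    exact ⟨lip_cst x₀, fun u _ => by rw [cst_apply], fun u _ => by rw [cst_apply]⟩⟩ 1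

variable {D : ℕ} {h : Ch k (ℝ →ᵇ M)}

theorem pw_InP (hs : 0 ≤ s) (hh : InP x₀ x₀ s D h) (j : ℕ) :
    InP x₀ x₀ (j * s) (j * D) (pw x₀ s h j) := by
  induction j with
  | zero =>
    rw [pw_zero, Nat.zero_mul]
    exact cst_InP x₀ _
  | succ j ih =>
    have := InP.conc (by positivity) hs ih hh
    rw [pw_succ]
    convert this using 1
    · push_cast; ring
    · ring

theorem pw_cy (hs : 0 ≤ s) (hD : 1 ≤ D) {η : ℝ} (hη : 0 < η) (hh : Cy (P x₀ x₀ s) η D h)
    (j : ℕ) : Cy (P x₀ x₀ (j * s)) η (j * D) (pw x₀ s h j) := by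
  induction j with
  | zero =>
    rw [pw_zero, Nat.zero_mul]
    have hf : Fine (P x₀ x₀ (((0 : ℕ) : ℝ) * s)) η [cst x₀] := by
      refine ⟨fun w hw => ?_, fun w hw w' hw' => ?_⟩
      · rw [List.mem_singleton.1 hw]
        exact ⟨lip_cst x₀, fun u _ => by rw [cst_apply], fun u _ => by rw [cst_apply]⟩
      · rw [List.mem_singleton.1 hw, List.mem_singleton.1 hw', dist_self]
        exact hη
    exact ⟨single_mem ⟨rfl, hf⟩ 1, bd_mem' (single_mem (P := Ln 1) (l := [cst x₀]) rfl _)⟩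
  | succ j ih =>
    have := conc_cy (by positivity) hs hD ih hh
    rw [pw_succ]
    convert this using 1
    · congr 1
      push_cast
      ring
    · ring

/-- `h * pw j h = pw j h * h`. -/
theorem pw_comm (hs : 0 ≤ s) (hh : InP x₀ x₀ s D h) (j : ℕ) :
    conc s h (pw x₀ s h j) = conc (j * s) (pw x₀ s h j) h := by
  induction j with
  | zero => rw [pw_zero, Nat.cast_zero, zero_mul, conc_cst_right hh, conc_cst_left hh]
  | succ j ih =>
    have hp := pw_InP hs hh j
    have e1 := conc_assoc hs (by positivity) hs hh hp hh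
    rw [ih] at e1
    rw [pw_succ, ← e1]
    congr 1
    push_cast
    ring

/-- **The reversal of a power.** -/
theorem rv_pw (hs : 0 ≤ s) (hh : InP x₀ x₀ s D h) (hD : Even D) (j : ℕ) :
    mp (rv (j * s)) (pw x₀ s h j) = pw x₀ s (mp (rv s) h) j := by
  induction j with
  | zero =>
    rw [pw_zero, pw_zero, mp_single, List.map_cons, List.map_nil]
    congr 2
  | succ j ih =>
    have hp := pw_InP hs hh j
    have e1 := rv_conc hp hh (hD.mul_left _)
    have h1 : ((j + 1 : ℕ) : ℝ) * s = j * s + s := by push_cast; ring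
    rw [pw_succ, pw_succ, ← pw_comm hs hh.rv j, ← ih, ← e1, h1]

/-! ### Evaluation -/

/-- The products of the values. -/
def pp (w : Bool → k) : ℕ → Bool → k
  | 0, _ => 1
  | j + 1, b => w b * pp w j (!b)

theorem pp_ne {w : Bool → k} (hw : ∀ b, w b ≠ 0) (j : ℕ) (b : Bool) : pp w j b ≠ 0 := by
  induction j generalizing b with
  | zero => exact one_ne_zero
  | succ j ih => exact mul_ne_zero (hw b) (ih _)

theorem pp_neg (w : Bool → k) (j : ℕ) (b : Bool) :
    pp (fun b => -w b) j b = (-1) ^ j * pp w j b := by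
  induction j generalizing b with
  | zero => rw [pp, pp, pow_zero, one_mul]
  | succ j ih => rw [pp, pp, ih, pow_succ]; ring

section Eval

variable {n e : ℕ} (G : Geo M n) (τ : Tau k M n G.ρ₁) (E : Eta k M e) (hD : D + 1 = n + e)

/-- A scale below finitely many scales. -/
theorem exists_scale (j : ℕ) : ∃ η > 0, ∀ i ≤ j, ∀ b, η ≤ Wε G τ E hD b i := by
  induction j with
  | zero =>
    refine ⟨min (Wε G τ E hD true 0) (Wε G τ E hD false 0),
      lt_min (Wε_pos G τ E hD _ _) (Wε_pos G τ E hD _ _), fun i hi b => ?_⟩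
    obtain rfl : i = 0 := by omega
    cases b
    · exact min_le_right _ _
    · exact min_le_left _ _
  | succ j ih =>
    obtain ⟨η, hη, h⟩ := ih
    refine ⟨min η (min (Wε G τ E hD true (j + 1)) (Wε G τ E hD false (j + 1))),
      lt_min hη (lt_min (Wε_pos G τ E hD _ _) (Wε_pos G τ E hD _ _)), fun i hi b => ?_⟩
    rcases Nat.eq_or_lt_of_le hi with rfl | hi'
    · cases b
      · exact (min_le_right _ _).trans (min_le_right _ _)
      · exact (min_le_right _ _).trans (min_le_left _ _)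
    · exact (min_le_left _ _).trans (h i (by omega) b)

/-- **The value of `W b j` on a power.** -/
theorem ev_pw (hE : AddE E.f) (he : 1 ≤ e) (hen : e + 1 < n) (hn : Even n) (hDe : Even D)
    {s : ℕ} {η : ℝ} (hη : 0 < η) {h : Ch k (ℝ →ᵇ M)} (hh : Cy (P G.x₀ G.x₀ s) η D h) (j : ℕ)
    (hj : ∀ i ≤ j + 1, ∀ b, η ≤ Wε G τ E hD b i) (b : Bool) :
    ev (W G τ E hD b j) (pw G.x₀ s h j) = pp (fun b => ev (W G τ E hD b 1) h) j b := by
  induction j generalizing b with
  | zero =>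
    rw [pw_zero, W_zero, ev_single, pp, one1, if_pos List.length_singleton, one_mul]
  | succ j ih =>
    have hp := pw_InP (s := (s : ℝ)) (Nat.cast_nonneg s) (InP.of_cy hh) j
    have e1 := W_mul G τ E hD hE he hen hn hDe b j (c := j * s) (s := s) hη
      (hj (j + 1) (by omega) b) (hj 1 (by omega) b) (z := pw G.x₀ s h j) (u := h) (by
        push_cast
        exact hp) hh
    rw [pw_succ, conc, pp, ← ih (fun i hi b => hj i (by omega) b) (!b), ← e1]
    push_cast
    rfl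

end Eval

end Vale.Agent.P216.H894
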