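import Vale.Agent.P216.H977C.Cap

/-!
# P216-C, C13-SIGN: the classes on products of loops at the base point

`W b (j + 1)` evaluated on `z · u` (`u` a fine cycle of degree `D` of loops at `x₀`) is
`⟨W b 1, u⟩ ⟨W (!b) j, z⟩`.
-/

open Finsupp Set BoundedContinuousFunction

set_option linter.all false

namespace Vale.Agent.P216.H894

open Vale.Agent.P216.Sl Vale.Agent.P216.PS Vale.Agent.P216.N929 Vale.Agent.P216.H977C

section

variable {k : Type} [Field k] {M : Type} [MetricSpace M] [CompactSpace M]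
variable {n e D : ℕ} (G : Geo M n) (τ : Tau k M n G.ρ₁) (E : Eta k M e) (hD : D + 1 = n + e)

/-- **On lists**: `W b j` of a concatenation, when the second paths change less than `n - 1`
times. -/
theorem W_cat' (b : Bool) (j : ℕ) {q q' : M} (hq : G.ρ₁ ≤ dist q (G.y (!b)))
    (hq' : G.ρ₁ ≤ dist q' (G.y (!b))) {c : ℕ} {s : ℝ} (hs : 0 ≤ s)
    {l : List ((ℝ →ᵇ M) × (ℝ →ᵇ M))} (hl : l.length = j * D + 1)
    (hm : ∀ x ∈ l, x.1 ∈ P G.x₀ q c ∧ x.2 ∈ P q q' s)
    (hc : chg (l.map Prod.snd) + 1 < n) :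
    W G τ E hD b j (l.map (catc c)) = W G τ E hD b j (l.map Prod.fst) := by
  rcases j with _ | j
  · rw [W_zero, one1, one1, List.length_map, List.length_map]
  have hne : l ≠ [] := by rintro rfl; simp at hl
  obtain ⟨N, hN, hW⟩ := W_succ G τ E hD b j
  have hN0 : (0 : ℝ) < (N : ℝ) + 1 := by positivity
  have hδ0 : (0 : ℝ) < 1 / ((N : ℝ) + 1) := by positivity
  rw [hW, stp_eq (T := c + s) (x₀ := G.x₀) (y' := q') (N := c * (N + 1) + ⌈s⌉₊ * (N + 1)) τ hq' hδ0 ?_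
      (by simpa using hne) ?_,
    stp_eq (T := c) (x₀ := G.x₀) (y' := q) (N := c * (N + 1)) τ hq hδ0 ?_
      (by simpa using hne) ?_, fib_mesh, fib_mesh, Finset.sum_range_add]
  rotate_left
  · push_cast
    rw [mul_one_div, mul_div_assoc, div_self hN0.ne', mul_one]
  · intro w hw
    obtain ⟨x, hx, rfl⟩ := List.mem_map.1 hw
    exact (hm x hx).1
  · have := Nat.le_ceil s
    push_cast
    rw [← add_mul, mul_assoc, mul_one_div, div_self hN0.ne', mul_one]
    linarith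
  · intro w hw
    obtain ⟨x, hx, rfl⟩ := List.mem_map.1 hw
    exact cat_mem (Nat.cast_nonneg c) hs (hm x hx).1 (hm x hx).2
  set δ : ℝ := 1 / ((N : ℝ) + 1) with hδ
  have hcδ : ((c * (N + 1) : ℕ) : ℝ) * δ = c := by
    rw [hδ]
    push_cast
    rw [mul_one_div, mul_div_assoc, div_self hN0.ne', mul_one]
  have key0 : ∀ (i : ℕ) (L : List (((ℝ →ᵇ M) × (ℝ →ᵇ M)) × ℝ)),
      Gr l [(i : ℝ) * δ, ((i + 1 : ℕ) : ℝ) * δ] L → ∀ p ∈ L, p.1 ∈ l ∧
        ((i : ℝ) * δ ≤ p.2 ∧ p.2 ≤ ((i + 1 : ℕ) : ℝ) * δ) := by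
    intro i L hL p hp
    refine ⟨(hL.2 p hp).1, ?_⟩
    have := (hL.2 p hp).2
    have h2 : (i : ℝ) * δ ≤ ((i + 1 : ℕ) : ℝ) * δ := by push_cast; nlinarith
    simp only [List.mem_cons, List.not_mem_nil, or_false] at this
    rcases this with h | h <;> rw [h]
    · exact ⟨le_rfl, h2⟩
    · exact ⟨h2, le_rfl⟩
  have hmem : ∀ i : ℕ, edge k δ i ∈ Sp k (fun t => t = [(i : ℝ) * δ, ((i + 1 : ℕ) : ℝ) * δ]) :=
    fun i => single_mem (P := fun t => t = [(i : ℝ) * δ, ((i + 1 : ℕ) : ℝ) * δ]) rfl 1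
  have hz : ∀ i ∈ Finset.range (⌈s⌉₊ * (N + 1)),
      N929.fib (edge k δ (c * (N + 1) + i)) (intg n τ.f (A G τ E hD (!b) j) G.r (G.y (!b)))
        (l.map (catc c)) = 0 := by
    intro i _
    rw [fib_map, N929.fib]
    refine ev_zero_of (fun L hL => ?_) (sh_chg_mem (k := k) Prod.snd l (hmem _))
    obtain ⟨t, rfl, hG, hch⟩ := hL
    rw [intg_eq']
    have e1 : (L.map (Prod.map (catc (c : ℝ)) id)).map (evp (G.y (!b))) =
        (L.map (Prod.map Prod.snd id)).map fun q : (ℝ →ᵇ M) × ℝ =>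
          ((q.1 (q.2 - c) : M), G.y (!b)) := by
      rw [List.map_map, List.map_map]
      refine List.map_congr_left fun p hp => ?_
      obtain ⟨h1, h2, h3⟩ := key0 _ L hG p hp
      have h4 : (c : ℝ) ≤ p.2 := by
        refine le_trans ?_ h2
        rw [← hcδ]
        exact mul_le_mul_of_nonneg_right (by push_cast; linarith [(Nat.cast_nonneg i : (0 : ℝ) ≤ i)])
          hδ0.le
      exact congrArg (fun m => (m, G.y (!b))) (catc_right (hm _ h1).1 (hm _ h1).2 h4)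
    have hlen : n + 1 ≤ L.length := by
      have h5 := hG.1
      have h6 := deg_succ hD j
      simp only [List.length_cons, List.length_nil] at h5
      omega
    have h7 : τ.f (((L.map (Prod.map (catc (c : ℝ)) id)).map (evp (G.y (!b)))).take (n + 1)) =
        0 := by
      refine Nrm_zero τ.nrm ?_
      rw [List.length_take, List.length_map, List.length_map, min_eq_left hlen, e1]
      have h8 := chg_take (n + 1) ((L.map (Prod.map Prod.snd id)).map
        fun q : (ℝ →ᵇ M) × ℝ => ((q.1 (q.2 - c) : M), G.y (!b)))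
      have h9 := chg_map (fun q : (ℝ →ᵇ M) × ℝ => ((q.1 (q.2 - c) : M), G.y (!b)))
        (L.map (Prod.map Prod.snd id))
      have h10 := chg_le_length [((c * (N + 1) + i : ℕ) : ℝ) * δ,
        ((c * (N + 1) + i + 1 : ℕ) : ℝ) * δ]
      simp only [List.length_cons, List.length_nil] at h10
      omega
    rw [h7, zero_mul]
  rw [Finset.sum_eq_zero hz, add_zero]
  refine Finset.sum_congr rfl fun i hi => ?_
  rw [fib_map, fib_map]
  refine fib_congr (hmem i) fun t ht L hL => ?_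
  subst ht
  have hi' : ((i + 1 : ℕ) : ℝ) * δ ≤ c := by
    rw [← hcδ]
    exact mul_le_mul_of_nonneg_right (by exact_mod_cast Finset.mem_range.1 hi) hδ0.le
  rw [intg_eq', intg_eq', List.map_map, List.map_map, List.map_map, List.map_map]
  have e1 : L.map (evp (G.y (!b)) ∘ Prod.map (catc (c : ℝ)) id) =
      L.map (evp (G.y (!b)) ∘ Prod.map Prod.fst id) :=
    List.map_congr_left fun p hp => by
      obtain ⟨h1, h2, h3⟩ := key0 _ L hL p hp
      exact evp_left (hm _ h1).1 (hm _ h1).2 (h3.trans hi')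
  have e2 : L.map (cutp G.r (G.y (!b)) ∘ Prod.map (catc (c : ℝ)) id) =
      L.map (cutp G.r (G.y (!b)) ∘ Prod.map Prod.fst id) :=
    List.map_congr_left fun p hp => by
      obtain ⟨h1, h2, h3⟩ := key0 _ L hL p hp
      exact cutp_left G.hr (hm _ h1).1 (hm _ h1).2 (h3.trans hi')
  rw [e1, e2]

/-- **(E2)**: evaluation of `A b j` on `z · Y`. -/
theorem A_cat' (hE : AddE E.f) (he : 1 ≤ e) (hen : e + 1 < n) (b : Bool) (j : ℕ) {q q' : M}
    (hq : G.ρ₁ ≤ dist q (G.y (!b))) (hq' : G.ρ₁ ≤ dist q' (G.y (!b))) {c : ℕ} {s : ℝ}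
    (hs : 0 ≤ s) {z Y : Ch k (ℝ →ᵇ M)}
    (hz : z ∈ Sp k fun l => l.length = j * D + 1 ∧ ∀ w ∈ l, w ∈ P G.x₀ q c)
    (hY : Y ∈ Sp k fun l => l.length = e + 1 ∧ ∀ w ∈ l, w ∈ P q q' s) :
    ev (A G τ E hD b j) (mp (catc c) (sh z Y)) =
      (-1) ^ ((j * D + 1 + 1) * e) * (ev E.f Y * ev (W G τ E hD b j) z) := by
  rw [ev_mp]
  -- on the lists of the product
  have key : ev (fun l => A G τ E hD b j (l.map (catc c))) (sh z Y) =
      ev (fun l => N929.cup e E.f (W G τ E hD b j) (l.map Prod.fst) +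
        (fun l : List ((ℝ →ᵇ M) × (ℝ →ᵇ M)) => E.f ((l.take (e + 1)).map Prod.snd) *
          (fun l' : List ((ℝ →ᵇ M) × (ℝ →ᵇ M)) => W G τ E hD b j (l'.map Prod.fst))
            (l.drop e)) l) (sh z Y) := by
    refine ev_congr (fun L hL => ?_) (sh_snd_mem hz hY)
    obtain ⟨s', t', ⟨hs1, hs2⟩, ⟨ht1, ht2⟩, hG, hch⟩ := hL
    have hlen : L.length = j * D + e + 1 := by
      have := hG.1
      omega
    have hmem : ∀ x ∈ L, x.1 ∈ P G.x₀ q c ∧ x.2 ∈ P q q' s :=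
      fun x hx => ⟨hs2 _ (hG.2 x hx).1, ht2 _ (hG.2 x hx).2⟩
    have hcl := chg_le_length t'
    have h1 : W G τ E hD b j ((L.drop e).map (catc c)) =
        W G τ E hD b j ((L.drop e).map Prod.fst) := by
      refine W_cat' G τ E hD b j hq hq' hs (by rw [List.length_drop, hlen]; omega)
        (fun x hx => hmem x (List.mem_of_mem_drop hx)) ?_
      have := chg_drop e (L.map Prod.snd)
      rw [List.map_drop]
      omega
    have h2 : E.f ((L.take (e + 1)).map (catc c)) =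
        E.f ((L.take (e + 1)).map Prod.fst) + E.f ((L.take (e + 1)).map Prod.snd) := by
      refine hE _ _ _ c s hs _ ?_ fun x hx => hmem x (List.mem_of_mem_take hx)
      intro h0
      have := congrArg List.length h0
      rw [List.length_take, List.length_nil] at this
      omega
    rw [A, N929.cup, N929.cup, ← List.map_take, ← List.map_drop, h1, h2, ← List.map_take,
      ← List.map_drop, add_mul]
  rw [key, ev_add_fun]
  have hz' : ev (fun l : List ((ℝ →ᵇ M) × (ℝ →ᵇ M)) =>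
      N929.cup e E.f (W G τ E hD b j) (l.map Prod.fst)) (sh z Y) = 0 := by
    have hN : Nrm (N929.cup e E.f (W G τ E hD b j)) := nrm_cup E.nrm (W_nrm G τ E hD b j)
    have hm1 : ∀ s', (s'.length = j * D + 1 ∧ ∀ w ∈ s', w ∈ P G.x₀ q c) →
        ev (fun l : List ((ℝ →ᵇ M) × (ℝ →ᵇ M)) =>
          N929.cup e E.f (W G τ E hD b j) (l.map Prod.fst)) (sh (single s' (1 : k)) Y) = 0 := by
      intro s' hs'
      have := eq_of_mem (F := ev (fun l : List ((ℝ →ᵇ M) × (ℝ →ᵇ M)) =>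
          N929.cup e E.f (W G τ E hD b j) (l.map Prod.fst)) ∘ₗ
          (sh (k := k) (single s' (1 : k)))) (G := 0) (fun t' ht' => by
        rw [LinearMap.comp_apply, LinearMap.zero_apply, sh_single]
        refine ev_zero_of (P := fun l => (∀ j, ((l.drop j).map Prod.fst).IsChain (· ≠ ·) →
          l.length ≤ s'.length + j) ∧ Gr s' t' l) (fun L hL => ?_) ?_
        · refine hN _ fun hc => ?_
          have h1 := hL.1 0 (by simpa using hc)
          have h2 := hL.2.1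
          omega
        · have a1 := Sh_chain_fst (k := k) _ s' t' rfl
          have a2 := Sh_mem (k := k) _ s' t' rfl
          rw [Finsupp.mem_supported] at a1 a2 ⊢
          exact fun l hl => ⟨a1 hl, a2 hl⟩) hY
      simpa using this
    have := eq_of_mem (F := ev (fun l : List ((ℝ →ᵇ M) × (ℝ →ᵇ M)) =>
          N929.cup e E.f (W G τ E hD b j) (l.map Prod.fst)) ∘ₗ
          (sh (k := k) (α := ℝ →ᵇ M) (β := ℝ →ᵇ M)).flip Y) (G := 0) (fun s' hs' => by
        rw [LinearMap.comp_apply, LinearMap.flip_apply, LinearMap.zero_apply]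
        exact hm1 s' hs') hz
    simpa using this
  rw [hz', zero_add]
  -- the second term
  have h2 : ∀ s' : List (ℝ →ᵇ M), s'.length = j * D + 1 → ∀ t' : List (ℝ →ᵇ M),
      t'.length = e + 1 →
      ev (fun l : List ((ℝ →ᵇ M) × (ℝ →ᵇ M)) => E.f ((l.take (e + 1)).map Prod.snd) *
          (fun l' : List ((ℝ →ᵇ M) × (ℝ →ᵇ M)) => W G τ E hD b j (l'.map Prod.fst))
            (l.drop e)) (Sh s' t' : Ch k ((ℝ →ᵇ M) × (ℝ →ᵇ M))) =
      (-1) ^ ((j * D + 1 + 1) * e) * (E.f t' * W G τ E hD b j s') := by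
    intro s' hs' t' ht'
    have hs0 : s' ≠ [] := by rintro rfl; simp at hs'
    rw [front_right (f := E.f) E.nrm (fun l' : List ((ℝ →ᵇ M) × (ℝ →ᵇ M)) =>
      W G τ E hD b j (l'.map Prod.fst)) e s' t' (by omega) hs0 (by rintro rfl; simp at ht'),
      if_pos (by omega), hs', List.take_of_length_le (by omega)]
    obtain ⟨x, hx⟩ : ∃ x, t'.drop e = [x] := by
      have : (t'.drop e).length = 1 := by rw [List.length_drop]; omega
      exact List.length_eq_one_iff.1 this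
    rw [hx, Sh_point_right x hs0, ev_single, one_mul, List.map_map]
    have : (Prod.fst ∘ fun a : ℝ →ᵇ M => (a, x)) = id := rfl
    rw [this, List.map_id]
  have h3 : ∀ s' : List (ℝ →ᵇ M), s'.length = j * D + 1 →
      ev (fun l : List ((ℝ →ᵇ M) × (ℝ →ᵇ M)) => E.f ((l.take (e + 1)).map Prod.snd) *
          (fun l' : List ((ℝ →ᵇ M) × (ℝ →ᵇ M)) => W G τ E hD b j (l'.map Prod.fst))
            (l.drop e)) (sh (single s' (1 : k)) Y) =
      (-1) ^ ((j * D + 1 + 1) * e) * (ev E.f Y * W G τ E hD b j s') := by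
    intro s' hs'
    have := eq_of_mem (F := ev (fun l : List ((ℝ →ᵇ M) × (ℝ →ᵇ M)) =>
        E.f ((l.take (e + 1)).map Prod.snd) *
          (fun l' : List ((ℝ →ᵇ M) × (ℝ →ᵇ M)) => W G τ E hD b j (l'.map Prod.fst))
            (l.drop e)) ∘ₗ (sh (k := k) (single s' (1 : k))))
      (G := ((-1) ^ ((j * D + 1 + 1) * e) * W G τ E hD b j s') • ev E.f) (fun t' ht' => by
        rw [LinearMap.comp_apply, sh_single, h2 s' hs' t' ht'.1, LinearMap.smul_apply,
          ev_single, smul_eq_mul]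
        ring) hY
    rw [LinearMap.comp_apply, LinearMap.smul_apply, smul_eq_mul] at this
    rw [this]
    ring
  have h4 := eq_of_mem (F := ev (fun l : List ((ℝ →ᵇ M) × (ℝ →ᵇ M)) =>
        E.f ((l.take (e + 1)).map Prod.snd) *
          (fun l' : List ((ℝ →ᵇ M) × (ℝ →ᵇ M)) => W G τ E hD b j (l'.map Prod.fst))
            (l.drop e)) ∘ₗ (sh (k := k) (α := ℝ →ᵇ M) (β := ℝ →ᵇ M)).flip Y)
      (G := ((-1) ^ ((j * D + 1 + 1) * e) * ev E.f Y) • ev (W G τ E hD b j)) (fun s' hs' => by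
        rw [LinearMap.comp_apply, LinearMap.flip_apply, h3 s' hs'.1, LinearMap.smul_apply,
          ev_single, smul_eq_mul]
        ring) hz
  rw [LinearMap.comp_apply, LinearMap.flip_apply, LinearMap.smul_apply, smul_eq_mul] at h4
  rw [h4]
  ring


/-- `W b j` is a cocycle on the paths from `x₀` to any point away from the crossing point. -/
theorem W_coc0 (b : Bool) (j : ℕ) {q : M} (hq : G.ρ₁ ≤ dist q (G.y (!b))) (T : ℝ) :
    Coc (P G.x₀ q T) (Wε G τ E hD b j) (j * D) (W G τ E hD b j) := by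
  rcases j with _ | j
  · rw [W_zero, Nat.zero_mul]
    exact coc_one1 _ _
  · obtain ⟨N, hN, hW⟩ := W_succ G τ E hD b j
    have h1 := stp_coc' (y' := q) τ G.seg G.hr G.hrρ (W_scl G τ E hD b j) hq (G.hx _)
      (by have := G.hn; omega) (fun T => A_coc G τ E hD (!b) j T)
      (δ := 1 / ((N : ℝ) + 1)) (by positivity) hN T
    have e' : n + (j * D + e) - 1 = (j + 1) * D := by
      have := deg_succ hD j
      omega
    rw [hW]
    rwa [e'] at h1

/-- Evaluation of `W b (j + 1)` on fine cycles of paths from `x₀` to `q`. -/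
theorem W_eval0 (b : Bool) (j : ℕ) {q : M} (hq : G.ρ₁ ≤ dist q (G.y (!b))) {T T' : ℝ}
    (hT : 0 ≤ T) (hTT : T ≤ T') {η : ℝ} (hη : 0 < η) (hη' : η ≤ Wε G τ E hD b (j + 1))
    {z : Ch k (ℝ →ᵇ M)} (hz : Cy (P G.x₀ q T) η ((j + 1) * D) z) {ι : Ch k ℝ}
    (hι : Edge 0 T' η ι) :
    ev (W G τ E hD b (j + 1)) z =
      ev (Sg.aL n τ.f (A G τ E hD (!b) j) G.r (G.y (!b))) (sh z ι) := by
  obtain ⟨N, hN, hW⟩ := W_succ G τ E hD b j
  rw [hW]
  exact stp_eval τ G.seg G.hr G.hrρ G.hn (deg_succ hD j) (W_scl G τ E hD b j) hq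
    (A_coc G τ E hD (!b) j) (by positivity) hN hT hTT hη hη' hz hι

theorem map_mesh {δ c : ℝ} {a b : ℕ} (h : (a : ℝ) * δ = c) :
    (N929.mesh k δ (a + b) : Ch k ℝ) =
      N929.mesh k δ a + mp (fun σ => c + σ) (N929.mesh k δ b) := by
  rw [N929.mesh, N929.mesh, N929.mesh, Finset.sum_range_add, map_sum]
  congr 1
  refine Finset.sum_congr rfl fun i _ => ?_
  rw [edge, edge, mp_single, List.map_cons, List.map_cons, List.map_nil]
  congr 2
  · push_cast
    rw [← h]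
    ring
  · congr 1
    push_cast
    rw [← h]
    ring

/-- the value of the integral of `τ ∪ E.f` on a fine cycle. -/
theorem ev_W_one (b : Bool) {q : M} (hq : G.ρ₁ ≤ dist q (G.y (!b))) {T : ℝ} (hT : 0 ≤ T)
    {η₀ : ℝ} (hs : Scl τ G.r (G.y (!b)) E.ε η₀) {u : Ch k (ℝ →ᵇ M)} {η : ℝ}
    (hη' : η ≤ Wε G τ E hD b 1) (hη0 : 0 < η) (hη1 : η ≤ η₀) (hu : Cy (P G.x₀ q T) η D u)
    {ι : Ch k ℝ} (hι : Edge 0 T η₀ ι) :
    ev (Sg.aL n τ.f E.f G.r (G.y (!b))) (sh u ι) = ev (W G τ E hD b 1) u := by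
  obtain ⟨ι₁, h1, h2⟩ := Sg.exists_seg' k hT hη0
  have hι₁ : Edge 0 T η ι₁ := ⟨h1, h2⟩
  have hι₁' : Edge 0 T η₀ ι₁ := ⟨Sp_mono (fun l hl => ⟨hl.1, SmL.mono hl.2 le_rfl hη1⟩) h1, h2⟩
  have e0 := stp_mesh_eq (x₀ := G.x₀) (y' := q) (g := E.f) (d := e) (m := D) τ G.seg G.hr G.hrρ
    G.hn hD hs (E.coc _ _ (T + G.r)) hT le_rfl (hu.mono le_rfl hη1) hι hι₁'
  rw [e0]
  have hu' : Cy (P G.x₀ q T) η ((0 + 1) * D) u := by rwa [Nat.zero_add, Nat.one_mul]
  rw [W_eval0 G τ E hD b 0 hq hT le_rfl hη0 hη' hu' hι₁]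
  refine ev_congr (P := fun L => L.length = D + 2) (fun L hL => ?_) ?_
  · have hl : ((List.drop n L).map (cutp G.r (G.y (!b)))).length = e + 1 := by
      rw [List.length_map, List.length_drop, hL]
      omega
    change intg n τ.f E.f G.r (G.y (!b)) L =
      intg n τ.f (N929.cup e E.f (W G τ E hD (!b) 0)) G.r (G.y (!b)) L
    rw [intg_eq', intg_eq', W_zero, List.map_drop] at *
    rw [N929.cup, List.take_of_length_le hl.le, one1,
      if_pos (by rw [List.length_drop, hl]; omega), mul_one]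
  · exact sh_mem (fun l t L hl ht hG => by
      have := hG.1
      have h3 := hl.1
      have h4 := ht.1
      omega) hu.1 h1

theorem Scl_weak {τ : Tau k M n G.ρ₁} {y : M} {ε ε' η : ℝ} (h : Scl τ G.r y ε η) (hε : ε ≤ ε') :
    Scl τ G.r y ε' η :=
  ⟨h.pos, fun w w' a a' σ σ' b b' c d => (h.mod w w' a a' σ σ' b b' c d).trans_le hε, h.h2, h.h3⟩

/-- **(R)**: `W b (j + 1)` on a product. -/
theorem W_mul (hE : AddE E.f) (he : 1 ≤ e) (hen : e + 1 < n) (hn : Even n) (hDe : Even D)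
    (b : Bool) (j : ℕ) {c s : ℕ} {η : ℝ} (hη0 : 0 < η) (h1 : η ≤ Wε G τ E hD b (j + 1))
    (h2 : η ≤ Wε G τ E hD b 1) {z u : Ch k (ℝ →ᵇ M)}
    (hz : z ∈ Sp k fun l => l.length = j * D + 1 ∧ ∀ w ∈ l, w ∈ P G.x₀ G.x₀ c)
    (hu : Cy (P G.x₀ G.x₀ s) η D u) :
    ev (W G τ E hD b (j + 1)) (mp (catc c) (sh z u)) =
      ev (W G τ E hD b 1) u * ev (W G τ E hD (!b) j) z := by
  obtain ⟨N, hN, hW⟩ := W_succ G τ E hD b j
  have hN0 : (0 : ℝ) < (N : ℝ) + 1 := by positivity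
  set δ : ℝ := 1 / ((N : ℝ) + 1) with hδ
  have hδ0 : 0 < δ := by positivity
  have hmulδ : ∀ a : ℕ, ((a * (N + 1) : ℕ) : ℝ) * δ = a := by
    intro a
    rw [hδ]
    push_cast
    rw [mul_one_div, mul_div_assoc, div_self hN0.ne', mul_one]
  have hxp : G.ρ₁ ≤ dist G.x₀ (G.y (!b)) := G.hx _
  have hn2 := G.hn
  have hedge : ∀ a : ℕ, Edge (k := k) 0 (a : ℝ) (Wε G τ E hD b (j + 1))
      (N929.mesh k δ (a * (N + 1))) := by
    intro a
    have := edge_mesh (k := k) hδ0 hN (a * (N + 1))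
    rwa [hmulδ] at this
  -- the integral
  have e1 : ev (W G τ E hD b (j + 1)) (mp (catc c) (sh z u)) =
      ev (N929.fib (N929.mesh k δ (c * (N + 1) + s * (N + 1)))
        (intg n τ.f (A G τ E hD (!b) j) G.r (G.y (!b)))) (mp (catc c) (sh z u)) := by
    rw [hW]
    have hmem : mp (catc (c : ℝ)) (sh z u) ∈ Sp k fun l : List (ℝ →ᵇ M) => l ≠ [] ∧
        ∀ w ∈ l, w ∈ P G.x₀ G.x₀ ((c : ℝ) + s) := by
      refine map_mem _ (P := fun L : List ((ℝ →ᵇ M) × (ℝ →ᵇ M)) => L ≠ [] ∧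
        ∀ x ∈ L, x.1 ∈ P G.x₀ G.x₀ c ∧ x.2 ∈ P G.x₀ G.x₀ s) (fun L hL => ?_)
        (sh_mem (fun a b L ha hb hG => ⟨?_, fun x hx =>
          ⟨ha.2 _ (hG.2 x hx).1, hb.2.1 _ (hG.2 x hx).2⟩⟩) hz hu.1)
      · rw [mp_single]
        refine single_mem ⟨by simpa using hL.1, fun w hw => ?_⟩ _
        obtain ⟨x, hx, rfl⟩ := List.mem_map.1 hw
        exact cat_mem (Nat.cast_nonneg c) (Nat.cast_nonneg s) (hL.2 x hx).1 (hL.2 x hx).2
      · rintro rfl
        have := hG.1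
        have := ha.1
        have := hb.1
        simp only [List.length_nil] at *
        omega
    refine ev_congr (fun l hl => ?_) hmem
    refine stp_eq (x₀ := G.x₀) (y' := G.x₀) (T := (c : ℝ) + s) τ hxp hδ0 ?_ hl.1 hl.2
    have h3 := hmulδ c
    have h4 := hmulδ s
    push_cast at h3 h4 ⊢
    rw [add_mul, h3, h4]
  rw [e1, N929.ev_fib, map_mesh (hmulδ c)]
  have hcap := cap_formula (x₀ := G.x₀) (q := G.x₀) (q' := G.x₀) (p := G.y (!b)) (c := (c : ℝ))
    (s := (s : ℝ)) (m := D) (m' := j * D) τ G.seg G.hr G.hrρ (W_scl G τ E hD b j)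
    (A_nrm G τ E hD (!b) j) hD (by omega) hz
    (hu.mono le_rfl h1).1 (ι₁ := N929.mesh k δ (c * (N + 1))) (ι := N929.mesh k δ (s * (N + 1)))
    (Sp_mono (fun l hl => ⟨hl.1, fun σ hσ => (hl.2.1 σ hσ).2⟩) (hedge c).1) (hedge s).1
    (Nat.cast_nonneg c)
  change ev (Sg.aL n τ.f (A G τ E hD (!b) j) G.r (G.y (!b))) _ = _
  rw [hcap]
  have hcy := capE_cy (q := G.x₀) (q' := G.x₀) τ G.seg G.hr G.hrρ (by omega) he hD
    (W_scl G τ E hD b j) (hu.mono le_rfl h1) (hedge s)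
  rw [A_cat' G τ E hD hE he hen (!b) j (q := G.x₀) (q' := G.y (!b)) (G.hx _) (G.hy _)
    (c := c) (s := (s : ℝ) + G.r) (by have := G.hr; positivity) hz
    (Sp_mono (fun l hl => ⟨hl.1, hl.2.1⟩) hcy.1), ev_capE,
    ev_W_one G τ E hD b hxp (Nat.cast_nonneg s) (Scl_weak G (W_scl G τ E hD b j)
      (min_le_left _ _)) h2 hη0 h1 hu (hedge s)]
  have s1 : (-1 : k) ^ ((j * D + 1 + 1) * n) = 1 := (hn.mul_left _).neg_one_pow
  have s2 : (-1 : k) ^ ((j * D + 1 + 1) * e) = 1 := by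
    refine Even.neg_one_pow (Even.mul_right ?_ _)
    have h3 : Even (j * D) := hDe.mul_left _
    rw [add_assoc]
    exact h3.add even_two
  rw [s1, s2, one_mul, one_mul]

end

end Vale.Agent.P216.H894
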