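import Vale.Agent.P216.H754B.Wop
import Vale.Agent.P216.H892.LinFive
import Vale.Agent.P216.H894.CellAt

/-!
# P216-C, C07: persistence modules of rank at most one on which an operator acts by a sign

`SgM A O ε C`: up to the shift `C`, the module `A` has rank at most one, and the operator `O` acts
by `ε`.
-/

set_option linter.all false

namespace Vale.Agent.P216.H894

open Vale.Agent.P216.H901 Vale.Agent.P216.H754B

variable {k : Type} [Field k]

/-- Up to the shift `C`: rank at most one, and `O` acts by `ε`. -/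
structure SgM (A : PM k) (O : PMOp A) (ε : k) (C : ℝ) : Prop where
  rk : ∀ s t (hs : 0 < s) (h : s ≤ t), s + C ≤ t → ∀ x y : A.V t,
    ∃ a b : k, (a ≠ 0 ∨ b ≠ 0) ∧ a • A.ρ s t hs h x + b • A.ρ s t hs h y = 0
  sg : ∀ s t (hs : 0 < s) (ht : 0 < t) (h : s ≤ t), s + C ≤ t → ∀ x : A.V t,
    A.ρ s t hs h (O.r t ht x) = ε • A.ρ s t hs h x

variable {A B P X Q R : PM k} {ε ε' : k} {C C' c a b : ℝ}

theorem SgM.mono {O : PMOp A} (h : SgM A O ε C) (hC : C ≤ C') : SgM A O ε C' :=
  ⟨fun s t hs hst h1 => h.rk s t hs hst (by linarith),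
    fun s t hs ht hst h1 => h.sg s t hs ht hst (by linarith)⟩

/-- An ephemeral module. -/
theorem SgM.of_eph (O : PMOp A) (h : A.Eph C) (ε : k) : SgM A O ε C where
  rk s t hs hst h1 x y := ⟨1, 1, Or.inl one_ne_zero, by
    rw [h s t hs hst h1, h s t hs hst h1, smul_zero, add_zero]⟩
  sg s t hs ht hst h1 x := by rw [h s t hs hst h1, h s t hs hst h1, smul_zero]

/-- Transport through an interleaving, if the first map commutes with the operators. -/
theorem SgM.intl {OA : PMOp A} {OB : PMOp B} (I : Intl A B c) (hI : CommF I OA OB ∨ CommG I OA OB)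
    (hc : 0 ≤ c) (hC : 0 ≤ C) (h : SgM B OB ε C) : SgM A OA ε (C + 2 * c) where
  rk s t hs hst h1 x y := by
    have p1 : 0 < s + c := by linarith
    have p2 : 0 < t - c := by linarith
    obtain ⟨u, v, huv, e⟩ := h.rk (s + c) (t - c) p1 (by linarith) (by linarith)
      (I.f (t - c) t p2 (by linarith) x) (I.f (t - c) t p2 (by linarith) y)
    rw [I.ρ_f p2 p1 (by linarith) (by linarith) (by linarith) hc,
      I.ρ_f p2 p1 (by linarith) (by linarith) (by linarith) hc] at e
    refine ⟨u, v, huv, ?_⟩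
    have e' := congrArg (I.g s (s + c) hs le_rfl) e
    rw [map_add, map_smul, map_smul, map_zero, I.gf s (s + c) t hs p1 le_rfl (by linarith) hst,
      I.gf s (s + c) t hs p1 le_rfl (by linarith) hst] at e'
    exact e'
  sg s t hs ht hst h1 x := by
    have p1 : 0 < s + c := by linarith
    have p2 : 0 < t - c := by linarith
    have e := h.sg (s + c) (t - c) p1 p2 (by linarith) (by linarith)
      (I.f (t - c) t p2 (by linarith) x)
    rcases hI with hF | hG
    · rw [← hF (t - c) t p2 ht (by linarith), I.ρ_f p2 p1 _ (by linarith) (by linarith) hc,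
        I.ρ_f p2 p1 _ (by linarith) (by linarith) hc] at e
      have e' := congrArg (I.g s (s + c) hs le_rfl) e
      rw [map_smul, I.gf s (s + c) t hs p1 le_rfl (by linarith) hst,
        I.gf s (s + c) t hs p1 le_rfl (by linarith) hst] at e'
      exact e'
    · rw [OB.nat, I.ρ_f p2 p1 _ (by linarith) (by linarith) hc] at e
      have e' := congrArg (I.g s (s + c) hs le_rfl) e
      rw [hG s (s + c) hs p1 le_rfl, map_smul,
        I.gf s (s + c) t hs p1 le_rfl (by linarith) hst] at e'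
      rw [OA.nat]
      exact e'

/-- An isomorphism commuting with the operators. -/
theorem SgM.iso {OA : PMOp A} {OB : PMOp B} (I : PMIso A B) (hI : IsoOp I OA OB)
    (h : SgM B OB ε C) : SgM A OA ε C where
  rk s t hs hst h1 x y := by
    have ht : 0 < t := hs.trans_le hst
    obtain ⟨u, v, huv, e⟩ := h.rk s t hs hst h1 (I.e t ht x) (I.e t ht y)
    refine ⟨u, v, huv, (I.e s hs).injective ?_⟩
    rw [map_add, map_smul, map_smul, map_zero, ← I.nat s t hs ht hst, ← I.nat s t hs ht hst, e]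
  sg s t hs ht hst h1 x := by
    apply (I.e s hs).injective
    rw [map_smul, ← I.nat s t hs ht hst, ← I.nat s t hs ht hst, hI, h.sg s t hs ht hst h1]

/-! ### Exact sequences `P → X → Q` -/

section Ex

variable {α : ∀ t, 0 < t → P.V t →ₗ[k] X.V t} {β : ∀ t, 0 < t → X.V t →ₗ[k] Q.V t}
  (α_nat : ∀ s t hs ht (h : s ≤ t) x, X.ρ s t hs h (α t ht x) = α s hs (P.ρ s t hs h x))
  (β_nat : ∀ s t hs ht (h : s ≤ t) x, Q.ρ s t hs h (β t ht x) = β s hs (X.ρ s t hs h x))
  (ex : ∀ t ht, Function.Exact (α t ht) (β t ht)) {OP : PMOp P} {OX : PMOp X} {OQ : PMOp Q}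

include α_nat β_nat ex in
/-- The sub is ephemeral. -/
theorem SgM.mid_left (hβ : ∀ t ht x, β t ht (OX.r t ht x) = OQ.r t ht (β t ht x)) (ha : 0 ≤ a)
    (hC : 0 ≤ C) (hP : P.Eph a) (hQ : SgM Q OQ ε C) : SgM X OX ε (C + a) := by
  have key : ∀ s (hs : 0 < s) (p1 : 0 < s + a) (x : X.V (s + a)), β (s + a) p1 x = 0 →
      X.ρ s (s + a) hs (by linarith) x = 0 := by
    intro s hs p1 x hx
    obtain ⟨p, rfl⟩ := (ex _ p1 _).1 hx
    rw [α_nat _ _ hs p1, hP s (s + a) hs _ le_rfl, map_zero]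
  refine ⟨fun s t hs hst h1 x y => ?_, fun s t hs ht hst h1 x => ?_⟩
  · have ht : 0 < t := hs.trans_le hst
    have p1 : 0 < s + a := by linarith
    obtain ⟨u, v, huv, e⟩ := hQ.rk (s + a) t p1 (by linarith) (by linarith) (β t ht x) (β t ht y)
    refine ⟨u, v, huv, ?_⟩
    have e0 : β (s + a) p1 (u • X.ρ (s + a) t p1 (by linarith) x +
        v • X.ρ (s + a) t p1 (by linarith) y) = 0 := by
      rw [map_add, map_smul, map_smul, ← β_nat _ _ p1 ht, ← β_nat _ _ p1 ht, e]
    have e' := key s hs p1 _ e0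
    rw [map_add, map_smul, map_smul, X.ρ_comp _ _ _ _ _ _ _ hst, X.ρ_comp _ _ _ _ _ _ _ hst] at e'
    exact e'
  · have p1 : 0 < s + a := by linarith
    have e := hQ.sg (s + a) t p1 ht (by linarith) (by linarith) (β t ht x)
    rw [← hβ, β_nat _ _ p1 ht, β_nat _ _ p1 ht, ← map_smul, ← sub_eq_zero, ← map_sub] at e
    have e' := key s hs p1 _ e
    rw [map_sub, map_smul, X.ρ_comp _ _ _ _ _ _ _ hst, X.ρ_comp _ _ _ _ _ _ _ hst,
      sub_eq_zero] at e'
    exact e'

include α_nat β_nat ex in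
/-- The quotient is ephemeral. -/
theorem SgM.mid_right (hα : ∀ t ht x, α t ht (OP.r t ht x) = OX.r t ht (α t ht x)) (hb : 0 ≤ b)
    (hC : 0 ≤ C) (hP : SgM P OP ε C) (hQ : Q.Eph b) : SgM X OX ε (C + b) := by
  have key : ∀ s t (hs : 0 < s) (ht : 0 < t) (h : s ≤ t), s + b ≤ t → ∀ x : X.V t,
      ∃ p : P.V s, α s hs p = X.ρ s t hs h x := by
    intro s t hs ht hst h1 x
    refine (ex _ hs _).1 ?_
    rw [← β_nat _ _ hs ht]
    exact hQ s t hs hst h1 _
  refine ⟨fun s t hs hst h1 x y => ?_, fun s t hs ht hst h1 x => ?_⟩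
  · have ht : 0 < t := hs.trans_le hst
    have p1 : 0 < s + C := by linarith
    obtain ⟨p, hp⟩ := key (s + C) t p1 ht (by linarith) (by linarith) x
    obtain ⟨q, hq⟩ := key (s + C) t p1 ht (by linarith) (by linarith) y
    obtain ⟨u, v, huv, e⟩ := hP.rk s (s + C) hs (by linarith) le_rfl p q
    refine ⟨u, v, huv, ?_⟩
    have e' := congrArg (α s hs) e
    rw [map_add, map_smul, map_smul, map_zero, ← α_nat _ _ hs p1, ← α_nat _ _ hs p1, hp, hq,
      X.ρ_comp _ _ _ _ _ _ _ hst, X.ρ_comp _ _ _ _ _ _ _ hst] at e'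
    exact e'
  · have p1 : 0 < s + C := by linarith
    obtain ⟨p, hp⟩ := key (s + C) t p1 ht (by linarith) (by linarith) x
    have e := congrArg (α s hs) (hP.sg s (s + C) hs p1 (by linarith) le_rfl p)
    rw [map_smul, OP.nat, hα, ← α_nat _ _ hs p1, hp, X.ρ_comp _ _ _ _ _ _ _ hst] at e
    rw [OX.nat]
    exact e

end Ex

/-- A map which commutes with the operators, between modules with different signs, vanishes. -/
theorem SgM.zero_of_ne {OQ : PMOp Q} {OR : PMOp R} (δ : PM.Hom Q R)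
    (hδ : ∀ t ht x, δ.f t ht (OQ.r t ht x) = OR.r t ht (δ.f t ht x)) (hC : 0 ≤ C) (hC' : 0 ≤ C')
    (hQ : SgM Q OQ ε C) (hR : SgM R OR ε' C') (hε : ε ≠ ε') {s t : ℝ} (hs : 0 < s) (hst : s ≤ t)
    (h : s + (C + C') ≤ t) (x : Q.V t) : δ.f s hs (Q.ρ s t hs hst x) = 0 := by
  have ht : 0 < t := hs.trans_le hst
  have p1 : 0 < s + C' := by linarith
  have e1 := hQ.sg (s + C') t p1 ht (by linarith) (by linarith) x
  have e2 := hR.sg s (s + C') hs p1 (by linarith) le_rfl
    (δ.f _ p1 (Q.ρ (s + C') t p1 (by linarith) x))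
  rw [← hδ, ← OQ.nat _ _ _ _ ht, e1, map_smul, map_smul, δ.nat _ _ hs p1,
    Q.ρ_comp _ _ _ _ _ _ _ hst] at e2
  have e3 : (ε - ε') • δ.f s hs (Q.ρ s t hs hst x) = 0 := by rw [sub_smul, e2, sub_self]
  rcases smul_eq_zero.1 e3 with h4 | h4
  · exact absurd (sub_eq_zero.1 h4) hε
  · exact h4

/-! ### The generating family -/

/-- **The generator.** -/
theorem SgM.exists_gen {O : PMOp A} (h : SgM A O ε C) (hC : 0 ≤ C) (hb : 0 ≤ b)
    (hB : A.BFB b) : ∃ g : A.Fam, A.Line g b ∧ ∀ t (ht : 0 < t), O.r t ht (g.z t ht) =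
      ε • g.z t ht := by
  have hsg : ∀ (g : A.Fam) t (ht : 0 < t), O.r t ht (g.z t ht) = ε • g.z t ht := by
    intro g t ht
    have p1 : 0 < t + C := by linarith
    have e := h.sg t (t + C) ht p1 (by linarith) le_rfl (g.z _ p1)
    rw [O.nat, g.comp] at e
    exact e
  by_cases h0 : ∃ g : A.Fam, ∃ s hs, g.z s hs ≠ 0
  · obtain ⟨g, s₀, hs₀, hg⟩ := h0
    refine ⟨g, ?_, hsg g⟩
    -- every family is a multiple of `g`
    have key : ∀ o : A.Fam, ∃ a : k, ∀ s hs, o.z s hs = a • g.z s hs := by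
      intro o
      have hne : ∀ s (hs : 0 < s), s₀ ≤ s → g.z s hs ≠ 0 := by
        intro s hs hle e
        apply hg
        rw [← g.comp s₀ s hs₀ hle, e, map_zero]
      have h1 : ∀ s (hs : 0 < s), s₀ ≤ s → ∃ a : k, o.z s hs = a • g.z s hs := by
        intro s hs hle
        have p1 : 0 < s + C := by linarith
        obtain ⟨u, v, huv, e⟩ := h.rk s (s + C) hs (by linarith) le_rfl (g.z _ p1) (o.z _ p1)
        rw [g.comp, o.comp] at e
        have hv : v ≠ 0 := by
          rintro rfl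
          rw [zero_smul, add_zero] at e
          rcases smul_eq_zero.1 e with h5 | h5
          · rcases huv with h6 | h6
            · exact h6 h5
            · exact h6 rfl
          · exact hne s hs hle h5
        refine ⟨-(v⁻¹ * u), ?_⟩
        have e' := congrArg (v⁻¹ • ·) e
        simp only [smul_add, smul_smul, inv_mul_cancel₀ hv, one_smul, smul_zero] at e'
        rw [neg_smul]
        exact eq_neg_of_add_eq_zero_right e'
      obtain ⟨a, ha⟩ := h1 s₀ hs₀ le_rfl
      refine ⟨a, fun s hs => ?_⟩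
      rcases le_total s s₀ with hle | hle
      · rw [← o.comp s s₀ hs hle, ha, map_smul, g.comp]
      · obtain ⟨a', ha'⟩ := h1 s hs hle
        have e1 : o.z s₀ hs₀ = a' • g.z s₀ hs₀ := by
          rw [← o.comp s₀ s hs₀ hle, ha', map_smul, g.comp]
        have e2 : a' = a := by
          rw [ha] at e1
          have e3 : (a - a') • g.z s₀ hs₀ = 0 := by rw [sub_smul, e1, sub_self]
          rcases smul_eq_zero.1 e3 with h4 | h4
          · exact (sub_eq_zero.1 h4).symm
          · exact absurd h4 hg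
        rw [ha', e2]
    intro s t hs hst h1 x
    obtain ⟨o, ho⟩ := hB s t hs hst h1 x
    obtain ⟨a, ha⟩ := key o
    exact ⟨a, by rw [ho, ha]⟩
  · push Not at h0
    refine ⟨PM.Fam.zero A, fun s t hs hst h1 x => ⟨0, ?_⟩, hsg _⟩
    obtain ⟨o, ho⟩ := hB s t hs hst h1 x
    rw [ho, h0 o s hs, zero_smul]

/-- The generator is nonzero where there is a stable class. -/
theorem line_ne {g : A.Fam} (hg : A.Line g b) {s t : ℝ} (hs : 0 < s) (hst : s ≤ t)
    (h : s + b ≤ t) {x : A.V t} (hx : A.ρ s t hs hst x ≠ 0) : g.z s hs ≠ 0 := by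
  intro e
  obtain ⟨a, ha⟩ := hg s t hs hst h x
  rw [e, smul_zero] at ha
  exact hx ha

/-- **The final form**: a step module. -/
theorem SgM.exists_gen_step {O : PMOp A} {T : ℝ} (h : SgM A O ε C) (hC : 0 ≤ C) (hT : 0 ≤ T)
    (hc : 0 < c) (hS : A.Step T c) : ∃ g : A.Fam, A.Line g (3 * c) ∧
      ∀ t (ht : 0 < t), O.r t ht (g.z t ht) = ε • g.z t ht :=
  h.exists_gen hC (by linarith) (hS.bfb hT hc)

end Vale.Agent.P216.H894
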