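import Vale.Agent.P216.H456.SFam
import Vale.Agent.P216.H250.Pi0P
import Vale.Agent.P216.H250.Move
import Vale.Agent.P216.MV337.ToX

/-!
# P216-B, block B43-SIGN, (5)(e): composition with a fixed loop is the inclusion

On the based loops `P x₀ x₀ t`, composition with a fixed loop `v` is homotopic to the inclusion
in `P x₀ x₀ (t + L + K)`, with a constant `K` independent of `t` and of `v`.
-/

set_option linter.all false

open Set Filter Topology BoundedContinuousFunction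

namespace Vale.Agent.P216.H894

open PS MV337 H456
open Vale.Agent.P216.H901 (Hp tr on)
open Vale.Agent.P216.H250 (revB revB_mem revB_apply)
open Vale.Agent.P216.B64 (HU UMap hpull hres)

variable {M : Type} [MetricSpace M] [CompactSpace M] {a x₀ : M} {t T L K : ℝ} {v : ℝ →ᵇ M}

/-- Composition on the left with a family of loops. -/
theorem Wt_left (ht : 0 ≤ t) (hT : 0 ≤ T) {V : ℝ → ℝ →ᵇ M} {τ : ℝ → ℝ}
    (hV : ContinuousOn V (Icc 0 1)) (hτ : ContinuousOn τ (Icc 0 1))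
    (hm : ∀ s ∈ Icc (0 : ℝ) 1, V s ∈ P a a (τ s) ∧ 0 ≤ τ s ∧ t + τ s ≤ T) :
    Hp (P a a t) ∅ (P a a T) ∅ (cat (τ 0) (V 0)) (cat (τ 1) (V 1)) := by
  have hmem : ∀ s ∈ Icc (0 : ℝ) 1, ∀ g ∈ P a a t, cat (τ s) (V s) g ∈ P a a T := by
    intro s hs g hg
    obtain ⟨h1, h2, h3⟩ := hm s hs
    exact P_mono (by linarith) (cat_mem h2 ht h1 hg)
  refine hp_of_cont (F := fun p : ℝ × (ℝ →ᵇ M) => cat (τ p.1) (V p.1) p.2)
    (isCompact_P a a t) ?_ hmem (fun s _ x hx => hx.elim)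
    (fun x _ => rfl) (fun x _ => rfl)
  refine continuousOn_cat (T := ℝ × (ℝ →ᵇ M)) (s := fun p => τ p.1) (t := T) hT
    (hV.comp continuousOn_fst fun p hp => hp.1) continuousOn_snd
    (hτ.comp continuousOn_fst fun p hp => hp.1) (fun p hp => (hm p.1 hp.1).1.1)
    (fun p hp => hp.2.1) (fun p hp => ?_) fun p hp => P_subset_PP (hmem p.1 hp.1 p.2 hp.2)
  rw [eq_right (hm p.1 hp.1).1 le_rfl, eq_left hp.2 le_rfl]

/-- Composition on the right with a family of loops. -/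
theorem Wt_right (ht : 0 ≤ t) (hL : 0 ≤ L) {V : ℝ → ℝ →ᵇ M} (hV : ContinuousOn V (Icc 0 1))
    (hm : ∀ s ∈ Icc (0 : ℝ) 1, V s ∈ P a a L) (hT : t + L ≤ T) :
    Hp (P a a t) ∅ (P a a T) ∅ (fun g => cat t g (V 0)) (fun g => cat t g (V 1)) := by
  have hmem : ∀ s ∈ Icc (0 : ℝ) 1, ∀ g ∈ P a a t, cat t g (V s) ∈ P a a T := by
    intro s hs g hg
    exact P_mono (by linarith) (cat_mem ht hL hg (hm s hs))
  refine hp_of_cont (F := fun p : ℝ × (ℝ →ᵇ M) => cat t p.2 (V p.1))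
    (isCompact_P a a t) ?_ hmem (fun s _ x hx => hx.elim)
    (fun x _ => rfl) (fun x _ => rfl)
  refine continuousOn_cat (T := ℝ × (ℝ →ᵇ M)) (s := fun _ => t) (t := T) (by linarith)
    continuousOn_snd (hV.comp continuousOn_fst fun p hp => hp.1) continuousOn_const
    (fun p hp => hp.2.1) (fun p hp => (hm p.1 hp.1).1)
    (fun p hp => ?_) fun p hp => P_subset_PP (hmem p.1 hp.1 p.2 hp.2)
  rw [eq_right hp.2 le_rfl, eq_left (hm p.1 hp.1) le_rfl]

theorem Wt_cat_cst (g : ℝ →ᵇ M) (hg : g ∈ P a a t) : cat t g (cst a) = g := by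
  ext u
  rw [cat_apply hg.1 (lip_cst a) (by rw [eq_right hg le_rfl, cst_apply])]
  unfold catf
  split_ifs with h
  · rfl
  · rw [eq_right hg (le_of_not_ge h), cst_apply]

theorem Wt_cst_cat (g : ℝ →ᵇ M) (hg : g ∈ P a a t) : cat 0 (cst a) g = g := by
  ext u
  rw [cat_apply (lip_cst a) hg.1 (by rw [eq_left hg le_rfl, cst_apply])]
  unfold catf
  split_ifs with h
  · rw [eq_left hg h, cst_apply]
  · rw [sub_zero]

/-- a path as a function on the line -/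
theorem Wt_path {w w' : ℝ →ᵇ M} {S : Set (ℝ →ᵇ M)} (h : JoinedIn S w w') :
    ∃ V : ℝ → ℝ →ᵇ M, Continuous V ∧ (∀ s, V s ∈ S) ∧ V 0 = w ∧ V 1 = w' := by
  obtain ⟨γ, hγ⟩ := h
  refine ⟨fun s => γ (projIcc 0 1 zero_le_one s), γ.continuous.comp continuous_projIcc,
    fun s => hγ _, ?_, ?_⟩
  · show γ (projIcc 0 1 zero_le_one 0) = w
    rw [projIcc_left]
    exact γ.source
  · show γ (projIcc 0 1 zero_le_one 1) = w'
    rw [projIcc_right]
    exact γ.target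

/-- change of the map on `X` -/
theorem Wt_map_congr {E E' : Type} [PseudoMetricSpace E] [PseudoMetricSpace E'] {X : Set E}
    {Y : Set E'} {f g : E → E'} (h : UMap X Y f) (he : EqOn f g X) : UMap X Y g where
  mapsX x hx := he hx ▸ h.mapsX hx
  eqv i := i.elim
  uc ε hε := by
    obtain ⟨δ, hδ, h'⟩ := h.uc ε hε
    exact ⟨δ, hδ, fun x hx y hy hxy => by rw [← he hx, ← he hy]; exact h' x hx y hy hxy⟩

section Coh

variable {k : Type} [Field k] {q : ℕ}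

/-- **Composition on the left with a loop which is joined to the constant loop.** -/
theorem Wt_pull_left (ht : 0 ≤ t) (hL : 0 ≤ L) (hK : 0 ≤ K) (hv : v ∈ P a a L)
    (hj : JoinedIn (P a a (L + K)) (cst a) v) (hT : t + L + K ≤ T)
    (h : UMap (P a a t) (P a a T) (cat L v)) (hS : P a a t ⊆ P a a T) (z : HU k (P a a T) q) :
    hpull k h q z = hres k hS q z := by
  have hT0 : 0 ≤ T := by linarith
  obtain ⟨V, hV, hVm, hV0, hV1⟩ := Wt_path hj
  -- waiting at the start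
  have H1 := Wt_left (t := t) (T := T) ht hT0 (V := fun _ => cst a) (τ := fun s => s * (L + K))
    continuousOn_const (by fun_prop) fun s hs => by
      have h1 : 0 ≤ s * (L + K) := mul_nonneg hs.1 (by linarith)
      have h2 : s * (L + K) ≤ L + K := by nlinarith [hs.2]
      exact ⟨cst_mem a _, h1, by linarith⟩
  -- from the constant loop to `v`
  have H2 := Wt_left (t := t) (T := T) ht hT0 (V := V) (τ := fun _ => L + K)
    hV.continuousOn continuousOn_const fun s _ => ⟨hVm s, by linarith, by linarith⟩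
  -- waiting after `v`
  have H3 := Wt_left (t := t) (T := T) ht hT0 (V := fun _ => v) (τ := fun s => L + K - s * K)
    continuousOn_const (by fun_prop) fun s hs => by
      have h1 : 0 ≤ s * K := mul_nonneg hs.1 hK
      have h2 : s * K ≤ K := by nlinarith [hs.2]
      exact ⟨P_mono (by linarith) hv, by linarith, by linarith⟩
  simp only [zero_mul, one_mul, sub_zero, add_sub_cancel_right] at H1 H2 H3
  rw [hV0, hV1] at H2
  have umap : ∀ {f g : (ℝ →ᵇ M) → (ℝ →ᵇ M)}, Hp (P a a t) ∅ (P a a T) ∅ f g →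
      UMap (P a a t) (P a a T) f ∧ UMap (P a a t) (P a a T) g := by
    rintro f g ⟨D, hD, -, h0, h1⟩
    exact ⟨Wt_map_congr hD.zero h0, Wt_map_congr hD.one h1⟩
  rw [← hpull_hp (umap H3).1 h H3, ← hpull_hp (umap H2).1 (umap H3).1 H2,
    ← hpull_hp (umap H1).1 (umap H1).2 H1,
    hpull_congr (umap H1).1 (AS.IsMap.id_of_subset hS) (fun g hg => Wt_cst_cat g hg)]
  exact hpull_id _ _ z

/-- **Composition on the right with a loop which is joined to the constant loop.** -/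
theorem Wt_pull_right (ht : 0 ≤ t) (hL : 0 ≤ L) (hv : v ∈ P a a L)
    (hj : JoinedIn (P a a L) (cst a) v) (hT : t + L ≤ T)
    (h : UMap (P a a t) (P a a T) (fun g => cat t g v)) (hS : P a a t ⊆ P a a T)
    (z : HU k (P a a T) q) : hpull k h q z = hres k hS q z := by
  obtain ⟨V, hV, hVm, hV0, hV1⟩ := Wt_path hj
  have H := Wt_right (t := t) (T := T) ht hL (V := V) hV.continuousOn (fun s _ => hVm s) hT
  rw [hV0, hV1] at H
  have h0 : UMap (P a a t) (P a a T) (fun g => cat t g (cst a)) := by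
    obtain ⟨D, hD, -, e0, e1⟩ := H
    exact Wt_map_congr hD.zero e0
  rw [← hpull_hp h0 h H,
    hpull_congr h0 (AS.IsMap.id_of_subset hS) (fun g hg => Wt_cat_cst g hg)]
  exact hpull_id _ _ z

end Coh

/-! ### The families of loops of the two trivialisations -/

section Sig

variable {D : Set M} {x : M} {ℓ : ℝ} {Tp Tm : M → ℝ → M}

theorem Wt_sL (hp : Tr D x₀ ℓ Tp) (hm : Tr D x₀ ℓ Tm) (hx : x ∈ D) :
    sL Tp Tm ℓ x = cat (2 * ℓ) (revB (2 * ℓ) (mo (sig Tp Tm ℓ x))) := by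
  funext g
  unfold sL cat
  congr 1
  funext u
  unfold lj catf
  split_ifs
  · rw [revB_apply, (lip_sig hp hm hx).mo_apply]
  · rfl

theorem Wt_sR (hp : Tr D x₀ ℓ Tp) (hm : Tr D x₀ ℓ Tm) (hx : x ∈ D) (t : ℝ) :
    sR Tp Tm ℓ t x = fun g => cat t g (mo (sig Tp Tm ℓ x)) := by
  funext g
  unfold sR cat
  congr 1
  funext u
  unfold catf
  split_ifs
  · rfl
  · rw [(lip_sig hp hm hx).mo_apply]

/-- **(5)(e).** Composition with `σ_x` on the left or on the right is the inclusion, after a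
constant `K` which is independent of everything. -/
theorem exists_wait [SimplyConnectedSpace M] {ρ : ℝ} (hρ : 0 < ρ) (hs : LS.UniqSeg M ρ) :
    ∃ K : ℝ, 0 ≤ K ∧ ∀ {D : Set M} {x₀ x : M} {ℓ : ℝ} {Tp Tm : M → ℝ → M},
      Tr D x₀ ℓ Tp → Tr D x₀ ℓ Tm → x ∈ D → ∀ {t T : ℝ}, 0 ≤ t → t + 2 * ℓ + K ≤ T →
      ∀ (k : Type) [Field k] (q : ℕ) (hS : P x₀ x₀ t ⊆ P x₀ x₀ T) (z : HU k (P x₀ x₀ T) q),
      (∀ h : UMap (P x₀ x₀ t) (P x₀ x₀ T) (sL Tp Tm ℓ x), hpull k h q z = hres k hS q z) ∧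
      ∀ h : UMap (P x₀ x₀ t) (P x₀ x₀ T) (sR Tp Tm ℓ t x), hpull k h q z = hres k hS q z := by
  obtain ⟨K, hK, -, hj⟩ := H250.pi0 hρ hs
  refine ⟨K, hK, ?_⟩
  intro D x₀ x ℓ Tp Tm hp hm hx t T ht hT k _ q hS z
  have hℓ : 0 ≤ 2 * ℓ := by linarith [hp.nonneg]
  have hv : mo (sig Tp Tm ℓ x) ∈ P x₀ x₀ (2 * ℓ) := mo_sig_mem hp hm hx
  refine ⟨fun h => ?_, fun h => ?_⟩
  · have e := Wt_sL hp hm hx
    have h' : UMap (P x₀ x₀ t) (P x₀ x₀ T) (cat (2 * ℓ) (revB (2 * ℓ) (mo (sig Tp Tm ℓ x)))) := by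
      rw [← e]; exact h
    have e1 : hpull k h q z = hpull k h' q z := hpull_congr h h' (fun g _ => by rw [e]) z
    rw [e1]
    exact Wt_pull_left ht hℓ hK (revB_mem hv)
      (hj x₀ x₀ (2 * ℓ) hℓ _ (cst_mem x₀ _) _ (revB_mem hv)) hT h' hS z
  · have e := Wt_sR hp hm hx t
    have h' : UMap (P x₀ x₀ t) (P x₀ x₀ T) (fun g => cat t g (mo (sig Tp Tm ℓ x))) := by
      rw [← e]; exact h
    have e1 : hpull k h q z = hpull k h' q z := hpull_congr h h' (fun g _ => by rw [e]) z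
    rw [e1]
    exact Wt_pull_right (L := 2 * ℓ + K) ht (by linarith) (P_mono (by linarith) hv)
      (hj x₀ x₀ (2 * ℓ) hℓ _ (cst_mem x₀ _) _ hv) (by linarith) h' hS z

/-- **(5)(e)**, with an intermediate level `u`: `g ↦ σ_x⁻¹ * g` and `g ↦ g * σ_x`, as maps from
`P x₀ x₀ t` to `P x₀ x₀ u`, `t + 2 ℓ ≤ u`, followed by the inclusion in `P x₀ x₀ T`. -/
theorem exists_wait' [SimplyConnectedSpace M] {ρ : ℝ} (hρ : 0 < ρ) (hs : LS.UniqSeg M ρ) :
    ∃ K : ℝ, 0 ≤ K ∧ ∀ {D : Set M} {x₀ x : M} {ℓ : ℝ} {Tp Tm : M → ℝ → M},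
      Tr D x₀ ℓ Tp → Tr D x₀ ℓ Tm → x ∈ D → ∀ {t u T : ℝ}, 0 ≤ t → t + 2 * ℓ + K ≤ T →
      ∀ (k : Type) [Field k] (q : ℕ) (hS : P x₀ x₀ t ⊆ P x₀ x₀ T)
        (hu : P x₀ x₀ u ⊆ P x₀ x₀ T) (z : HU k (P x₀ x₀ T) q),
      (∀ h : UMap (P x₀ x₀ t) (P x₀ x₀ u) (sL Tp Tm ℓ x),
        hpull k h q (hres k hu q z) = hres k hS q z) ∧
      ∀ h : UMap (P x₀ x₀ t) (P x₀ x₀ u) (sR Tp Tm ℓ t x),
        hpull k h q (hres k hu q z) = hres k hS q z := by
  obtain ⟨K, hK, h0⟩ := exists_wait hρ hs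
  refine ⟨K, hK, ?_⟩
  intro D x₀ x ℓ Tp Tm hp hm hx t u T ht hT k _ q hS hu z
  obtain ⟨h1, h2⟩ := h0 hp hm hx ht hT k q hS z
  refine ⟨fun h => ?_, fun h => ?_⟩
  · have h' : UMap (P x₀ x₀ t) (P x₀ x₀ T) (sL Tp Tm ℓ x) :=
      ⟨fun _ hx => hu (h.mapsX hx), fun i => i.elim, h.uc⟩
    rw [hpull_hres h hu h', h1 h']
  · have h' : UMap (P x₀ x₀ t) (P x₀ x₀ T) (sR Tp Tm ℓ t x) :=
      ⟨fun _ hx => hu (h.mapsX hx), fun i => i.elim, h.uc⟩
    rw [hpull_hres h hu h', h2 h']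

end Sig

end Vale.Agent.P216.H894
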